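import Vale.Agent.P280Z.Rh.Defs

/-!
# P280Z, block Cv: the cases of second Betti number one
-/

open Vale.Agent.P272.K Vale.Agent.P285.H281.FD Vale.Agent.P281Z
open Vale.Agent.P280Z.Mp (Eqs)

noncomputable section

namespace Vale.Agent.P280Z.Cv

/-- the case of dimension `n` and pseudoindex `m + 2` -/
def CS (n m : ℕ) : Prop := ∀ T : CT, Rh.Th T → ∀ {N r d D k δ : ℕ} {V : Mf n} {P : Eqs r N}
  {pt : Cm N → V.X} (F : Mp.Fam V P pt d D k) (E : VB F.U.X), Sit T δ F m E → NefRC n V.X →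
  Iota n V.X ((m : ℤ) + 2) → Gp.Gen n V.X

/-- all the cases -/
structure Css : Prop where
  c0 : ∀ n, 2 ≤ n → CS n 0
  c31 : CS 3 1
  c41 : CS 4 1
  c51 : CS 5 1
  c61 : CS 6 1
  c42 : CS 4 2
  c52 : CS 5 2
  c62 : CS 6 2
  c53 : CS 5 3
  c63 : CS 6 3
  c64 : CS 6 4

end Vale.Agent.P280Z.Cv
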