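import Vale.Agent.P280Z.Cv.Sk2
import Vale.Agent.P280Z.Mp.Bf
import Vale.Agent.P281Z.Mf.Mod

/-!
# P280Z, block Cv: one component of a family
-/

open scoped Manifold ContDiff Topology Matrix Matrix.Norms.Elementwise
open Set Filter
open Vale.Agent.P272.K Vale.Agent.P281Z Vale.Agent.P280Z.Mp

noncomputable section

namespace Vale.Agent.P280Z.Cv

namespace CmpH
variable {n N r d D k : ℕ} {V : Mf n} {P : Eqs r N} {pt : Cm N → V.X}

theorem at_ch {m : ℕ} (K : Mf m) (y : K.X) : At (chartAt (Cm m) y) y :=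
  ⟨chart_mem_atlas _ _, mem_chart_source _ _⟩

/-- continuity of the class map -/
theorem cont (F : Mp.Fam V P pt d D k) {a : BF d N} (ha : F.M a) {O : Set F.K.X} (hO : IsOpen O)
    (h : F.pk a ∈ O) : ∀ᶠ b in 𝓝 a, Crv P b → F.pk b ∈ O := by
  obtain ⟨σ, χ, c, hs, -, h1, h2, -⟩ := F.chart a ha
  obtain ⟨vv, gg, a1, -, e1, -, e3⟩ := hs.loc 0 hs.mem
  rw [hs.zero] at a1 e1 e3
  have t : Tendsto vv (𝓝 a) (𝓝 0) := e1 ▸ a1.continuousAt
  have c0 : ContinuousAt χ.symm 0 := χ.continuousAt_symm hs.mem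
  have e0 : χ.symm 0 = F.pk a := by rw [h1 0 hs.mem, hs.zero]
  filter_upwards [t.eventually (hs.opn.mem_nhds hs.mem),
    t.eventually (c0.eventually (hO.mem_nhds (e0 ▸ h))), e3, F.opn a (F.cd a ha).1]
    with b b1 b2 b3 b4 hb
  rw [← (F.pk_eq _ _ (h2 _ b1) ((b4 hb).2 ha)).2 ⟨_, b3 hb⟩, ← h1 _ b1]
  exact b2

theorem fib (F : Mp.Fam V P pt d D k) (hd : 0 < d) (y : F.K.X) : IsConnected (F.p ⁻¹' {y}) := by
  obtain ⟨a, ha, rfl⟩ := F.pk_onto y
  have e : F.p ⁻¹' {F.pk a} = F.pu a '' {0}ᶜ := by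
    ext x
    constructor
    · intro hx
      obtain ⟨b, z, hb, hz, rfl⟩ := F.pu_onto x
      obtain ⟨g, rfl⟩ := (F.pk_eq a b ha hb).1 (((F.p_pu b z hb hz).symm.trans hx).symm)
      have hg : g *ᵥ z ≠ 0 := fun q => hz (Matrix.eq_zero_of_mulVec_eq_zero
        (det_ne hd (F.cd _ hb).1.nz) q)
      exact ⟨g *ᵥ z, hg, (F.pu_eq _ _ _ _ ha hb hg hz).2 ⟨g, 1, rfl, (one_smul _ _).symm⟩⟩
    · rintro ⟨z, hz, rfl⟩
      exact F.p_pu a z ha hz
  rw [e]
  refine (isConnected_compl_singleton_of_one_lt_rank ?_ 0).image _ fun z hz => ?_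
  · rw [← Module.finrank_eq_rank, Module.finrank_pi_fintype]
    simp
  · exact (F.fam_u (fun _ => a) (fun s => s) z _ analyticAt_const analyticAt_id
      (Eventually.of_forall fun _ => ha) hz (at_ch _ _)).1.continuousWithinAt

end CmpH

open CmpH in
theorem cmp_of (maps : MAPS) : CMP := by
  intro n N r δ d D k V P pt F H hk a ha
  have : LocallyConnectedSpace F.K.X := ChartedSpace.locallyConnectedSpace (Cm k) F.K.X
  have hC : IsClopen (connectedComponent (F.pk a)) := isClopen_connectedComponent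
  obtain ⟨G, hG⟩ := maps V P δ pt d D k
    (fun b => F.M b ∧ F.pk b ∈ connectedComponent (F.pk a)) H.cone H.pos H.low H.gen hk
    (fun b hb => F.cd b hb.1)
    (fun b g hb hg => ⟨F.inv b g hb.1 hg, by
      rw [← (F.pk_eq b _ hb.1 (F.inv b g hb.1 hg)).2 ⟨g, rfl⟩]; exact hb.2⟩)
    (fun b hb => by
      by_cases h : F.M b
      · by_cases h' : F.pk b ∈ connectedComponent (F.pk a)
        · filter_upwards [F.opn b hb, cont F h hC.2 h'] with c c1 c2 hc
          exact iff_of_true ⟨(c1 hc).2 h, c2 hc⟩ ⟨h, h'⟩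
        · filter_upwards [cont F h hC.1.isOpen_compl h'] with c c2 hc
          exact iff_of_false (fun q => c2 hc q.2) fun q => h' q.2
      · filter_upwards [F.opn b hb] with c c1 hc
        exact iff_of_false (fun q => h ((c1 hc).1 q.1)) fun q => h q.1)
    ⟨a, ha, mem_connectedComponent⟩
  have m : ∀ b, G.M b ↔ F.M b ∧ F.pk b ∈ connectedComponent (F.pk a) := fun b => by rw [hG]
  have ga : G.M a := (m a).2 ⟨ha, mem_connectedComponent⟩
  refine ⟨G, ga, fun b hb => ((m b).1 hb).1, ?_⟩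
  have op : ∀ S : Set G.K.X, IsOpen S → IsOpen {y | ∃ b, G.M b ∧ G.pk b ∈ S ∧ F.pk b = y} := by
    intro S hS
    refine isOpen_iff_mem_nhds.2 ?_
    rintro _ ⟨b, hb, hb', rfl⟩
    obtain ⟨σ, χ, c, hs, -, h1, h2, -⟩ := F.chart b ((m b).1 hb).1
    have e0 : χ.symm 0 = F.pk b := by rw [h1 0 hs.mem, hs.zero]
    have s0 : F.pk b ∈ χ.source := e0 ▸ χ.map_target hs.mem
    have e1 : χ (F.pk b) = 0 := by rw [← e0, χ.right_inv hs.mem]
    have t : Tendsto χ (𝓝 (F.pk b)) (𝓝 0) := e1 ▸ χ.continuousAt s0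
    have t' : Tendsto σ (𝓝 0) (𝓝 b) := hs.zero ▸ (hs.an 0 hs.mem).continuousAt
    filter_upwards [χ.open_source.mem_nhds s0, (t'.comp t).eventually (cont G hb hS hb'),
      (t'.comp t).eventually (G.opn b (G.cd b hb).1)] with y y1 y2 y3
    have q := (hs.cd _ (χ.map_source y1)).1
    exact ⟨_, (y3 q).2 hb, y2 q, (h1 _ (χ.map_source y1)).symm.trans (χ.left_inv y1)⟩
  have hK : IsConnected (univ : Set G.K.X) := by
    refine ⟨⟨G.pk a, trivial⟩, (isPreconnected_iff_subset_of_disjoint).2 fun S S' hS hS' h1 h2 => ?_⟩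
    have dj : ∀ b c, G.M b → G.M c → G.pk b ∈ S → G.pk c ∈ S' → F.pk b ≠ F.pk c :=
      fun b c hb hc h3 h4 q => by
        have := (G.pk_eq b c hb hc).2 ((F.pk_eq b c ((m b).1 hb).1 ((m c).1 hc).1).1 q)
        exact (h2.subset ⟨mem_univ (G.pk b), h3, this ▸ h4⟩ : _ ∈ (∅ : Set G.K.X))
    have := (isPreconnected_iff_subset_of_disjoint.1
      (isPreconnected_connectedComponent (x := F.pk a))) _ _ (op S hS) (op S' hS') (fun y hy => by
        obtain ⟨b, hb, rfl⟩ := F.pk_onto y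
        have gb := (m b).2 ⟨hb, hy⟩
        exact (h1 (mem_univ (G.pk b))).imp (fun q => ⟨b, gb, q, rfl⟩) fun q => ⟨b, gb, q, rfl⟩)
      (eq_empty_of_forall_notMem (by
        rintro y ⟨-, ⟨b, hb, h3, rfl⟩, c, hc, h4, q⟩
        exact dj b c hb hc h3 h4 q.symm))
    refine this.imp (fun q y _ => ?_) fun q y _ => ?_
    · obtain ⟨b, hb, rfl⟩ := G.pk_onto y
      obtain ⟨c, hc, h3, e⟩ := q ((m b).1 hb).2
      exact (h1 (mem_univ _)).resolve_right fun h4 => dj c b hc hb h3 h4 e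
    · obtain ⟨b, hb, rfl⟩ := G.pk_onto y
      obtain ⟨c, hc, h3, e⟩ := q ((m b).1 hb).2
      exact (h1 (mem_univ _)).resolve_left fun h4 => dj b c hb hc h4 h3 e.symm
  exact connectedSpace_iff_univ.2 (conn_pre G.p_hol.cont (fib G H.pos) isClosed_univ hK)

end Vale.Agent.P280Z.Cv
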