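import Vale.Agent.P280Z.Fb.Top2
import Vale.Agent.P280Z.En.C61
import Vale.Agent.P280Z.M2.C62z
import Vale.Agent.P280Z.M2.C62e
import Vale.Agent.P280Z.M2.C62f
import Vale.Agent.P280Z.M2.Y062

/-!
# P280Z: dimension at most six, from one statement of real algebra
-/

open Vale.Agent.P272.K Vale.Agent.P281Z

noncomputable section

namespace Vale.Agent.P280Z.Cv

theorem c62_c1 (c : M2.C1) : CS 6 2 :=
  M2.c62_cII (M2.cII_of c M2.c2 fun _ _ _ _ _ _ _ _ _ _ _ _ _ _ h _ => M2.y0 h)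

theorem six_c1 (c : M2.C1) {n : ℕ} (V : Mf n) (hn : n ≤ 6) (hF : Fano n V.X) (hN : NefT n V.X) :
    Gp.RatHom n V.X :=
  Fb.gen V hn hF hN (fun _ _ _ => En.c61) fun _ _ _ => c62_c1 c

end Vale.Agent.P280Z.Cv
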