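import Vale.Agent.P280Z.Cv.Sk
import Vale.Agent.P280Z.Ma.Defs
import Vale.Agent.P280Z.Co.Ct

/-!
# P280Z, block Cv: the bridge from the statement to the family, and the seams of stage one
-/

open scoped Manifold ContDiff Topology Matrix
open Set Filter
open Vale.Agent.P272.K Vale.Agent.P285.H281.FD Vale.Agent.P281Z
open Vale.Agent.P277 (Bd.inv)
open Vale.Agent.P280Z.Mp (BF M2 Eqs Crv CD)

noncomputable section

namespace Vale.Agent.P280Z.Cv

/-- two classes of degree two are dependent -/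
def B2T (T : CT) {n : ℕ} (V : Mf n) : Prop :=
  ∀ a b : T.H V, T.Dg V 1 a → T.Dg V 1 b → ∃ c c' : ℝ, (c ≠ 0 ∨ c' ≠ 0) ∧ c • a + c' • b = 0

/-- row B2B: the second Betti number in the concrete theory -/
def B2B : Prop := ∀ (n : ℕ) (V : Mf n), B2 n V.X → B2T Co.ct V

/-- the curves of minimal degree -/
def BRG : Prop := ∀ (n : ℕ) (V : Mf n) (i : ℕ), Fano n V.X → NefRC n V.X → Iota n V.X i →
  ∃ (m N r δ : ℕ) (P : Eqs r N) (pt : Cm N → V.X), 0 < m ∧ Hyp V P δ pt (m * i) ∧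
    (∀ a : BF (m * i) N, Crv P a → CD P (n + 1 + i) a) ∧ ∃ a : BF (m * i) N, Crv P a

/-- one component of a family -/
def CMP : Prop := ∀ {n N r δ d D k : ℕ} {V : Mf n} {P : Eqs r N} {pt : Cm N → V.X}
  (F : Mp.Fam V P pt d D k), Hyp V P δ pt d → k + 4 = D → ∀ a, F.M a →
  ∃ F' : Mp.Fam V P pt d D k, F'.M a ∧ (∀ b, F'.M b → F.M b) ∧ ConnectedSpace F'.U.X

/-- the numerical structure of a family -/
abbrev nsF (T : CT) {n N r d D k : ℕ} {V : Mf n} {P : Eqs r N} {pt : Cm N → V.X}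
    (F : Mp.Fam V P pt d D k) (E : VB F.U.X) : NS (T.H V) (T.H F.U) :=
  T.ns F.p_hol F.e_hol ((d : ℝ)⁻¹ • T.c1 V (O1 P pt)) (Tb F) E

/-- **the situation**: a Fano manifold with second Betti number one and a connected unsplit family
of free curves; `m` is the dimension of the fibres of `e` -/
structure Sit (T : CT) {n N r d D k : ℕ} {V : Mf n} {P : Eqs r N} {pt : Cm N → V.X} (δ : ℕ)
    (F : Mp.Fam V P pt d D k) (m : ℕ) (E : VB F.U.X) : Prop where
  ok : T.OK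
  fano : Fano n V.X
  hyp : Hyp V P δ pt d
  cU : ConnectedSpace F.U.X
  dim : k + 1 = n + m
  dimD : k + 4 = D
  rel : IsRel F.e m E
  ns : (nsF T F E).OK n m
  kU : F.U.Kah
  kK : F.K.Kah
  tau : ∀ (Z : Mf m) (i : Z.X → F.U.X) (x : V.X) (h : Emb m (k + 1) i (F.e ⁻¹' {x})),
    T.Kc Z (T.pull h.hol (-T.c1 F.U (Tb F)))

/-- **the rest of stage one**: elimination and end game -/
def END : Prop := ∀ (T : CT) {N r d δ : ℕ} {V : Mf 6} {P : Eqs r N} {pt : Cm N → V.X}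
  (F : Mp.Fam V P pt d 12 8) (E : VB F.U.X), Sit T δ F 3 E → Gp.Gen 6 V.X

/-- **stage one** -/
def ONE' : Prop := ∀ X : Mf 6, Fano 6 X.X → NefRC 6 X.X → B2 6 X.X → Iota 6 X.X 5 →
  Gp.RatHom 6 X.X

end Vale.Agent.P280Z.Cv
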