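import Vale.Agent.P280Z.Cv.Defs
import Vale.Agent.P280Z.Mp.Sk

/-!
# P280Z, block Cv: the rows
-/

open scoped Manifold ContDiff Topology Matrix Matrix.Norms.Elementwise
open Set Filter
open Vale.Agent.P272.K Vale.Agent.P285.H281.FD Vale.Agent.P281Z
open Vale.Agent.P277Z (Hol)
open Vale.Agent.P277Z.Slc (lin dd)
open Vale.Agent.P277.HD (pull)
open Vale.Agent.P277 (Bd.inv)
open Vale.Agent.P280Z.Mp (BF M2 ev act lf inf Eqs Jm In Crv Tg Gen Low Cone CD MAPS)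

noncomputable section

namespace Vale.Agent.P280Z.Cv

/-- embedding and equations (Kodaira, Chow) -/
def EQS : Prop := ∀ (n : ℕ) (V : Mf n) (L : Bd V.X), Nonempty V.X → IsLB n L → Pos n L →
  ∃ (m N r δ : ℕ) (P : Eqs r N) (pt : Cm N → V.X) (s : L.ι → V.X → Cm N), 0 < m ∧ Cone V P δ pt ∧
    (∀ a, IsSec n (L.pow m) fun b x => s b x a) ∧ Gp.Lifts n L.U s ∧
    ∀ b, ∀ x ∈ L.U b, In P (s b x) ∧ pt (s b x) = x

/-- the cone and the manifold -/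
structure Pt {n : ℕ} (D : Dat n) : Prop where
  spec : ∀ z, In D.P z → ∀ a, D.pt z ∈ D.H.U a → ∃ c : ℂ, c ≠ 0 ∧ z = c • D.s a (D.pt z)
  smul : ∀ z, In D.P z → ∀ c : ℂ, c ≠ 0 → In D.P (c • z) ∧
    ∀ w, Jm D.P (c • z) *ᵥ w = 0 ↔ Jm D.P z *ᵥ w = 0
  ker : ∀ a, ∀ x ∈ D.H.U a, ∀ e : Chart n D.X.X, At e x → ∀ w, Jm D.P (D.s a x) *ᵥ w = 0 ↔
    ∃ (v : Cm n) (c : ℂ), w = (fun i => dd (fun y => D.s a y i) e x v) + c • D.s a x
  hol : ∀ (l : ℕ) (Z : Type) [TopologicalSpace Z] [ChartedSpace (Cm l) Z]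
    [IsManifold 𝓘(ℂ, Cm l) ω Z] (z : Z → Cm D.N) (y : Z), (∀ i, Hol l (fun y => z y i) y) →
    (∀ᶠ y' in 𝓝 y, In D.P (z y')) → HolA l n (fun y => D.pt (z y)) y ∧
      ∀ a (c : ℂ), D.pt (z y) ∈ D.H.U a → z y = c • D.s a (D.pt (z y)) →
        ∀ (e' : Chart l Z) (e : Chart n D.X.X), At e' y → At e (D.pt (z y)) → ∀ v, ∃ c' : ℂ, ∀ i,
          dd (fun y => z y i) e' y v = c * dd (fun x => D.s a x i) e (D.pt (z y))
            (df (fun y => D.pt (z y)) e' e y v) + c' * D.s a (D.pt (z y)) i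
  pos : Pos n D.H
  bpf : Bpf n D.H

def PT : Prop := ∀ (n : ℕ) (D : Dat n), Pt D

/-- frames exist (a basis of minimal total degree) -/
def FRM : Prop := ∀ (n : ℕ) (D : Dat n) (d : ℕ) (φ : BF d D.N), Crv D.P φ → ∃ b v, D.Frm φ b v

/-- the coefficients in a frame are forms -/
def COEF : Prop := ∀ (n : ℕ) (D : Dat n) (d : ℕ) (φ : BF d D.N), Crv D.P φ → ∀ b v, D.Frm φ b v →
  ∀ (m : ℕ) (ψ : BF m D.N), (∀ z ≠ 0, Jm D.P (ev φ z) *ᵥ ev ψ z = 0) →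
    ∃ c : ∀ j, Fin (m - b j + 1) → ℂ, (∀ j, m < b j → c j = 0) ∧
      ∀ z, ev ψ z = ∑ j, ev (c j) z • ev (v j) z

/-- the dimension of the space of deformations, and evaluation at a point -/
def DIM : Prop := ∀ (n : ℕ) (D : Dat n) (d : ℕ) (φ : BF d D.N), Crv D.P φ → 0 < d →
  ∀ b v, D.Frm φ b v → (∀ j, b j ≤ d) →
    Module.finrank ℂ (Tg D.P φ) = n + 1 + ∑ j, (d - b j) ∧ Gen D.P φ

def RCP : Prop := ∀ (n : ℕ) (D : Dat n) (d : ℕ) (φ : BF d D.N), Crv D.P φ → 0 < d →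
  RC n (fun p => D.pt (ev φ p)) ∧ DegL D.H (fun p => D.pt (ev φ p)) d

def PRC : Prop := ∀ (n : ℕ) (D : Dat n) (F : Cm 2 → D.X.X) (a : ℤ), RC n F → DegL D.H F a →
  ∃ d : ℕ, a = d ∧ 0 < d ∧ ∃ φ : BF d D.N, Crv D.P φ ∧ ∀ p ≠ 0, D.pt (ev φ p) = F p

def NEF : Prop := ∀ (n : ℕ) (D : Dat n) (d : ℕ) (φ : BF d D.N), NefRC n D.X.X → Crv D.P φ →
  0 < d → ∀ b v, D.Frm φ b v → ∀ j, b j ≤ d

def DEGK : Prop := ∀ (n : ℕ) (D : Dat n) (d : ℕ) (φ : BF d D.N), Crv D.P φ → ∀ b v, D.Frm φ b v →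
  DegL (Bd.inv (Bd.can n D.X.X)) (fun p => D.pt (ev φ p)) (∑ j, ((d : ℤ) - b j))

/-- the degree is unique -/
def DEGU : Prop := ∀ (n : ℕ) (V : Mf n) (L : Bd V.X) (F : Cm 2 → V.X) (a a' : ℤ), IsLB n L →
  RC n F → DegL L F a → DegL L F a' → a = a'

/-- from the output of the block of the maps to a family with a bundle of projective lines -/
def FAM : Prop := ∀ (n : ℕ) (D : Dat n) (d k : ℕ), Mp.Fam D.X D.P D.pt d (k + 4) k →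
  D.Adm d k {φ | Crv D.P φ} → Nonempty (Fam D d k {φ | Crv D.P φ})

/-- one component -/
def CONN : Prop := ∀ (n : ℕ) (D : Dat n) (d k : ℕ) (M : Set (BF d D.N)), D.Adm d k M →
  Fam D d k M → ∀ φ ∈ M, ∃ M' ⊆ M, φ ∈ M' ∧ D.Adm d k M' ∧
    ∃ F : Fam D d k M', ConnectedSpace F.U.X

def P1T : Prop := ∀ (k : ℕ) (K : Mf k) (U : Mf (k + 1)) (P : P1 K U), P.Ok →
  IsLB (k + 1) P.T ∧ Sub (k + 1) k P.p ∧ ∃ φ, Ses (k + 1) (VB.ln P.T) (VB.tan (k + 1) U.X)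
    ((VB.tan k K.X).pull P.p) φ (Df (k + 1) k P.p)

def P1D : Prop := ∀ (k : ℕ) (K : Mf k) (U : Mf (k + 1)) (P : P1 K U), P.Ok →
  ∀ (Z : Mf (k + 2)) (p1 p2 : Z.X → U.X), Cart P.p P.p p1 p2 →
    (∃ δ : U.X → Z.X, Cut (P.Dg p1 p2) (P.ds p1 p2) δ ∧ ∀ u, p1 (δ u) = u ∧ p2 (δ u) = u) ∧
      Triv (k + 2) (lin ![P.Dg p1 p2, pull p1 P.T, pull p2 P.T] ![2, -1, -1])

def I4 : Prop := ∀ (n : ℕ) (D : Dat n) (d k : ℕ) (M : Set (BF d D.N)) (F : Fam D d k M),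
  D.Adm d k M → ∀ (Z : Mf (k + 2)) (p1 p2 : Z.X → F.U.X), Cart F.p F.p p1 p2 →
  ∀ (E : VB F.U.X) φ, Ses (k + 1) E (VB.tan (k + 1) F.U.X) ((VB.tan n D.X.X).pull F.e) φ
    (Df (k + 1) n F.e) → ∃ Φ, IsHom (k + 2)
      ((E.pull p1).tw (lin ![pull p1 F.P.T, F.P.Dg p1 p2] ![1, -1])) (E.pull p2) Φ ∧
      ∀ z, Function.Bijective (Φ z)

/-- sections which give an immersion near every point -/
def LPOS : Prop := ∀ (n : ℕ) (V : Mf n) (L : Bd V.X), IsLB n L →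
  (∀ x, ∃ (a : L.ι) (e : Chart n V.X) (s₀ : L.ι → V.X → ℂ), x ∈ L.U a ∧ At e x ∧ IsSec n L s₀ ∧
    s₀ a x ≠ 0 ∧ ∀ v : Cm n, (∀ s, IsSec n L s → dd (fun y => s a y / s₀ a y) e x v = 0) → v = 0) →
  Pos n L

def POS : Prop := ∀ (n : ℕ) (D : Dat n) (d k : ℕ) (M : Set (BF d D.N)) (F : Fam D d k M),
  D.Adm d k M →
  ∃ a b : ℕ, 0 < b ∧ Pos (k + 1) (lin ![pull F.e D.H, F.P.T] ![a, -b])

/-- **the output of the block**, for a Fano manifold of pseudoindex `i` -/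
structure Stg {n : ℕ} (D : Dat n) (m i : ℕ) {k : ℕ} {M : Set (BF (m * i) D.N)}
    (F : Fam D (m * i) k M) : Prop where
  dim : k + 3 = n + i
  pos : 0 < m
  can : D.H = (Bd.inv (Bd.can n D.X.X)).pow m
  fano : Fano n D.X.X
  nef : NefRC n D.X.X
  low : Low D.P (m * i)
  adm : D.Adm (m * i) k M
  conn : ConnectedSpace F.U.X
  geo : Geo F.p F.e F.P.T D.H

def CV : Prop := ∀ (n : ℕ) (D : Dat n) (m i k : ℕ), k + 3 = n + i → 0 < m →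
  D.H = (Bd.inv (Bd.can n D.X.X)).pow m → Fano n D.X.X → NefRC n D.X.X → Iota n D.X.X i →
  ∃ (M : Set (BF (m * i) D.N)) (F : Fam D (m * i) k M), Stg D m i F

/-- **the rest of stage one**: cohomology, elimination and end game -/
def END5 : Prop := ∀ (D : Dat 6) (m : ℕ) (M : Set (BF (m * 5) D.N)) (F : Fam D (m * 5) 8 M),
  Stg D m 5 F → H11 6 D.X.X → Gp.Gen 6 D.X.X

/-- **stage one** -/
def ONE : Prop := ∀ X : Mf 6, Fano 6 X.X → NefRC 6 X.X → H11 6 X.X → Iota 6 X.X 5 →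
  Gp.RatHom 6 X.X

/-- **stage two** -/
def TWO : Prop := ∀ (n : ℕ) (X : Mf n), n ≤ 6 → Fano n X.X → NefRC n X.X → Gp.Gen n X.X

end Vale.Agent.P280Z.Cv
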