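import Vale.Agent.P280Z.Cv.Eqs

/-!
# P280Z, block Cv: equations for an arbitrary embedding
-/

open scoped Manifold ContDiff Topology Matrix
open Set Filter
open Vale.Agent.P272.K Vale.Agent.P285.H281.FD Vale.Agent.P281Z
open Vale.Agent.P277Z (Hol)
open Vale.Agent.P277Z.Slc (dd)
open Vale.Agent.P280Z.Mp (Eqs Jm In Cone Pv)
open Vale.Agent.P301Z.Al (Pl Hmg ev_an)

noncomputable section

namespace Vale.Agent.P280Z.Cv

namespace EqsAux

/-- lifts define an embedding -/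
theorem emb_of {n r : ℕ} {V : Mf n} {κ : Type} {O : κ → Set V.X} {s : κ → V.X → Cm (r + 1)}
    (hl : Gp.Lifts n O s) (S : PS r) :
    ∃ φ : V.X → S.P.X, Emb n r φ (range φ) ∧ ∀ b, ∀ y ∈ O b, φ y = S.pt (s b y) := by
  have hol : ∀ b, ∀ x ∈ O b, ∀ a, Hol n (fun y => s b y a) x := fun b x hx a =>
    AnV.hol (F := s b) (hl.hol b x hx) a
  obtain ⟨φ, h1, h2⟩ := S.lift hl.opn hl.cov hol hl.nz hl.chg
  refine ⟨φ, ⟨h1, fun x x' h => ?_, fun x => ?_, rfl⟩, h2⟩
  · obtain ⟨b, hb⟩ := hl.cov x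
    obtain ⟨b', hb'⟩ := hl.cov x'
    rw [h2 b x hb, h2 b' x' hb'] at h
    exact hl.inj b b' x x' hb hb' ((S.pt_eq_iff (hl.nz b x hb) (hl.nz b' x' hb')).1 h)
  · obtain ⟨b, hx⟩ := hl.cov x
    obtain ⟨l, h0⟩ := Function.ne_iff.1 (hl.nz b x hx)
    replace h0 : s b x l ≠ 0 := h0
    have he := AMP.at_chartAt (n := n) x
    generalize chartAt (Cm n) x = e at he
    refine ((S.imm_iff (hol b x hx) h0 he).2 fun ξ hξ => ?_).cng
      (Eventually.mono ((hl.opn b).mem_nhds hx) fun y hy => (h2 b y hy).symm)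
    by_contra h
    push Not at h
    refine hξ (hl.imm b x hx e he ξ (dd (fun y => s b y l) e x ξ / s b x l) (funext fun j => ?_))
    have k1 := fderiv_pi (𝕜 := ℂ) (φ := fun a z => s b (e.symm z) a) (x := e x) fun a =>
      (hol b x hx a e he).differentiableAt
    have k2 : dd (fun y => s b y j / s b y l * s b y l) e x = dd (fun y => s b y j) e x :=
      P277Z.Slc.dd_congr (((hol b x hx l).ne_near h0).mono fun y hy => div_mul_cancel₀ _ hy) he
    have k3 := fderiv_fun_mul ((hol b x hx j).div (hol b x hx l) h0 e he).differentiableAt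
      (hol b x hx l e he).differentiableAt
    have k4 : s b x j / s b x l * dd (fun y => s b y l) e x ξ +
        s b x l * dd (fun y => s b y j / s b y l) e x ξ = dd (fun y => s b y j) e x ξ := by
      rw [← k2]
      have k5 := congrArg (· ξ) k3
      simp only [he.left_inv] at k5
      exact k5.symm
    rw [h j, mul_zero, add_zero] at k4
    refine (congrFun (congrArg (· ξ) k1) j).trans (k4.symm.trans ?_)
    rw [Pi.smul_apply, smul_eq_mul]
    ring

end EqsAux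

open EqsAux in
/-- equations of the cone over an embedded manifold -/
theorem cone_of (n N : ℕ) (V : Mf n) (κ : Type) (O : κ → Set V.X) (s : κ → V.X → Cm N)
    (hV : Nonempty V.X) (hl : Gp.Lifts n O s) :
    ∃ (r δ : ℕ) (P : Eqs r N) (pt : Cm N → V.X), Cone V P δ pt ∧
      ∀ b, ∀ x ∈ O b, In P (s b x) ∧ pt (s b x) = x := by
  obtain ⟨r, rfl⟩ : ∃ r, N = r + 1 := by
    obtain ⟨x⟩ := hV
    obtain ⟨b, hb⟩ := hl.cov x
    obtain ⟨l, -⟩ := Function.ne_iff.1 (hl.nz b x hb)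
    exact Nat.exists_eq_succ_of_ne_zero l.pos.ne'
  obtain ⟨S⟩ := Pb.psex r
  obtain ⟨φ, hφ, h3⟩ := emb_of hl S
  have h2 := hl.nz
  have hC := P301Z.Al.chow_of P301Z.Al.cone_an P301Z.Al.homp r S _ hφ.an
  obtain ⟨t, F, hF, hgen⟩ := P301Z.Al.finj _ (P301Z.Al.cone S (range φ))
  obtain ⟨q, δ, P, p1, p2⟩ := same F fun j => (hF j).1
  have hIn : ∀ v, In P v ↔ v ≠ 0 ∧ S.pt v ∈ range φ := fun v => and_congr_right fun hv =>
    (p2 v hv).1.trans ⟨fun h => ((hC v).1 fun Q hQ =>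
      P301Z.Al.Eqm.span_zero h (hgen Q hQ)).resolve_left hv, fun h j => (hF j).2 v (Or.inr h)⟩
  have hpt : ∀ v, In P v → φ (Function.invFun φ (S.pt v)) = S.pt v := fun v hv =>
    Function.invFun_eq ((hIn v).1 hv).2
  have hs : ∀ b, ∀ x ∈ O b, ∀ c : ℂ, c ≠ 0 →
      In P (c • s b x) ∧ Function.invFun φ (S.pt (c • s b x)) = x := fun b x hx c hc => by
    rw [hIn, S.pt_smul hc (h2 b x hx), ← h3 b x hx]
    exact ⟨⟨smul_ne_zero hc (h2 b x hx), x, rfl⟩, Function.leftInverse_invFun hφ.inj x⟩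
  have hs1 : ∀ b, ∀ x ∈ O b, In P (s b x) ∧ Function.invFun φ (S.pt (s b x)) = x :=
    fun b x hx => by simpa only [one_smul] using hs b x hx 1 one_ne_zero
  have inj : ∀ x y, In P x → In P y → Function.invFun φ (S.pt x) = Function.invFun φ (S.pt y) →
      ∃ c : ℂ, y = c • x := fun x y hx hy h =>
    (S.pt_eq_iff hy.1 hx.1).1 (by rw [← hpt x hx, ← hpt y hy, h])
  have loc : ∀ x, In P x → ∀ χ : Chart n V.X, At χ (Function.invFun φ (S.pt x)) →
      ∃ (ρ : Cm (r + 1) → Cm n) (b : κ) (c : ℂ), c ≠ 0 ∧ Function.invFun φ (S.pt x) ∈ O b ∧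
        x = c • s b (Function.invFun φ (S.pt x)) ∧ AnalyticAt ℂ ρ x ∧
        ∀ᶠ y in 𝓝 x, In P y → Function.invFun φ (S.pt y) ∈ χ.source ∧
          χ (Function.invFun φ (S.pt y)) = ρ y := fun x hx χ hχ => by
    obtain ⟨b, hb⟩ := hl.cov (Function.invFun φ (S.pt x))
    obtain ⟨c, hc⟩ := inj _ x (hs1 b _ hb).1 hx (hs1 b _ hb).2
    obtain ⟨g, g1, g2, g3⟩ := (hφ.imm (Function.invFun φ (S.pt x))).ret (hφ.hol.at _)
    refine ⟨fun w => χ (g (S.pt w)), b, c, fun k => hx.1 (by rw [hc, k, zero_smul]), hb, hc,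
      AnalyticAt.pi fun a => P301Z.Al.Eqm.an_pt S hx.1 (A := fun p => χ (g p) a) ?_, ?_⟩
    · rw [← hpt x hx]
      exact g2.hol (hol_chart (g1.symm ▸ hχ) a)
    · have k1 := hφ.ev.1 (g3.and (at_near hχ))
      rw [hpt x hx] at k1
      filter_upwards [(S.cont x hx.1).eventually k1] with y k2 k3
      obtain ⟨k4, k5⟩ := k2 _ (hpt y k3)
      exact ⟨k5.2, by rw [← hpt y k3, Function.leftInverse_invFun hφ.inj, k4]⟩
  refine ⟨q, δ, P, fun v => Function.invFun φ (S.pt v), ⟨p1,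
    fun x c hx hc => by rw [S.pt_smul hc hx.1], inj, fun v => ?_, fun x hx => ?_,
    fun x hx χ hχ => ?_⟩, hs1⟩
  · obtain ⟨b, hb⟩ := hl.cov v
    exact ⟨_, hs1 b v hb⟩
  · have hχ := AMP.at_chartAt (n := n) (Function.invFun φ (S.pt x))
    generalize chartAt (Cm n) (Function.invFun φ (S.pt x)) = χ at hχ
    obtain ⟨ρ, b, c, k1, k2, k3, k4, k5⟩ := loc x hx χ hχ
    have k6 := (k5.self_of_nhds hx).2
    have k7 := hl.hol b _ k2 χ hχ
    have k8 := hl.imm b _ k2 χ hχ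
    have k9 := at_ev hχ ((hl.opn b).mem_nhds k2)
    have hx' : ∀ j, P301Z.Al.ev (F j) x = 0 := (p2 x hx.1).1.1 hx.2
    rw [k6] at k7 k8 k9
    refine rank_cone (C := P301Z.Al.cone S (range φ)) (lam := fun z => c • s b (χ.symm z)) hx.1 k4
      (k7.const_smul (c := c)) (by rw [← k6, hχ.left_inv, ← k3]) ?_ ?_ (fun ξ c' h => ?_)
      (fun j => ev_an (F j) x) (fun j => (hF j).2) (fun h a1 a2 ξ a3 =>
        (hC x).2 (Or.inr ((hIn x).1 hx).2) h a1 a2 ξ fun Q hQ =>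
          P301Z.Al.Eqm.span_der hx' a3 (hgen Q hQ)) ((p2 x hx.1).2 hx')
    · filter_upwards [k9] with z hz c' hc'
      rw [smul_smul]
      exact Or.inr ((hIn _).1 (hs b _ hz _ (mul_ne_zero hc' k1)).1).2
    · filter_upwards [k5, k4.continuousAt.eventually k9, eventually_ne_nhds hx.1] with w a1 a2 a3 a4
      have a5 := (hIn w).2 ⟨a3, a4.resolve_left a3⟩
      obtain ⟨a6, a7⟩ := a1 a5
      refine inj _ w (hs b _ a2 c k1).1 a5 ?_
      rw [(hs b _ a2 c k1).2, ← a7, χ.left_inv a6]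
    · rw [fderiv_fun_const_smul k7.differentiableAt, smul_apply] at h
      refine k8 ξ c' (smul_right_injective _ k1 ?_)
      show c • _ = c • _
      rw [h, smul_comm, ← k3]
  · obtain ⟨ρ, b, c, k1, k2, k3, k4, k5⟩ := loc x hx χ hχ
    refine ⟨ρ, fun z => c • s b (χ.symm z), k4, (hl.hol b _ k2 χ hχ).const_smul (c := c),
      by simp only [hχ.left_inv]; exact k3.symm, k5, ?_⟩
    filter_upwards [at_ev hχ ((hl.opn b).mem_nhds k2)] with z hz using hs b _ hz c k1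

end Vale.Agent.P280Z.Cv
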