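import Vale.Agent.P280Z.Cv.Sk
import Vale.Agent.P280Z.Mp.Surj

/-!
# P280Z, block Cv: frames along a rational curve, and the coefficients in a frame
-/

open scoped Matrix
open Matrix
open Vale.Agent.P272.K
open Vale.Agent.P280Z.Mp

noncomputable section

namespace Vale.Agent.P280Z.Cv

namespace Fr

variable {N r n g i m : ℕ} {J : Cm 2 → Matrix (Fin r) (Fin N) ℂ}

theorem hm_fst : Hm 1 fun z : Cm 2 => z 0 := (hm_lin 1 0).congr fun z => by simp

theorem const {W : Type} [AddCommGroup W] [Module ℂ W] {φ : Cm 2 → W} (h : Hm 0 φ) (z y : Cm 2) :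
    φ z = φ y := by
  obtain ⟨a, ha⟩ := h
  simp [ha, ev]

/-- vanishing off the zeros of a form -/
theorem canc {W : Type} [AddCommGroup W] [Module ℂ W] {φ : Cm 2 → W} {f : Cm 2 → ℂ} (hf : Hm i f)
    (h0 : ∃ y, f y ≠ 0) (h : Hm m φ) (e : ∀ z, f z ≠ 0 → φ z = 0) (z : Cm 2) : φ z = 0 :=
  hf.cancel h0 h (fun w => by
    by_cases k : f w = 0
    · rw [k, zero_smul]
    · rw [e w k, smul_zero]) z

theorem hm_mul (hJ : ∀ k l, Hm g fun z => J z k l) {ψ : Cm 2 → Cm N} (h : Hm m ψ) :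
    Hm (g + m) fun z => J z *ᵥ ψ z :=
  Hm.pi fun k => Hm.sum Finset.univ fun l _ => (hJ k l).mul (h.apply l)

theorem upd {ι W : Type} [Fintype ι] [DecidableEq ι] [AddCommGroup W] [Module ℂ W] {u : ι → W}
    (h : LinearIndependent ℂ u) {a : ι → ℂ} {j : ι} (ha : a j ≠ 0) {t : ℂ} {w : W}
    (e : ∑ i, a i • u i = t • w) : t ≠ 0 ∧ LinearIndependent ℂ (Function.update u j w) := by
  have ht : t ≠ 0 := fun k => ha (Fintype.linearIndependent_iff.1 h a (by rw [e, k, zero_smul]) j)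
  refine ⟨ht, h.update j w ⟨t, mem_nonZeroDivisors_of_ne_zero ht,
    (Finsupp.linearEquivFunOnFinite ℂ ℂ ι).symm a, mem_nonZeroDivisors_of_ne_zero ha, ?_⟩⟩
  rw [← e, Finsupp.linearCombination_eq_fintype_linearCombination_apply,
    Fintype.linearCombination_apply]

/-- lowering the total degree until the family is independent everywhere -/
theorem lower (hJ : ∀ k l, Hm g fun z => J z k l) (s : ℕ) : ∀ (b : Fin (n + 1) → ℕ)
    (v : Fin (n + 1) → Cm 2 → Cm N), ∑ i, b i = s → (∀ i, Hm (b i) (v i)) →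
    (∀ i z, J z *ᵥ v i z = 0) → (∃ x, LinearIndependent ℂ fun i => v i x) →
    ∃ (b : Fin (n + 1) → ℕ) (v : Fin (n + 1) → Cm 2 → Cm N), (∀ i, Hm (b i) (v i)) ∧
      (∀ i z, J z *ᵥ v i z = 0) ∧ ∀ z ≠ 0, LinearIndependent ℂ fun i => v i z := by
  induction s using Nat.strong_induction_on with
  | _ s ih =>
    rintro b v hs hv hk ⟨x, hx⟩
    by_cases H : ∀ z ≠ 0, LinearIndependent ℂ fun i => v i z
    · exact ⟨b, v, hv, hk, H⟩
    push Not at H
    obtain ⟨y, y0, hy⟩ := H
    obtain ⟨c, hc, j0, hj0⟩ := Fintype.not_linearIndependent_iff.1 hy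
    obtain ⟨j, hj, hmax⟩ := (Finset.univ.filter fun i => c i ≠ 0).exists_max_image b
      ⟨j0, Finset.mem_filter.2 ⟨Finset.mem_univ _, hj0⟩⟩
    have cj : c j ≠ 0 := (Finset.mem_filter.1 hj).2
    obtain ⟨q, hq⟩ := Function.ne_iff.1 y0
    have hl : Hm 1 fun z : Cm 2 => (y q)⁻¹ * z q :=
      ((hm_mv 1 q).smul (y q)⁻¹).congr fun z => by rw [one_mulVec, smul_eq_mul]
    have hw : Hm (b j) fun z => ∑ i, (c i * ((y q)⁻¹ * z q) ^ (b j - b i)) • v i z := by
      refine Hm.sum Finset.univ fun i _ => ?_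
      by_cases k : c i = 0
      · exact Hm.zero.congr fun z => by rw [k, zero_mul, zero_smul]
      · have k1 := hmax i (Finset.mem_filter.2 ⟨Finset.mem_univ _, k⟩)
        exact (((hl.pow (b j - b i)).smul (c i)).mul (hv i)).cast (by omega)
    have wy : ∑ i, (c i * ((y q)⁻¹ * y q) ^ (b j - b i)) • v i y = 0 := by
      simp only [inv_mul_cancel₀ hq, one_pow, mul_one, hc]
    have aj : c j * ((y q)⁻¹ * x q) ^ (b j - b j) ≠ 0 := by
      rwa [Nat.sub_self, pow_zero, mul_one]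
    obtain h0 | ⟨e, he⟩ : b j = 0 ∨ ∃ e, b j = e + 1 := by
      cases b j with
      | zero => exact Or.inl rfl
      | succ e => exact Or.inr ⟨e, rfl⟩
    · exact absurd (Fintype.linearIndependent_iff.1 hx _
        ((const (hw.cast h0) x y).trans wy) j) aj
    obtain ⟨w, w1, w2⟩ := (hw.cast he).div y0 wy
    obtain ⟨t0, hu⟩ := upd hx (a := fun i => c i * ((y q)⁻¹ * x q) ^ (b j - b i)) aj (w2 x)
    refine ih (∑ i, Function.update b j e i) ?_ _ (Function.update v j w) rfl (fun i => ?_)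
      (fun i => ?_) ⟨x, ?_⟩
    · rw [← hs]
      refine Finset.sum_lt_sum (fun i _ => ?_) ⟨j, Finset.mem_univ _, ?_⟩
      · by_cases k : i = j
        · rw [k, Function.update_self]
          omega
        · rw [Function.update_of_ne k]
      · rw [Function.update_self]
        omega
    · by_cases k : i = j
      · rw [k, Function.update_self, Function.update_self]
        exact w1
      · rw [Function.update_of_ne k, Function.update_of_ne k]
        exact hv i
    · by_cases k : i = j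
      · rw [k, Function.update_self]
        refine canc (hm_lf y) ⟨x, t0⟩ (hm_mul hJ w1) fun z hz => ?_
        refine (smul_eq_zero.1 ?_).resolve_left hz
        rw [← mulVec_smul, ← w2, mulVec_sum]
        exact Finset.sum_eq_zero fun l _ => by rw [mulVec_smul, hk, smul_zero]
      · rw [Function.update_of_ne k]
        exact hk i
    · have k : (fun i => Function.update v j w i x) = Function.update (fun i => v i x) j (w x) :=
        funext fun i => by
          by_cases k : i = j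
          · rw [k, Function.update_self, Function.update_self]
          · rw [Function.update_of_ne k, Function.update_of_ne k]
      rw [k]
      exact hu

theorem dimk {A : Matrix (Fin r) (Fin N) ℂ} (h : A.rank + (n + 1) = N) :
    Module.finrank ℂ (LinearMap.ker A.mulVecLin) = n + 1 := by
  have k := LinearMap.finrank_range_add_finrank_ker A.mulVecLin
  rw [Module.finrank_fin_fun] at k
  have k1 : A.rank = Module.finrank ℂ (LinearMap.range A.mulVecLin) := rfl
  omega

theorem frame (hJ : ∀ k l, Hm g fun z => J z k l) (rk : ∀ z ≠ 0, (J z).rank + (n + 1) = N) :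
    ∃ (b : Fin (n + 1) → ℕ) (v : Fin (n + 1) → Cm 2 → Cm N), (∀ i, Hm (b i) (v i)) ∧
      (∀ i z, J z *ᵥ v i z = 0) ∧ ∀ z ≠ 0, LinearIndependent ℂ fun i => v i z := by
  obtain ⟨c, hc⟩ : ∃ c, (J 1).rank = c := ⟨_, rfl⟩
  have rc : ∀ z ≠ 0, (J z).rank = c := fun z hz => by
    have k1 := rk z hz
    have k2 := rk 1 one_ne_zero
    omega
  obtain ⟨L, B, hL⟩ := Surj.frame _ hc
  let β := Module.finBasisOfFinrankEq ℂ _ (dimk (rk 1 one_ne_zero))
  have hA : ∀ i j, Hm g fun z => (L * J z * B) i j := fun i j =>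
    (Hm.sum Finset.univ fun l _ => Hm.sum Finset.univ fun k _ =>
      (hJ k l).smul (L i k * B l j)).congr fun z => by
        simp only [Matrix.mul_apply, Finset.sum_mul, smul_eq_mul, mul_right_comm]
  have hδ : Hm (c * g) fun z => (L * J z * B).det := by
    simpa using Hm.det (m := fun _ => g) hA
  have hb : ∀ w : Cm N, Hm (c * g) fun z =>
      (L * J z * B).det • w - B *ᵥ cramer (L * J z * B) (L *ᵥ (J z *ᵥ w)) := fun w => by
    refine (hδ.mul (Hm.const w)).sub (Hm.map B.mulVecLin (Hm.pi fun i => ?_))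
    have k := Hm.det (A := fun z => (L * J z * B).updateCol i (L *ᵥ (J z *ᵥ w)))
      (m := fun _ => g) fun l j => by
        simp only [updateCol_apply]
        split_ifs
        · exact ((hm_mul hJ (Hm.const w)).map L.mulVecLin).apply l
        · exact hA l j
    simpa [cramer_apply] using k
  refine lower hJ _ (fun _ => c * g) (fun i z => (L * J z * B).det • (β i : Cm N) -
    B *ᵥ cramer (L * J z * B) (L *ᵥ (J z *ᵥ (β i : Cm N)))) rfl (fun i => hb _) (fun i => ?_)
    ⟨1, ?_⟩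
  · refine canc (hm_fst.mul hδ) ⟨1, by simp [hL]⟩ (hm_mul hJ (hb _)) fun z hz => ?_
    rw [smul_eq_mul] at hz
    refine Surj.inj (rc z fun h => left_ne_zero_of_mul hz (congrFun h 0))
      (right_ne_zero_of_mul hz) ?_
    rw [mulVec_sub, mulVec_sub, mulVec_smul, mulVec_smul, mulVec_mulVec (cramer _ _),
      mulVec_mulVec (cramer _ _), ← Matrix.mul_assoc, mulVec_cramer, sub_self]
  · have k : (fun i => (L * J 1 * B).det • (β i : Cm N) -
        B *ᵥ cramer (L * J 1 * B) (L *ᵥ (J 1 *ᵥ (β i : Cm N)))) =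
        (LinearMap.ker (J 1).mulVecLin).subtype ∘ β := funext fun i => by
      have k1 : J 1 *ᵥ (β i : Cm N) = 0 := (β i).2
      rw [k1, mulVec_zero, map_zero, mulVec_zero, sub_zero, hL, det_one, one_smul]
      rfl
    rw [k]
    exact β.linearIndependent.map' _ (Submodule.ker_subtype _)

variable {b : Fin (n + 1) → ℕ} {v : Fin (n + 1) → Cm 2 → Cm N} {ψ : Cm 2 → Cm N}

/-- dividing by the roots of the denominator -/
theorem desc (hv : ∀ i, Hm (b i) (v i)) (hi : ∀ z ≠ 0, LinearIndependent ℂ fun i => v i z)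
    (hψ : Hm m ψ) (k : ℕ) : ∀ (δ : Cm 2 → ℂ) (A : Fin (n + 1) → Cm 2 → ℂ), Hm k δ →
    (∃ z, δ z ≠ 0) → (∀ j, Hm (k + m - b j) (A j) ∧ (k + m < b j → ∀ z, A j z = 0)) →
    (∀ z, δ z • ψ z = ∑ j, A j z • v j z) → ∃ c : Fin (n + 1) → Cm 2 → ℂ,
      (∀ j, Hm (m - b j) (c j) ∧ (m < b j → ∀ z, c j z = 0)) ∧ ∀ z, ψ z = ∑ j, c j z • v j z := by
  induction k with
  | zero =>
    rintro δ A hδ ⟨y, hy⟩ hA e
    rw [zero_add] at hA
    refine ⟨fun j z => (δ y)⁻¹ • A j z, fun j => ⟨(hA j).1.smul _, fun h z => ?_⟩, fun z => ?_⟩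
    · show (δ y)⁻¹ • A j z = 0
      rw [(hA j).2 h, smul_zero]
    · simp only [smul_assoc, ← Finset.smul_sum]
      rw [← e, const hδ z y, inv_smul_smul₀ hy]
  | succ k ih =>
    rintro δ A hδ ⟨x, hx⟩ hA e
    obtain ⟨y, y0, hy⟩ := hδ.root
    obtain ⟨δ', k1, k2⟩ := hδ.div y0 hy
    have Ay := Fintype.linearIndependent_iff.1 (hi y y0) (fun j => A j y)
      (by rw [← e, hy, zero_smul])
    have k3 : ∀ j, ∃ A' : Cm 2 → ℂ, (Hm (k + m - b j) A' ∧ (k + m < b j → ∀ z, A' z = 0)) ∧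
        ∀ z, A j z = lf y z • A' z := fun j => by
      by_cases h : k + m < b j
      · exact ⟨fun _ => 0, ⟨Hm.zero, fun _ _ => rfl⟩, fun z => by
          rw [smul_zero, const ((hA j).1.cast (by omega)) z y, Ay j]⟩
      · obtain ⟨A', k4, k5⟩ := ((hA j).1.cast
          (show k + 1 + m - b j = k + m - b j + 1 by omega)).div y0 (Ay j)
        exact ⟨A', ⟨k4, fun h' => absurd h' h⟩, k5⟩
    choose A' k4 k5 using k3
    rw [k2, smul_eq_mul] at hx
    refine ih δ' A' k1 ⟨x, right_ne_zero_of_mul hx⟩ k4 fun z => sub_eq_zero.1 ?_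
    refine (hm_lf y).cancel (φ := fun z => δ' z • ψ z - ∑ j, A' j z • v j z)
      ⟨x, left_ne_zero_of_mul hx⟩ ((k1.mul hψ).sub
      (Hm.sum Finset.univ fun j _ => ?_)) (fun w => ?_) z
    · by_cases h : k + m < b j
      · exact Hm.zero.congr fun z => by rw [(k4 j).2 h, zero_smul]
      · exact ((k4 j).1.mul (hv j)).cast (by omega)
    · rw [smul_sub, ← smul_assoc, ← k2, e, Finset.smul_sum, sub_eq_zero]
      exact Finset.sum_congr rfl fun j _ => by rw [k5, smul_assoc]

theorem span {A : Matrix (Fin r) (Fin N) ℂ} (h : A.rank + (n + 1) = N) {u : Fin (n + 1) → Cm N}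
    (hu : LinearIndependent ℂ u) (hk : ∀ j, A *ᵥ u j = 0) {w : Cm N} (hw : A *ᵥ w = 0) :
    ∃ x : Cm (n + 1), w = ∑ j, x j • u j := by
  have k : LinearIndependent ℂ fun j => (⟨u j, hk j⟩ : LinearMap.ker A.mulVecLin) :=
    LinearIndependent.of_comp (LinearMap.ker A.mulVecLin).subtype hu
  have k1 := k.span_eq_top_of_card_eq_finrank' (by rw [dimk h, Fintype.card_fin])
  obtain ⟨x, hx⟩ := (Submodule.mem_span_range_iff_exists_fun ℂ).1
    (k1.ge (Submodule.mem_top (x := (⟨w, hw⟩ : LinearMap.ker A.mulVecLin))))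
  refine ⟨x, ?_⟩
  have k2 := congrArg Subtype.val hx
  simpa using k2.symm

theorem coef (rk : ∀ z ≠ 0, (J z).rank + (n + 1) = N) (hv : ∀ i, Hm (b i) (v i))
    (hk : ∀ i, ∀ z ≠ 0, J z *ᵥ v i z = 0) (hi : ∀ z ≠ 0, LinearIndependent ℂ fun i => v i z)
    (hψ : Hm m ψ) (h : ∀ z ≠ 0, J z *ᵥ ψ z = 0) : ∃ c : Fin (n + 1) → Cm 2 → ℂ,
      (∀ j, Hm (m - b j) (c j) ∧ (m < b j → ∀ z, c j z = 0)) ∧ ∀ z, ψ z = ∑ j, c j z • v j z := by
  have hV : ∀ (z : Cm 2) (x : Cm (n + 1)),
      (Matrix.of fun i j => v j z i) *ᵥ x = ∑ j, x j • v j z := fun z x => funext fun i => by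
    simp [mulVec, dotProduct, Finset.sum_apply, mul_comm]
  obtain ⟨G, hG⟩ := LinearMap.exists_leftInverse_of_injective
    (Matrix.of fun i j => v j 1 i).mulVecLin (LinearMap.ker_eq_bot'.2 fun x hx => funext
      (Fintype.linearIndependent_iff.1 (hi 1 one_ne_zero) x ((hV 1 x).symm.trans hx)))
  obtain ⟨M, hM⟩ : ∃ M : Matrix (Fin (n + 1)) (Fin N) ℂ,
      M * (Matrix.of fun i j => v j 1 i) = 1 := by
    refine ⟨LinearMap.toMatrix' G, Matrix.ext_of_mulVec_single fun i => ?_⟩
    rw [← mulVec_mulVec, LinearMap.toMatrix'_mulVec, one_mulVec]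
    exact LinearMap.congr_fun hG _
  have hA : ∀ i j, Hm (b j) fun z => (M * (Matrix.of fun i j => v j z i)) i j := fun i j =>
    ((hv j).map M.mulVecLin).apply i
  have hδ := Hm.det hA
  have hb : ∀ j, b j ≤ ∑ l, b l := fun j =>
    Finset.single_le_sum (fun l _ => Nat.zero_le (b l)) (Finset.mem_univ j)
  have hc : ∀ j, Hm (∑ l, b l + m - b j) fun z =>
      cramer (M * (Matrix.of fun i j => v j z i)) (M *ᵥ ψ z) j := fun j => by
    have k := Hm.det (A := fun z => (M * (Matrix.of fun i j => v j z i)).updateCol j (M *ᵥ ψ z))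
      (m := Function.update b j m) fun l l' => by
        simp only [updateCol_apply]
        split_ifs with e
        · rw [e, Function.update_self]
          exact (hψ.map M.mulVecLin).apply l
        · rw [Function.update_of_ne e]
          exact hA l l'
    refine k.cast ?_
    have k1 := Finset.add_sum_erase Finset.univ b (Finset.mem_univ j)
    rw [Finset.sum_update_of_mem (Finset.mem_univ j), Finset.sdiff_singleton_eq_erase]
    omega
  refine desc hv hi hψ _ _ _ hδ ⟨1, by rw [hM, det_one]; exact one_ne_zero⟩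
    (fun j => ⟨hc j, fun k => absurd (hb j) (by omega)⟩) fun z => sub_eq_zero.1 ?_
  refine canc hm_fst ⟨1, one_ne_zero⟩ ((hδ.mul hψ).sub (Hm.sum Finset.univ fun j _ =>
    ((hc j).mul (hv j)).cast (by have := hb j; omega))) (fun w hw => ?_) z
  have w0 : w ≠ 0 := fun e => hw (congrFun e 0)
  obtain ⟨x, hx⟩ := span (rk w w0) (hi w w0) (fun j => hk j w w0) (h w w0)
  rw [← hV, hx, ← hV, mulVec_mulVec, cramer_eq_adjugate_mulVec, mulVec_mulVec x, adjugate_mul,
    smul_mulVec, one_mulVec, mulVec_smul, sub_self]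

theorem jac {δ d : ℕ} {P : Eqs r N} (hP : Hom P δ) (φ : BF d N) :
    ∃ g, ∀ k l, Hm g fun z => Jm P (ev φ z) k l := by
  obtain _ | e := δ
  · refine ⟨0, fun k l => Hm.zero.congr fun z => ?_⟩
    rw [Jm, of_apply, MvPolynomial.totalDegree_eq_zero_iff_eq_C.1
      (Nat.le_zero.1 (hP k).totalDegree_le), MvPolynomial.pderiv_C, map_zero]
  · exact ⟨_, hm_Jm hP (hm_ev φ)⟩

end Fr

theorem frm : FRM := by
  intro n D d φ hφ
  obtain ⟨g, hg⟩ := Fr.jac D.cone.hom φ
  obtain ⟨b, v, h1, h2, h3⟩ := Fr.frame hg fun z hz => D.cone.rk _ (hφ z hz)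
  choose a ha using h1
  exact ⟨b, a, fun i z _ => by rw [← ha, h2], fun z hz => by simpa only [← ha] using h3 z hz⟩

theorem coef : COEF := by
  intro n D d φ hφ b v hv m ψ hψ
  obtain ⟨c, h1, h2⟩ := Fr.coef (J := fun z => Jm D.P (ev φ z))
    (fun z hz => D.cone.rk _ (hφ z hz)) (fun i => hm_ev (v i)) hv.mem hv.ind (hm_ev ψ) hψ
  choose a ha using fun j => (h1 j).1
  exact ⟨a, fun j hj => ev_inj fun z => by rw [← ha, (h1 j).2 hj, ev_zero],
    fun z => by simpa only [← ha] using h2 z⟩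

end Vale.Agent.P280Z.Cv
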