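import Vale.Agent.P280Z.Cv.Sk
import Vale.Agent.P280Z.Mp.Bf0
import Vale.Agent.P281Z.Mf.Adj

/-!
# P280Z, block Cv: frames along rational curves, nefness and the anticanonical degree
-/

open scoped Manifold ContDiff Topology Matrix
open Set Filter
open Vale.Agent.P272.K Vale.Agent.P285.H281.FD Vale.Agent.P281Z
open Vale.Agent.P277Z (Hol at_chart)
open Vale.Agent.P277Z.Slc (dd)
open Vale.Agent.P280Z.Mp (BF ev Jm In Crv ev_arg ev_zero)

noncomputable section

namespace Vale.Agent.P280Z.Cv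

namespace NefA

section an
variable {E : Type} [NormedAddCommGroup E] [NormedSpace ℂ E] {m : Type} [Fintype m] {p : E}

theorem an_det [DecidableEq m] {M : E → Matrix m m ℂ} (h : ∀ i j, AnalyticAt ℂ (fun w => M w i j) p) :
    AnalyticAt ℂ (fun w => (M w).det) p := by
  simp only [Matrix.det_apply]
  exact Finset.analyticAt_fun_sum _ fun σ _ =>
    (Finset.analyticAt_fun_prod _ fun i _ => h _ _).const_smul

/-- the coordinates in an analytic frame are analytic -/
theorem an_sol {N : ℕ} {M : E → m → Cm N} {w : E → Cm N} {A : E → m → ℂ}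
    (hM : ∀ i, AnalyticAt ℂ (fun q => M q i) p) (hw : AnalyticAt ℂ w p)
    (li : LinearIndependent ℂ (M p)) (h : ∀ᶠ q in 𝓝 p, w q = ∑ i, A q i • M q i) (j : m) :
    AnalyticAt ℂ (fun q => A q j) p := by
  classical
  obtain ⟨L, hL⟩ := (Fintype.linearCombination ℂ (M p)).exists_leftInverse_of_injective
    (LinearMap.ker_eq_bot.2 (linearIndependent_iff_injective_fintypeLinearCombination.1 li))
  have aL : ∀ {u : E → Cm N}, AnalyticAt ℂ u p → ∀ i, AnalyticAt ℂ (fun q => L (u q) i) p :=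
    fun k i => analyticAt_pi_iff.1
      (((LinearMap.toContinuousLinearMap L).analyticAt _).fun_comp k) i
  let G : E → Matrix m m ℂ := fun q => .of fun a i => L (M q i) a
  have g1 : G p = 1 := Matrix.ext fun a i => by
    have := congrFun (LinearMap.congr_fun hL (Pi.single i 1)) a
    simp only [LinearMap.comp_apply, Fintype.linearCombination_apply_single, one_smul] at this
    exact this.trans (by simp [Pi.single_apply, Matrix.one_apply])
  have g2 := an_det (M := G) fun a i => aL (hM i) a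
  have g3 : (G p).det ≠ 0 := by rw [g1, Matrix.det_one]; exact one_ne_zero
  refine ((g2.fun_inv g3).fun_mul (an_det (M := fun q => (G q).updateCol j (L (w q)))
    fun a i => ?_)).congr ?_
  · by_cases k : i = j
    · simp only [k, Matrix.updateCol_self]
      exact aL hw a
    · simp only [Matrix.updateCol_ne k]
      exact aL (hM i) a
  · filter_upwards [h, g2.continuousAt.eventually_ne g3] with q k1 k2
    have k3 : L (w q) = G q *ᵥ A q := funext fun a => by
      simp [k1, G, Matrix.mulVec, dotProduct, mul_comm]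
    rw [← Matrix.cramer_apply, k3, Matrix.cramer_eq_adjugate_mulVec, Matrix.mulVec_mulVec,
      Matrix.adjugate_mul, Matrix.smul_mulVec, Matrix.one_mulVec, Pi.smul_apply, smul_eq_mul,
      inv_mul_cancel_left₀ k2]

end an

theorem prod_zpow {ι : Type} {c : ℂ} (hc : c ≠ 0) (s : Finset ι) (f : ι → ℤ) :
    ∏ i ∈ s, c ^ f i = c ^ ∑ i ∈ s, f i := by
  induction s using Finset.cons_induction with
  | empty => exact (zpow_zero c).symm
  | cons a s h ih => rw [Finset.prod_cons, Finset.sum_cons, ih, zpow_add₀ hc]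

theorem an_ev {d N : ℕ} (φ : BF d N) (p : Cm 2) : AnalyticAt ℂ (ev φ) p :=
  have h := fun i => analyticAt_pi_iff.1 (analyticAt_id (𝕜 := ℂ) (z := p)) i
  Finset.analyticAt_fun_sum _ fun _ _ =>
    (((h 0).fun_pow _).fun_mul ((h 1).fun_pow _)).fun_smul analyticAt_const

variable {n d : ℕ} (D : Dat n) (a a' : D.H.ι) (e e' : Chart n D.X.X) (z : Cm D.N)

/-- the differential of the sections -/
def Sd (x : D.X.X) : Cm n →ₗ[ℂ] Cm D.N :=
  LinearMap.pi fun i => (dd (fun y => D.s a y i) e x).toLinearMap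

/-- the factor -/
def cc : ℂ := Classical.epsilon fun c => c ≠ 0 ∧ z = c • D.s a (D.pt z)

/-- the standard frame of the tangent space of the cone -/
def Wm : Fin (n + 1) → Cm D.N :=
  Fin.cons z fun k => cc D a z • Sd D a e (D.pt z) (Pi.single k 1)

/-- the data are compatible -/
structure Ok : Prop where
  mem : In D.P z
  ua : D.pt z ∈ D.H.U a
  ch : At e (D.pt z)

variable {D a a' e e' z} (P : Pt D)
include P

theorem Ok.cs (h : Ok D a e z) : cc D a z ≠ 0 ∧ z = cc D a z • D.s a (D.pt z) :=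
  Classical.epsilon_spec (P.spec z h.mem a h.ua)

theorem Ok.ker (h : Ok D a e z) {w : Cm D.N} :
    Jm D.P z *ᵥ w = 0 ↔ ∃ (u : Cm n) (c : ℂ), w = Sd D a e (D.pt z) u + c • D.s a (D.pt z) := by
  have k := (P.smul _ (D.ins a _ h.ua).1 _ (h.cs P).1).2 w
  rw [← (h.cs P).2] at k
  exact k.trans (P.ker a _ h.ua e h.ch w)

theorem Ok.wk (h : Ok D a e z) (l : Fin (n + 1)) : Jm D.P z *ᵥ Wm D a e z l = 0 :=
  (h.ker P).2 (Fin.cases ⟨0, cc D a z, by rw [map_zero, zero_add]; exact (h.cs P).2⟩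
    (fun k => ⟨cc D a z • Pi.single k 1, 0, by rw [zero_smul, add_zero, map_smul]; rfl⟩) l)

omit P in
theorem sum_w (u : Cm n) (c : ℂ) : ∑ l, (Fin.cons c u : Fin (n + 1) → ℂ) l • Wm D a e z l =
    cc D a z • Sd D a e (D.pt z) u + c • z := by
  rw [Fin.sum_univ_succ, add_comm]
  simp only [Wm, Fin.cons_zero, Fin.cons_succ, smul_comm (u _) (cc D a z), ← Finset.smul_sum,
    ← map_smul, ← map_sum, ← pi_eq_sum_univ']

theorem Ok.span (h : Ok D a e z) {w : Cm D.N} (hw : Jm D.P z *ᵥ w = 0) :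
    ∃ u : Fin (n + 1) → ℂ, w = ∑ l, u l • Wm D a e z l := by
  obtain ⟨u, c, rfl⟩ := (h.ker P).1 hw
  refine ⟨Fin.cons (c * (cc D a z)⁻¹) ((cc D a z)⁻¹ • u), ?_⟩
  rw [sum_w, map_smul, smul_inv_smul₀ (h.cs P).1, mul_smul,
    (inv_smul_eq_iff₀ (h.cs P).1).2 (h.cs P).2]

theorem Ok.chg (h : Ok D a e z) (h' : Ok D a' e' z) (k : Fin n) : ∃ τ : ℂ, Wm D a e z k.succ =
    ∑ l, (Fin.cons τ fun l => jacM e e' (D.pt z) l k : Fin (n + 1) → ℂ) l • Wm D a' e' z l := by
  have hs : ∀ i, Hol n (fun y => D.s a y i) (D.pt z) := fun i c k =>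
    ((D.sec i).holo a c _ k h.ua).analyticAt
  have nr : ∀ᶠ y in 𝓝 (D.pt z), In D.P (cc D a z • D.s a y) ∧ D.pt (cc D a z • D.s a y) = y := by
    filter_upwards [(D.lb.isOpen a).mem_nhds h.ua] with y k
    exact ⟨(P.smul _ (D.ins a y k).1 _ (h.cs P).1).1,
      (D.cone.smul _ _ (D.ins a y k).1 (h.cs P).1).trans (D.ins a y k).2⟩
  have k1 := (P.hol n D.X.X (fun y => cc D a z • D.s a y) (D.pt z)
    (fun i c k => (hs i c k).const_smul) (nr.mono fun _ k => k.1)).2 a' (cc D a' z)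
  rw [← (h.cs P).2] at k1
  obtain ⟨τ, k2⟩ := k1 h'.ua (h'.cs P).2 e e' h.ch h'.ch (Pi.single k 1)
  refine ⟨τ * (cc D a' z)⁻¹, ?_⟩
  rw [sum_w, mul_smul, (inv_smul_eq_iff₀ (h'.cs P).1).2 (h'.cs P).2]
  rw [df_congr (nr.mono fun _ k => k.2) h.ch, ← dfM_mulVec, dfM_id h.ch h'.ch,
    Matrix.mulVec_single_one] at k2
  refine funext fun i => Eq.trans ?_ (k2 i)
  exact (DFunLike.congr_fun (fderiv_const_smul (hs i e h.ch).differentiableAt (cc D a z)) _).symm

theorem Ok.hom (h : Ok D a e z) {c : ℂ} (hc : c ≠ 0) :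
    Ok D a e (c • z) ∧ ∀ l, Wm D a e (c • z) l = c • Wm D a e z l := by
  have k := D.cone.smul z c h.mem hc
  have o : Ok D a e (c • z) := ⟨(P.smul z h.mem c hc).1, k.symm ▸ h.ua, k.symm ▸ h.ch⟩
  have k1 : cc D a (c • z) = c * cc D a z := smul_left_injective ℂ (D.ins a _ h.ua).1.1 (by
    show _ • _ = _ • _
    rw [mul_smul, ← (h.cs P).2, ← k, ← (o.cs P).2])
  refine ⟨o, Fin.cases rfl fun l => ?_⟩
  simp only [Wm, Fin.cons_succ, k, k1, mul_smul]

variable {φ : BF d D.N} {b : Fin (n + 1) → ℕ} {v : ∀ i, BF (b i) D.N} {p : Cm 2}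

omit P in
theorem Ok.near (h : Ok D a e (ev φ p)) (hφ : Crv D.P φ) (hp : p ≠ 0) :
    AnalyticAt ℂ (fun q => e (D.pt (ev φ q))) p ∧ ∀ᶠ q in 𝓝 p, q ≠ 0 ∧ Ok D a e (ev φ q) := by
  obtain ⟨ρ, -, r1, -, -, r2, -⟩ := D.cone.loc _ h.mem e h.ch
  have k : ∀ᶠ q in 𝓝 p, q ≠ 0 ∧ D.pt (ev φ q) ∈ e.source ∧ e (D.pt (ev φ q)) = ρ (ev φ q) := by
    filter_upwards [eventually_ne_nhds hp, (an_ev φ p).continuousAt.eventually r2] with q k1 k2
    exact ⟨k1, k2 (hφ q k1)⟩
  have k1 : AnalyticAt ℂ (fun q => e (D.pt (ev φ q))) p :=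
    (r1.fun_comp (an_ev φ p)).congr (k.mono fun q c => c.2.2.symm)
  refine ⟨k1, ?_⟩
  filter_upwards [k, k1.continuousAt.eventually (at_ev h.ch ((D.lb.isOpen a).mem_nhds h.ua))]
    with q c1 c2
  exact ⟨c1.1, hφ q c1.1, e.left_inv c1.2.1 ▸ c2, h.ch.1, c1.2.1⟩

theorem Ok.anW (h : Ok D a e (ev φ p)) (hφ : Crv D.P φ) (hp : p ≠ 0) (l : Fin (n + 1)) :
    AnalyticAt ℂ (fun q => Wm D a e (ev φ q) l) p := by
  obtain ⟨k1, k2⟩ := h.near hφ hp
  have hs := fun i => ((D.sec i).holo a e _ h.ch h.ua).analyticAt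
  refine Fin.cases (an_ev φ p) (fun k => AnalyticAt.fun_smul ?_ (analyticAt_pi_iff.2 fun i => ?_)) l
  · refine an_sol (m := Unit) (M := fun q _ => D.s a (D.pt (ev φ q)))
      (A := fun q _ => cc D a (ev φ q)) (fun _ => analyticAt_pi_iff.2 fun i => ?_) (an_ev φ p)
      (linearIndependent_unique_iff.2 (D.ins a _ h.ua).1.1)
      (k2.mono fun q c => by rw [Fintype.sum_unique]; exact (c.2.cs P).2) ()
    exact ((hs i).fun_comp (f := fun q => e (D.pt (ev φ q))) k1).congr (k2.mono fun q c => by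
      simp only [e.left_inv c.2.ch.2])
  · exact ((ContinuousLinearMap.apply ℂ ℂ (Pi.single k 1 : Cm n)).analyticAt _).fun_comp
      ((hs i).fderiv.fun_comp (f := fun q => e (D.pt (ev φ q))) k1)

omit P in
variable (φ v a e p) in
/-- the coordinates of the standard frame in the frame `v` -/
def Bm : Matrix (Fin (n + 1)) (Fin (n + 1)) ℂ :=
  Classical.epsilon fun B => ∀ l, Wm D a e (ev φ p) l = ∑ i, B i l • ev (v i) p

variable (hφ : Crv D.P φ) (F : D.Frm φ b v) (hp : p ≠ 0)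
include hφ F hp

omit P in
theorem spanV {w : Cm D.N} (hw : Jm D.P (ev φ p) *ᵥ w = 0) :
    ∃ c : Fin (n + 1) → ℂ, ∑ i, c i • ev (v i) p = w := by
  have k : Submodule.span ℂ (range fun i => ev (v i) p) =
      LinearMap.ker (Jm D.P (ev φ p)).mulVecLin := by
    refine Submodule.eq_of_le_of_finrank_eq (Submodule.span_le.2 (range_subset_iff.2 fun i =>
      F.mem i p hp)) ?_
    have h1 := (Jm D.P (ev φ p)).mulVecLin.finrank_range_add_finrank_ker
    have h2 := D.cone.rk _ (hφ p hp)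
    rw [finrank_span_eq_card (F.ind p hp), Fintype.card_fin]
    rw [Module.finrank_fin_fun] at h1
    exact Nat.add_left_cancel (h2.trans h1.symm)
  exact (Submodule.mem_span_range_iff_exists_fun ℂ).1 (k.ge hw)

theorem Ok.bs (h : Ok D a e (ev φ p)) (l : Fin (n + 1)) :
    Wm D a e (ev φ p) l = ∑ i, Bm a e φ v p i l • ev (v i) p := by
  choose c hc using fun l => spanV hφ F hp (h.wk P l)
  exact Classical.epsilon_spec (p := fun B : Matrix _ _ ℂ => ∀ l, Wm D a e (ev φ p) l =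
    ∑ i, B i l • ev (v i) p) ⟨.of fun i l => c l i, fun l => (hc l).symm⟩ l

theorem Ok.comb (h : Ok D a e (ev φ p)) {u c : Fin (n + 1) → ℂ}
    (k : ∑ i, c i • ev (v i) p = ∑ l, u l • Wm D a e (ev φ p) l) : c = Bm a e φ v p *ᵥ u := by
  refine funext (Fintype.linearIndependent_iffₛ.1 (F.ind p hp) _ _ (k.trans ?_))
  simp only [h.bs P hφ F hp, Finset.smul_sum, smul_smul, Matrix.mulVec, dotProduct,
    Finset.sum_smul, mul_comm]
  exact Finset.sum_comm

theorem Ok.anB (h : Ok D a e (ev φ p)) (i l : Fin (n + 1)) :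
    AnalyticAt ℂ (fun q => Bm a e φ v q i l) p :=
  an_sol (A := fun q i => Bm a e φ v q i l) (fun i => an_ev (v i) p) (h.anW P hφ hp l) (F.ind p hp)
    ((h.near hφ hp).2.mono fun _ c => c.2.bs P hφ F c.1 l) i

theorem Ok.det (h : Ok D a e (ev φ p)) : (Bm a e φ v p).det ≠ 0 := by
  choose u hu using fun i => h.span P (F.mem i p hp)
  refine Matrix.det_ne_zero_of_right_inverse (B := .of fun l i => u i l) (Matrix.ext fun j i => ?_)
  have k := h.comb P hφ F hp (c := Pi.single i 1) (u := u i) (by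
    rw [← hu i, ← Fintype.linearCombination_apply, Fintype.linearCombination_apply_single, one_smul])
  exact (congrFun k j).symm.trans (by simp [Pi.single_apply, Matrix.one_apply])

theorem Ok.chB (h : Ok D a e (ev φ p)) (h' : Ok D a' e' (ev φ p)) : ∃ τ : Fin n → ℂ,
    Bm a e φ v p = Bm a' e' φ v p * .of fun l => Fin.cons ((Pi.single 0 1 : Fin (n + 1) → ℂ) l)
      fun k => (Fin.cons (τ k) fun l => jacM e e' (D.pt (ev φ p)) l k : Fin (n + 1) → ℂ) l := by
  choose τ hτ using h.chg P h'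
  refine ⟨τ, Matrix.ext fun i => Fin.cases ?_ fun k => ?_⟩
  · exact congrFun (h'.comb P hφ F hp (c := fun i => Bm a e φ v p i 0) (u := Pi.single 0 1) (by
      rw [← h.bs P hφ F hp, ← Fintype.linearCombination_apply,
        Fintype.linearCombination_apply_single, one_smul]; rfl)) i
  · exact congrFun (h'.comb P hφ F hp (c := fun i => Bm a e φ v p i k.succ)
      ((h.bs P hφ F hp _).symm.trans (hτ k))) i

theorem Ok.chD (h : Ok D a e (ev φ p)) (h' : Ok D a' e' (ev φ p)) :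
    (Bm a e φ v p).det = (Bm a' e' φ v p).det * (jacM e e' (D.pt (ev φ p))).det := by
  obtain ⟨τ, k⟩ := h.chB P hφ F hp h'
  rw [k, Matrix.det_mul]
  refine congrArg _ ?_
  rw [Matrix.det_succ_column_zero, Fin.sum_univ_succ]
  simp
  rfl

theorem Ok.chR (h : Ok D a e (ev φ p)) (h' : Ok D a' e' (ev φ p)) {j : Fin (n + 1)}
    (hj : Bm a' e' φ v p j 0 = 0) : (fun k : Fin n => Bm a e φ v p j k.succ) =
      (fun k : Fin n => Bm a' e' φ v p j k.succ) ᵥ* jacM e e' (D.pt (ev φ p)) := by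
  obtain ⟨τ, k⟩ := h.chB P hφ F hp h'
  funext l
  rw [k, Matrix.mul_apply, Fin.sum_univ_succ, hj, zero_mul, zero_add]
  rfl

theorem Ok.homB (h : Ok D a e (ev φ p)) {c : ℂ} (hc : c ≠ 0) (i l : Fin (n + 1)) :
    Bm a e φ v (c • p) i l = c ^ ((d : ℤ) - b i) * Bm a e φ v p i l := by
  obtain ⟨o, k⟩ := h.hom P (pow_ne_zero d hc)
  rw [← ev_arg] at o k
  refine Fintype.linearIndependent_iffₛ.1 (F.ind _ (smul_ne_zero hc hp))
    (fun i => Bm a e φ v (c • p) i l) (fun i => c ^ ((d : ℤ) - b i) * Bm a e φ v p i l) ?_ i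
  rw [← o.bs P hφ F (smul_ne_zero hc hp), k, h.bs P hφ F hp, Finset.smul_sum]
  refine Finset.sum_congr rfl fun i _ => ?_
  rw [ev_arg, smul_smul, smul_smul, mul_right_comm, zpow_sub₀ hc, zpow_natCast, zpow_natCast,
    div_mul_cancel₀ _ (pow_ne_zero _ hc)]

end NefA

open NefA

theorem degk_of (hP : PT) : DEGK := by
  intro n D d φ hφ b v F
  have P := hP n D
  choose a ha using D.lb.cover
  have ok : ∀ {e p}, p ≠ 0 → At e (D.pt (ev φ p)) → Ok D (a (D.pt (ev φ p))) e (ev φ p) :=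
    fun hp he => ⟨hφ _ hp, ha _, he⟩
  refine ⟨fun e p => (Bm (a (D.pt (ev φ p))) e φ v p).det⁻¹, fun e p hp he => ⟨?_,
    inv_ne_zero ((ok hp he).det P hφ F hp), fun c hc => ?_⟩, fun e e' p hp he he' => ?_⟩
  · refine ((an_det ((ok hp he).anB P hφ F hp)).fun_inv ((ok hp he).det P hφ F hp)).congr ?_
    filter_upwards [((ok hp he).near hφ hp).2] with q k
    rw [k.2.chD P hφ F k.1 (ok k.1 k.2.ch), ← dfM_id k.2.ch k.2.ch, dfM_id_self k.2.ch,
      Matrix.det_one, mul_one]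
  · have k : Bm (a (D.pt (ev φ p))) e φ v (c • p) = .diagonal (fun i => c ^ ((d : ℤ) - b i)) *
        Bm (a (D.pt (ev φ p))) e φ v p := Matrix.ext fun i l => by
      rw [Matrix.diagonal_mul, (ok hp he).homB P hφ F hp hc]
    simp only [ev_arg, D.cone.smul _ _ (hφ p hp) (pow_ne_zero d hc)]
    rw [k, Matrix.det_mul, Matrix.det_diagonal, prod_zpow hc, mul_inv, zpow_neg]
  · exact (congrArg _ ((ok hp he).chD P hφ F hp (ok hp he'))).trans
      ((mul_inv _ _).trans (mul_comm _ _))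

theorem nef_of (hP : PT) (hC : COEF) (hR : RCP) : NEF := by
  intro n D d φ hN hφ hd b v F j
  have P := hP n D
  choose a ha using D.lb.cover
  have ok : ∀ {e p}, p ≠ 0 → At e (D.pt (ev φ p)) → Ok D (a (D.pt (ev φ p))) e (ev φ p) :=
    fun hp he => ⟨hφ _ hp, ha _, he⟩
  by_contra hj
  obtain ⟨c, c1, c2⟩ := hC n D d φ hφ b v F d φ fun p hp => (ok hp (at_chart _)).wk P 0
  have z : ∀ {a e p}, p ≠ 0 → Ok D a e (ev φ p) → Bm a e φ v p j 0 = 0 := fun {a e p} hp h => by
    rw [← Fintype.linearIndependent_iffₛ.1 (F.ind p hp) _ _ ((c2 p).symm.trans (h.bs P hφ F hp 0)) j,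
      c1 j (not_le.1 hj), ev_zero]
  have := hN _ (hR n D d φ hφ hd).1 ((d : ℤ) - b j)
    (fun e p k => Bm (a (D.pt (ev φ p))) e φ v p j k.succ) ⟨fun e p hp he => ?_,
      fun e p hp he k => (ok hp he).det P hφ F hp (Matrix.det_eq_zero_of_row_eq_zero j
        (Fin.cases (z hp (ok hp he)) (congrFun k))), fun e p hp he c hc => funext fun k => ?_,
      fun e e' p hp he he' => (ok hp he).chR P hφ F hp (ok hp he') (z hp (ok hp he'))⟩
  · omega
  · refine (analyticAt_pi_iff.2 fun k : Fin n => (ok hp he).anB P hφ F hp j k.succ).congr ?_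
    filter_upwards [((ok hp he).near hφ hp).2] with q k
    rw [k.2.chR P hφ F k.1 (ok k.1 k.2.ch) (z k.1 (ok k.1 k.2.ch)), ← dfM_id k.2.ch k.2.ch,
      dfM_id_self k.2.ch, Matrix.vecMul_one]
  · simp only [ev_arg, D.cone.smul _ _ (hφ p hp) (pow_ne_zero d hc)]
    exact (ok hp he).homB P hφ F hp hc j _

end Vale.Agent.P280Z.Cv
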