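import Vale.Agent.P280Z.Cv.Sk
import Vale.Agent.P280Z.Mp.Tub
import Vale.Agent.P281Z.Pb.Api
import Vale.Agent.P281Z.Pb.Ps

/-!
# P280Z, block Cv: the cone and the manifold
-/

open scoped Manifold ContDiff Topology Matrix
open Set Filter
open Vale.Agent.P272.K Vale.Agent.P285.H281.FD Vale.Agent.P281Z
open Vale.Agent.P277Z (Hol at_chart)
open Vale.Agent.P277Z.Slc (dd)
open Vale.Agent.P280Z.Mp (Eqs Jm In Pv Cone)
open Vale.Agent.P280Z.Mp.Tub (JL hs_Pv)

set_option linter.all false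

noncomputable section

namespace Vale.Agent.P280Z.Cv

namespace PtX

theorem dd_mul' {l : ℕ} {Z : Type} [TopologicalSpace Z] [ChartedSpace (Cm l) Z] {u a : Z → ℂ}
    {y : Z} (hu : Hol l u y) (ha : Hol l a y) {e : Chart l Z} (he : At e y) (v : Cm l) :
    dd (fun y => u y * a y) e y v = u y * dd a e y v + dd u e y v * a y := by
  unfold dd
  rw [fderiv_fun_mul (hu e he).differentiableAt (ha e he).differentiableAt, e.left_inv he.2]
  simp only [ContinuousLinearMap.add_apply, ContinuousLinearMap.smul_apply, smul_eq_mul]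
  ring

theorem jm_smul {r N δ : ℕ} {P : Eqs r N} (h : Mp.Hom P δ) (c : ℂ) (z w : Cm N) :
    c • Jm P (c • z) *ᵥ w = c ^ δ • Jm P z *ᵥ w := by
  have h1 : HasFDerivAt (fun y : Cm N => Pv P (c • y))
      ((JL P (c • z)).comp (c • ContinuousLinearMap.id ℂ (Cm N))) z :=
    HasFDerivAt.comp z (g := Pv P) (hs_Pv P (c • z)).hasFDerivAt ((hasFDerivAt_id z).const_smul c)
  have h2 : HasFDerivAt (fun y : Cm N => Pv P (c • y)) (c ^ δ • JL P z) z := by
    simp only [Mp.Tub.Pv_smul h]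
    exact (hs_Pv P z).hasFDerivAt.const_smul (c ^ δ)
  have h3 := DFunLike.congr_fun (h1.unique h2) w
  rw [ContinuousLinearMap.comp_apply, ContinuousLinearMap.smul_apply, map_smul] at h3
  exact h3

theorem euler {r N δ : ℕ} {P : Eqs r N} (h : Mp.Hom P δ) {z : Cm N} (hz : Pv P z = 0) :
    Jm P z *ᵥ z = 0 := by
  have h1 : HasDerivAt (fun t : ℂ => Pv P (t • z)) (JL P ((1 : ℂ) • z) ((1 : ℂ) • z)) 1 :=
    HasFDerivAt.comp_hasDerivAt (l := Pv P) (f := fun t : ℂ => t • z) (1 : ℂ)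
      (hs_Pv P ((1 : ℂ) • z)).hasFDerivAt ((hasDerivAt_id' (1 : ℂ)).smul_const z)
  simp only [Mp.Tub.Pv_smul h, hz, smul_zero, one_smul] at h1
  exact h1.unique (hasDerivAt_const _ _)

variable {n : ℕ} (D : Dat n)

theorem shol {a : D.H.ι} {x : D.X.X} (hx : x ∈ D.H.U a) (i : Fin D.N) :
    Hol n (fun y => D.s a y i) x := fun e he => ((D.sec i).holo a e x he hx).analyticAt

theorem fd_eq {a : D.H.ι} {x : D.X.X} (hx : x ∈ D.H.U a) {e : Chart n D.X.X} (he : At e x)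
    (v : Cm n) : fderiv ℂ (fun z => D.s a (e.symm z)) (e x) v =
      fun i => dd (fun y => D.s a y i) e x v := by
  rw [fderiv_pi fun i => (shol D hx i e he).differentiableAt]
  rfl

theorem spec (z : Cm D.N) (hz : In D.P z) (a : D.H.ι) (ha : D.pt z ∈ D.H.U a) :
    ∃ c : ℂ, c ≠ 0 ∧ z = c • D.s a (D.pt z) := by
  obtain ⟨h1, h2⟩ := D.ins a _ ha
  obtain ⟨c, hc⟩ := D.cone.inj _ z h1 hz h2
  exact ⟨c, fun h0 => hz.1 (by rw [hc, h0, zero_smul]), hc⟩

theorem ker (a : D.H.ι) (x : D.X.X) (hx : x ∈ D.H.U a) (e : Chart n D.X.X) (he : At e x)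
    (w : Cm D.N) : Jm D.P (D.s a x) *ᵥ w = 0 ↔
      ∃ (v : Cm n) (c : ℂ), w = (fun i => dd (fun y => D.s a y i) e x v) + c • D.s a x := by
  set A := fderiv ℂ (fun z => D.s a (e.symm z)) (e x) with hA
  let T : (Cm n × ℂ) →ₗ[ℂ] Cm D.N :=
    (A : Cm n →ₗ[ℂ] Cm D.N).coprod (LinearMap.toSpanSingleton ℂ _ (D.s a x))
  have hT : ∀ p, T p = A p.1 + p.2 • D.s a x := fun p => rfl
  have h1 : Function.Injective T := by
    refine (injective_iff_map_eq_zero T).2 fun p hp => ?_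
    rw [hT] at hp
    have k1 : p.1 = 0 := D.lifts.imm a x hx e he p.1 (-p.2) (by
      rw [neg_smul]
      exact eq_neg_of_add_eq_zero_left hp)
    rw [k1, map_zero, zero_add] at hp
    exact Prod.ext k1 ((smul_eq_zero.1 hp).resolve_right (D.lifts.nz a x hx))
  have h2 : LinearMap.range T ≤ LinearMap.ker (Jm D.P (D.s a x)).mulVecLin := by
    rintro _ ⟨p, rfl⟩
    have k1 : HasFDerivAt (fun z => Pv D.P (D.s a (e.symm z))) ((JL D.P (D.s a x)).comp A) (e x) :=
      HasFDerivAt.comp (e x) (g := Pv D.P) (by rw [he.left_inv]; exact (hs_Pv _ _).hasFDerivAt)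
        (D.lifts.hol a x hx e he).differentiableAt.hasFDerivAt
    have k2 : (fun z => Pv D.P (D.s a (e.symm z))) =ᶠ[𝓝 (e x)] fun _ => 0 :=
      at_ev he (P := fun y => Pv D.P (D.s a y) = 0)
        (mem_of_superset ((D.lb.isOpen a).mem_nhds hx) fun y hy => (D.ins a y hy).1.2)
    have k3 := DFunLike.congr_fun
      (k1.unique ((hasFDerivAt_const (0 : Cm D.r) (e x)).congr_of_eventuallyEq k2)) p.1
    rw [LinearMap.mem_ker, hT, map_add, map_smul, Matrix.mulVecLin_apply, Matrix.mulVecLin_apply,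
      euler D.cone.hom (D.ins a x hx).1.2, smul_zero, add_zero]
    exact k3
  have h3 : LinearMap.range T = LinearMap.ker (Jm D.P (D.s a x)).mulVecLin := by
    refine Submodule.eq_of_le_of_finrank_eq h2 ?_
    have k1 := LinearMap.finrank_range_add_finrank_ker (Jm D.P (D.s a x)).mulVecLin
    have k2 := D.cone.rk _ (D.ins a x hx).1
    rw [LinearMap.finrank_range_of_inj h1, Module.finrank_prod, Module.finrank_fin_fun,
      Module.finrank_self]
    rw [Module.finrank_fin_fun] at k1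
    exact Nat.add_left_cancel (k2.trans k1.symm)
  have h4 : w ∈ LinearMap.range T ↔ Jm D.P (D.s a x) *ᵥ w = 0 := by rw [h3]; rfl
  rw [← h4]
  constructor
  · rintro ⟨p, rfl⟩
    exact ⟨p.1, p.2, by rw [hT, hA, fd_eq D hx he]⟩
  · rintro ⟨v, c, rfl⟩
    exact ⟨(v, c), by rw [hT, hA, fd_eq D hx he]⟩

variable {l : ℕ} {Z : Type} [TopologicalSpace Z] [ChartedSpace (Cm l) Z]
  [IsManifold 𝓘(ℂ, Cm l) ω Z] {z : Z → Cm D.N} {y : Z}

theorem holA (hz : ∀ i, Hol l (fun y => z y i) y) (hin : ∀ᶠ y' in 𝓝 y, In D.P (z y')) :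
    HolA l n (fun y => D.pt (z y)) y := by
  have hχ := at_chart (n := n) (D.pt (z y))
  obtain ⟨ρ, -, h1, -, -, h2, -⟩ := D.cone.loc (z y) hin.self_of_nhds _ hχ
  have h3 : AnV l z y := AnV.pi hz
  have h4 := (h2.self_of_nhds hin.self_of_nhds).2
  refine (holA_symm (h3.cmp h1).hol hχ.1 (h4 ▸ hχ.mem_target)).cng ?_
  filter_upwards [hin, h3.cont.eventually h2] with y' k1 k2
  rw [← (k2 k1).2, OpenPartialHomeomorph.left_inv _ (k2 k1).1]

theorem dd_eq (hz : ∀ i, Hol l (fun y => z y i) y) (hin : ∀ᶠ y' in 𝓝 y, In D.P (z y'))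
    (a : D.H.ι) (c : ℂ) (ha : D.pt (z y) ∈ D.H.U a) (hc : z y = c • D.s a (D.pt (z y)))
    (e' : Chart l Z) (e : Chart n D.X.X) (he' : At e' y) (he : At e (D.pt (z y))) (v : Cm l) :
    ∃ c' : ℂ, ∀ i, dd (fun y => z y i) e' y v = c * dd (fun x => D.s a x i) e (D.pt (z y))
      (df (fun y => D.pt (z y)) e' e y v) + c' * D.s a (D.pt (z y)) i := by
  have hg := holA D hz hin
  have ht : ∀ i, Hol l (fun y => D.s a (D.pt (z y)) i) y := fun i => hg.hol (shol D ha i)
  let k : Z → ℂ := fun y' => Classical.epsilon fun c : ℂ => z y' = c • D.s a (D.pt (z y'))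
  have h1 : ∀ᶠ y' in 𝓝 y, z y' = k y' • D.s a (D.pt (z y')) := by
    filter_upwards [hin, hg.cont.eventually ((D.lb.isOpen a).mem_nhds ha)] with y' k1 k2
    obtain ⟨c, -, hc⟩ := spec D _ k1 a k2
    exact Classical.epsilon_spec (p := fun c : ℂ => z y' = c • D.s a (D.pt (z y'))) ⟨c, hc⟩
  have h0 := D.lifts.nz a _ ha
  have h2 : Hol l k y := hol_fac hz ht h0 h1
  have h3 : k y = c := smul_left_injective ℂ h0 (h1.self_of_nhds.symm.trans hc)
  refine ⟨dd k e' y v, fun i => ?_⟩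
  rw [P277Z.Slc.dd_congr (b := fun y' => k y' * D.s a (D.pt (z y')) i)
    (h1.mono fun y' h => congrFun h i) he', dd_mul' h2 (ht i) he', h3,
    dd_comp (f := fun y => D.pt (z y)) (shol D ha i) hg he' he]
  rfl

theorem pos : Pos n D.H := by
  refine Pb.pos_of_sec D.lb (s := fun k b x => D.s b x k) D.sec
    (fun b x hx => Function.ne_iff.1 (D.lifts.nz b x hx)) fun b x hx e he ξ hξ => ?_
  obtain ⟨k, hk⟩ := Function.ne_iff.1 (D.lifts.nz b x hx)
  have hk' : D.s b x k ≠ 0 := hk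
  by_contra hcon
  refine hξ (D.lifts.imm b x hx e he ξ (dd (fun y => D.s b y k) e x ξ / D.s b x k) ?_)
  rw [fd_eq D hx he]
  funext j
  have h1 : dd (fun y => D.s b y j / D.s b y k) e x ξ = 0 := by
    by_contra h
    exact hcon ⟨k, j, hk', h⟩
  have h2 : ∀ᶠ y in 𝓝 x, D.s b y j = D.s b y j / D.s b y k * D.s b y k :=
    ((shol D hx k).ne_near hk').mono fun y hy => (div_mul_cancel₀ _ hy).symm
  rw [P277Z.Slc.dd_congr h2 he, dd_mul' ((shol D hx j).div (shol D hx k) hk') (shol D hx k) he, h1,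
    Pi.smul_apply, smul_eq_mul]
  ring

theorem bpf : Bpf n D.H := fun x => by
  obtain ⟨b, hx⟩ := D.lb.cover x
  obtain ⟨k, hk⟩ := Function.ne_iff.1 (D.lifts.nz b x hx)
  refine ⟨_, D.sec k, fun b' hx' h0 => hk (((D.sec k).change b b' x hx hx').trans ?_)⟩
  rw [show D.s b' x k = 0 from h0, mul_zero]
  rfl

end PtX

/-- **PT** -/
theorem pt_all : PT := fun _ D =>
  { spec := PtX.spec D
    smul := fun z hz c hc => ⟨Mp.Tub.in_smul D.cone.hom hc hz, fun w => by
      rw [← smul_eq_zero_iff_right hc, PtX.jm_smul D.cone.hom,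
        smul_eq_zero_iff_right (pow_ne_zero _ hc)]⟩
    ker := PtX.ker D
    hol := fun _ _ _ _ _ _ _ hz hin => ⟨PtX.holA D hz hin, PtX.dd_eq D hz hin⟩
    pos := PtX.pos D
    bpf := PtX.bpf D }

/-- **PT**, in the form of the skeleton -/
theorem pt_of (_ : Mp.TUB) : PT := pt_all

end Vale.Agent.P280Z.Cv
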