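import Vale.Agent.P280Z.Cv.Sk
import Vale.Agent.P280Z.Mp.Bf0

/-!
# P280Z, block Cv: rows RCP, PRC, DEGU
-/

open scoped Manifold ContDiff Topology Matrix
open Set Filter
open Vale.Agent.P272.K Vale.Agent.P285.H281.FD Vale.Agent.P281Z
open Vale.Agent.P277Z (Hol at_chart)
open Vale.Agent.P280Z.Mp (BF ev In Crv ev_arg ev_one ev_apply hm_ev)

noncomputable section

namespace Vale.Agent.P280Z.Cv

namespace RcH

theorem inv_lim : Tendsto (fun t : ℂ => t⁻¹) (cocompact ℂ) (𝓝 0) := by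
  rw [← Metric.cobounded_eq_cocompact]
  exact tendsto_inv₀_cobounded

theorem ne_ev : ∀ᶠ t : ℂ in cocompact ℂ, t ≠ 0 := isCompact_singleton.compl_mem_cocompact

/-- entire functions of polynomial growth -/
theorem poly (m : ℕ) : ∀ g : ℂ → ℂ, Differentiable ℂ g →
    Tendsto (fun t => t⁻¹ ^ m * g t) (cocompact ℂ) (𝓝 0) →
    ∃ c : Fin m → ℂ, ∀ t, g t = ∑ i, t ^ i.val • c i := by
  induction m with
  | zero =>
    exact fun g hg h => ⟨0, fun t => by simpa using hg.apply_eq_of_tendsto_cocompact t (by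
      simpa using h)⟩
  | succ m ih =>
    intro g hg h
    obtain ⟨c, hc⟩ := ih (dslope g 0) (differentiableOn_univ.1
      ((Complex.differentiableOn_dslope univ_mem).2 hg.differentiableOn)) (by
        have k := h.sub ((inv_lim.pow (m + 1)).mul_const (g 0))
        rw [zero_pow m.succ_ne_zero, zero_mul, sub_zero] at k
        refine k.congr' (ne_ev.mono fun t ht => ?_)
        simp only [dslope_of_ne _ ht, slope_def_field, sub_zero]
        ring)
    refine ⟨Fin.cons (g 0) c, fun t => ?_⟩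
    have k := sub_smul_dslope g 0 t
    rw [hc, sub_zero, Finset.smul_sum] at k
    rw [Fin.sum_univ_succ, ← sub_eq_iff_eq_add', Fin.cons_zero, Fin.val_zero, pow_zero, one_smul,
      ← k]
    exact Finset.sum_congr rfl fun i _ => by
      rw [Fin.cons_succ, Fin.val_succ, smul_smul, pow_succ']

/-- analytic and homogeneous of degree `a` outside the origin -/
def Hg (a : ℤ) (f : Cm 2 → ℂ) : Prop :=
  ∀ p ≠ 0, AnalyticAt ℂ f p ∧ ∀ c : ℂ, c ≠ 0 → f (c • p) = c ^ a * f p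

variable {a : ℤ} {f : Cm 2 → ℂ}

theorem ne1 (t : ℂ) : (![1, t] : Cm 2) ≠ 0 := fun e => one_ne_zero (congrFun e 0)

theorem Hg.grow (h : Hg a f) (m : ℕ) (hm : a < m) :
    ∃ c : Fin m → ℂ, ∀ t, f ![1, t] = ∑ i, t ^ i.val • c i := by
  have k0 : (![0, 1] : Cm 2) ≠ 0 := fun e => one_ne_zero (congrFun e 1)
  refine poly m _ (fun t => ?_) ?_
  · refine (h _ (ne1 t)).1.differentiableAt.comp t (differentiableAt_pi.2 fun i => ?_)
    fin_cases i
    · exact differentiableAt_const _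
    · exact differentiableAt_id
  · obtain ⟨k, hk⟩ : ∃ k : ℕ, (m : ℤ) = a + (k + 1 : ℕ) := ⟨(m - a - 1).toNat, by omega⟩
    have k1 : Tendsto (fun t : ℂ => (![t⁻¹, 1] : Cm 2)) (cocompact ℂ) (𝓝 ![0, 1]) :=
      tendsto_pi_nhds.2 fun i => by
        fin_cases i
        · exact inv_lim
        · exact tendsto_const_nhds
    have k2 := (inv_lim.pow (k + 1)).mul ((h _ k0).1.continuousAt.tendsto.comp k1)
    rw [zero_pow k.succ_ne_zero, zero_mul] at k2
    refine k2.congr' (ne_ev.mono fun t ht => ?_)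
    have k3 : (![1, t] : Cm 2) = t • ![t⁻¹, 1] := funext fun i => by fin_cases i <;> simp [ht]
    have k4 := (h ![t⁻¹, 1] fun e => one_ne_zero (congrFun e 1)).2 t ht
    show t⁻¹ ^ (k + 1) * f _ = t⁻¹ ^ m * f _
    rw [k3, k4, ← mul_assoc, ← zpow_natCast _ m, hk, zpow_add₀ (inv_ne_zero ht), zpow_natCast,
      inv_zpow, mul_right_comm (t ^ a)⁻¹, inv_mul_cancel₀ (zpow_ne_zero a ht), one_mul]

theorem Hg.ext {f' : Cm 2 → ℂ} (h : Hg a f) (h' : Hg a f') (e : ∀ t, f ![1, t] = f' ![1, t])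
    {p : Cm 2} (hp : p ≠ 0) : f p = f' p := by
  have k : ∀ q : Cm 2, q 0 ≠ 0 → f q = f' q := fun q hq => by
    have k3 : q = q 0 • ![1, q 1 / q 0] := funext fun i => by
      fin_cases i
      · simp
      · simp [mul_div_cancel₀ _ hq]
    rw [k3, (h _ (ne1 _)).2 _ hq, (h' _ (ne1 _)).2 _ hq, e]
  have k1 : Tendsto (fun s : ℂ => Function.update p 0 s) (𝓝[≠] (p 0)) (𝓝 p) := by
    have := (continuous_const.update 0 continuous_id).tendsto' (p 0) p (Function.update_eq_self 0 p)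
    exact this.mono_left nhdsWithin_le_nhds
  by_cases h0 : p 0 = 0
  · refine tendsto_nhds_unique ((h p hp).1.continuousAt.tendsto.comp k1)
      (((h' p hp).1.continuousAt.tendsto.comp k1).congr' ?_)
    filter_upwards [self_mem_nhdsWithin] with s hs
    exact (k (Function.update p 0 s) (by rwa [Function.update_self, ← h0])).symm
  · exact k p h0

theorem Hg.neg (h : Hg a f) (ha : a < 0) {p : Cm 2} (hp : p ≠ 0) : f p = 0 := by
  obtain ⟨c, hc⟩ := h.grow 0 ha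
  exact h.ext (f' := fun _ => 0) (fun _ _ => ⟨analyticAt_const, fun _ _ => (mul_zero _).symm⟩)
    (fun t => by simpa using hc t) hp

theorem ev_an {d : ℕ} (c : Fin (d + 1) → ℂ) (p : Cm 2) : AnalyticAt ℂ (ev c) p := by
  have k : ∀ i, AnalyticAt ℂ (fun z : Cm 2 => z i) p := fun i =>
    (ContinuousLinearMap.proj (R := ℂ) (φ := fun _ : Fin 2 => ℂ) i).analyticAt p
  exact Finset.analyticAt_fun_sum _ fun i _ =>
    (((k 0).fun_pow _).fun_mul ((k 1).fun_pow _)).fun_smul analyticAt_const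

theorem Hg.pos {d : ℕ} (h : Hg d f) : ∃ c : Fin (d + 1) → ℂ, ∀ p ≠ 0, f p = ev c p := by
  obtain ⟨c, hc⟩ := h.grow (d + 1) (by omega)
  exact ⟨c, fun p hp => h.ext (fun q _ => ⟨ev_an c q, fun t _ => by
    rw [ev_arg, zpow_natCast, smul_eq_mul]⟩) (fun t => by rw [hc, ev_one]) hp⟩

theorem Hg.zero (h : Hg a f) (h0 : ∀ p ≠ 0, f p ≠ 0) : a = 0 := by
  rcases lt_trichotomy a 0 with k | k | k
  · exact absurd (h.neg k (ne1 0)) (h0 _ (ne1 0))
  · exact k
  · obtain ⟨d, rfl⟩ : ∃ d : ℕ, a = (d + 1 : ℕ) := ⟨(a - 1).toNat, by omega⟩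
    obtain ⟨c, hc⟩ := h.pos
    obtain ⟨y, hy, k1⟩ := (hm_ev c).root
    exact absurd ((hc y hy).trans k1) (h0 y hy)

variable {n : ℕ} {X : Type} [TopologicalSpace X] [ChartedSpace (Cm n) X] {L : Bd X} {F : Cm 2 → X}

theorem glue (hL : IsLB n L) (hF : RC n F) {u : L.ι → Cm 2 → ℂ}
    (h1 : ∀ i, ∀ p ≠ 0, F p ∈ L.U i → AnalyticAt ℂ (u i) p ∧
      ∀ c : ℂ, c ≠ 0 → u i (c • p) = c ^ a * u i p)
    (h2 : ∀ i j, ∀ p ≠ 0, F p ∈ L.U i → F p ∈ L.U j → u i p = u j p) :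
    ∃ f, Hg a f ∧ ∀ i, ∀ p ≠ 0, F p ∈ L.U i → f p = u i p := by
  choose ι hι using hL.cover
  refine ⟨fun p => u (ι (F p)) p, fun p hp => ⟨(h1 _ p hp (hι _)).1.congr ?_, fun c hc => ?_⟩,
    fun i p hp hi => h2 _ _ p hp (hι _) hi⟩
  · filter_upwards [isOpen_ne.mem_nhds hp, (hF.hol p hp).continuousAt.eventually
      ((hL.isOpen _).mem_nhds (hι _))] with q k1 k2 using h2 _ _ q k1 k2 (hι _)
  · show u (ι (F (c • p))) (c • p) = _
    rw [hF.hom c p hc hp]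
    exact (h1 _ p hp (hι _)).2 c hc

theorem sec_an [IsManifold 𝓘(ℂ, Cm n) ω X] {s : L.ι → X → ℂ} (hs : IsSec n L s) {p : Cm 2}
    (hF : HolA 2 n F p) {i : L.ι} (hi : F p ∈ L.U i) : AnalyticAt ℂ (fun q => s i (F q)) p :=
  hF.hol (fun e he => (hs.holo i e _ he hi).analyticAt) _ (at_chart p)

theorem hol_cm {p : Cm 2} (h : AnalyticAt ℂ f p) : Hol 2 f p := fun e he => by
  rw [chartedSpaceSelf_atlas.1 he.1]
  exact h

theorem ev_an' {d N : ℕ} (φ : BF d N) (p : Cm 2) (i : Fin N) :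
    AnalyticAt ℂ (fun y => ev φ y i) p := by
  simp only [ev_apply]
  exact ev_an _ p

end RcH

open RcH

/-- row DEGU -/
theorem degu : DEGU := by
  rintro n V L F a a' hL hF ⟨β, h1, h2⟩ ⟨β', h1', h2'⟩
  obtain ⟨f, k1, k2⟩ := glue (a := a' - a) (u := fun i p => β i p / β' i p) hL hF
    (fun i p hp hi => ⟨(h1 i p hp hi).1.fun_div (h1' i p hp hi).1 (h1' i p hp hi).2.1,
      fun c hc => by
        rw [(h1 i p hp hi).2.2 c hc, (h1' i p hp hi).2.2 c hc, mul_div_mul_comm, ← zpow_sub₀ hc,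
          neg_sub_neg]⟩)
    fun i j p hp hi hj => by
      rw [h2 i j p hp hi hj, h2' i j p hp hi hj, mul_div_mul_left _ _ (hL.ne_zero i j _ hi hj)]
  refine (sub_eq_zero.1 (k1.zero fun p hp => ?_)).symm
  obtain ⟨i, hi⟩ := hL.cover (F p)
  rw [k2 i p hp hi]
  exact div_ne_zero (h1 i p hp hi).2.1 (h1' i p hp hi).2.1

/-- row PRC -/
theorem prc_of (hPT : PT) : PRC := by
  rintro n D F a hF ⟨β, h1, h2⟩
  choose f k1 k2 using fun l => glue (a := a) (u := fun i p => (β i p)⁻¹ * D.s i (F p) l) D.lb hF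
    (fun i p hp hi => ⟨((h1 i p hp hi).1.fun_inv (h1 i p hp hi).2.1).fun_mul
      (sec_an (D.sec l) (hF.hol p hp) hi), fun c hc => by
        rw [(h1 i p hp hi).2.2 c hc, hF.hom c p hc hp, mul_inv, zpow_neg, inv_inv, mul_assoc]⟩)
    fun i j p hp hi hj => by
      rw [h2 i j p hp hi hj, (D.sec l).change i j _ hi hj, mul_inv, mul_mul_mul_comm,
        inv_mul_cancel₀ (D.lb.ne_zero i j _ hi hj), one_mul]
  have k3 : ∀ p ≠ 0, In D.P (fun l => f l p) ∧ D.pt (fun l => f l p) = F p := fun p hp => by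
    obtain ⟨i, hi⟩ := D.lb.cover (F p)
    have e : (fun l => f l p) = (β i p)⁻¹ • D.s i (F p) := funext fun l => k2 l i p hp hi
    have h0 := inv_ne_zero (h1 i p hp hi).2.1
    rw [e]
    exact ⟨((hPT n D).smul _ (D.ins i _ hi).1 _ h0).1,
      (D.cone.smul _ _ (D.ins i _ hi).1 h0).trans (D.ins i _ hi).2⟩
  obtain ⟨d, rfl⟩ : ∃ d : ℕ, a = d := ⟨a.toNat, (Int.toNat_of_nonneg (not_lt.1 fun h =>
    (k3 _ (ne1 0)).1.1 (funext fun l => (k1 l).neg h (ne1 0)))).symm⟩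
  choose c hc using fun l => (k1 l).pos
  have k4 : ∀ p ≠ 0, ev (fun i l => c l i) p = fun l => f l p := fun p hp =>
    funext fun l => (ev_apply _ _ _).trans (hc l p hp).symm
  refine ⟨d, rfl, Nat.pos_of_ne_zero ?_, fun i l => c l i, fun p hp => ?_, fun p hp => ?_⟩
  · rintro rfl
    obtain ⟨p, q, hp, hq, h⟩ := hF.ncst
    refine h ?_
    rw [← (k3 p hp).2, ← (k3 q hq).2, ← k4 p hp, ← k4 q hq]
    simp [ev]
  · rw [k4 p hp]
    exact (k3 p hp).1
  · rw [k4 p hp]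
    exact (k3 p hp).2

/-- row RCP -/
theorem rcp_of (hPT : PT) : RCP := by
  intro n D d φ hφ hd
  have h1 : ∀ p ≠ 0, HolA 2 n (fun p => D.pt (ev φ p)) p := fun p hp =>
    ((hPT n D).hol 2 (Cm 2) (ev φ) p (fun i => hol_cm (ev_an' φ p i))
      (Eventually.mono (isOpen_ne.mem_nhds hp) hφ)).1
  have h2 : ∀ (c : ℂ) p, c ≠ 0 → p ≠ 0 → D.pt (ev φ (c • p)) = D.pt (ev φ p) := fun c p hc hp => by
    rw [ev_arg]
    exact D.cone.smul _ _ (hφ p hp) (pow_ne_zero d hc)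
  refine ⟨⟨h1, h2, ?_⟩, ?_⟩
  · by_contra h
    push Not at h
    obtain ⟨d, rfl⟩ := Nat.exists_eq_succ_of_ne_zero hd.ne'
    obtain ⟨l, hl⟩ := Function.ne_iff.1 (hφ _ (ne1 0)).1
    obtain ⟨y, hy, k⟩ := ((hm_ev φ).apply l).root
    obtain ⟨c, hc⟩ := D.cone.inj _ _ (hφ y hy) (hφ _ (ne1 0)) (h _ _ hy (ne1 0))
    exact hl (by rw [hc, Pi.smul_apply, k, smul_zero, Pi.zero_apply])
  have h3 : ∀ i p, ∃ b : ℂ, p ≠ 0 → D.pt (ev φ p) ∈ D.H.U i →
      b ≠ 0 ∧ D.s i (D.pt (ev φ p)) = b • ev φ p := fun i p => by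
    by_cases h : p ≠ 0 ∧ D.pt (ev φ p) ∈ D.H.U i
    · obtain ⟨c, hc, e⟩ := (hPT n D).spec _ (hφ p h.1) i h.2
      refine ⟨c⁻¹, fun _ _ => ⟨inv_ne_zero hc, ?_⟩⟩
      rw [eq_inv_smul_iff₀ hc]
      exact e.symm
    · exact ⟨0, fun k k' => absurd ⟨k, k'⟩ h⟩
  choose β hβ using h3
  refine ⟨β, fun i p hp hi => ⟨?_, (hβ i p hp hi).1, fun c hc => ?_⟩, fun i j p hp hi hj => ?_⟩
  · obtain ⟨l, hl⟩ := Function.ne_iff.1 (hφ p hp).1
    refine ((sec_an (D.sec l) (h1 p hp) hi).fun_div (ev_an' φ p l) hl).congr ?_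
    filter_upwards [isOpen_ne.mem_nhds hp, (h1 p hp).cont.eventually ((D.lb.isOpen i).mem_nhds hi),
      (ev_an' φ p l).continuousAt.eventually_ne hl] with q k1 k2 k3
    rw [(hβ i q k1 k2).2, Pi.smul_apply, smul_eq_mul, mul_div_cancel_right₀ _ k3]
  · have k := (hβ i _ (smul_ne_zero hc hp) (by rwa [h2 c p hc hp])).2
    rw [h2 c p hc hp, (hβ i p hp hi).2, ev_arg, smul_smul] at k
    rw [smul_left_injective ℂ (hφ p hp).1 k, zpow_neg, zpow_natCast, mul_comm (β i _),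
      inv_mul_cancel_left₀ (pow_ne_zero d hc)]
  · refine smul_left_injective ℂ (hφ p hp).1 ?_
    show _ • _ = _ • _
    rw [mul_smul, ← (hβ i p hp hi).2, ← (hβ j p hp hj).2]
    exact funext fun l => (D.sec l).change i j _ hi hj

end Vale.Agent.P280Z.Cv
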