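import Vale.Agent.P280Z.Cv.Sk2
import Vale.Agent.P281Z.Hg.Po1a

/-!
# P280Z, block Cv, row B2B: real two-forms and forms in the Fock model
-/

open scoped Manifold ContDiff Topology Matrix
open Set Filter
open Vale.Agent.P272.K Vale.Agent.P299.IX Vale.Agent.P299.IX.Fock Vale.Agent.P281Z
  Vale.Agent.P281Z.Hg

noncomputable section

namespace Vale.Agent.P280Z.Cv

namespace B2H

variable {n : ℕ}

/-- the value of the component of degree two on a pair of real vectors -/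
def bil (x : Fo n) (v w : Cm n) : ℂ := (iotV (Hg.cx w) *ᵥ (iotV (Hg.cx v) *ᵥ x)) ∅

theorem exP (n : ℕ) : ∃ Φ : Fo n →L[ℝ] Cm n →L[ℝ] Cm n →L[ℝ] ℝ,
    ∀ x v w, Φ x v w = (bil x v w).re :=
  ⟨(ContinuousLinearMap.compL ℝ (Cm n) (Fo n) (Cm n →L[ℝ] ℝ)
    ((ContinuousLinearMap.compL ℝ (Cm n) (Fo n) ℝ (Complex.reCLM.comp
      (ContinuousLinearMap.proj (R := ℝ) (φ := fun _ : FI (n + n) => ℂ) ∅))).comp
        (Po1.bl n).flip)).comp (Po1.bl n).flip, fun _ _ _ => rfl⟩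

theorem lam_empty {k : ℕ} (J : Matrix (Fin k) (Fin k) ℂ) (y : Fk k) : (lam J *ᵥ y) ∅ = y ∅ := by
  simp [Matrix.mulVec, dotProduct, lam_apply_empty]

theorem cx_swm (v : Cm n) : Hg.cx v ᵥ* swm n = star (Hg.cx v) := by
  funext l
  induction l using F1bH.idx with
  | h j => simp [Matrix.vecMul, dotProduct, F1bH.swm_hl, Ka.cx_hl, Ka.cx_ah]
  | h' j => simp [Matrix.vecMul, dotProduct, F1bH.swm_ah, Ka.cx_hl, Ka.cx_ah]

theorem cjv_io (v : Cm n) (x : Fo n) : cjv (iotV (Hg.cx v) *ᵥ x) = iotV (Hg.cx v) *ᵥ cjv x :=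
  F1bH.cjv_mul (by
    rw [iotV_lam, cx_swm, ← epsV_transpose (star _), ← iotV_conjTranspose]
    rfl) x

theorem bil_star (x : Fo n) (v w : Cm n) : star (bil x v w) = bil (cjv x) v w := by
  rw [bil, bil, ← cjv_io, ← cjv_io, cjv, lam_empty]
  rfl

theorem bil_self (x : Fo n) (v : Cm n) : bil x v v = 0 := by
  rw [bil, Matrix.mulVec_mulVec, iotV_sq, Matrix.zero_mulVec]
  rfl

theorem bil_sub (x y : Fo n) (v w : Cm n) : bil (x - y) v w = bil x v w - bil y v w := by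
  rw [bil, Matrix.mulVec_sub, Matrix.mulVec_sub]
  rfl

theorem cx_blk (A : Matrix (Fin n) (Fin n) ℂ) (v : Cm n) :
    Hg.cx v ᵥ* blk Aᵀ (Aᵀ.map star) = Hg.cx (A *ᵥ v) := by
  funext l
  induction l using F1bH.idx with
  | h j =>
    simp [Matrix.vecMul, Matrix.mulVec, dotProduct, Ka.sum_idx, F1bH.blk_hh, F1bH.blk_ah,
      Ka.cx_hl, mul_comm]
  | h' j =>
    simp [Matrix.vecMul, Matrix.mulVec, dotProduct, Ka.sum_idx, F1bH.blk_ha, F1bH.blk_aa,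
      Ka.cx_ah, mul_comm]

theorem bil_lam (A : Matrix (Fin n) (Fin n) ℂ) (x : Fo n) (v w : Cm n) :
    bil (lam (blk Aᵀ (Aᵀ.map star)) *ᵥ x) v w = bil x (A *ᵥ v) (A *ᵥ w) := by
  rw [bil, bil, Matrix.mulVec_mulVec x, iotV_lam, ← Matrix.mulVec_mulVec, Matrix.mulVec_mulVec,
    iotV_lam, ← Matrix.mulVec_mulVec, lam_empty, cx_blk, cx_blk]

section alg
variable {k : ℕ}

theorem io_S (a : Fin k → ℂ) (D : Fin k → Fk k) :
    iotV a *ᵥ ∑ c, eps c *ᵥ D c = ∑ c, a c • D c - ∑ c, eps c *ᵥ (iotV a *ᵥ D c) := by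
  rw [Matrix.mulVec_sum, ← Finset.sum_sub_distrib]
  refine Finset.sum_congr rfl fun c _ => ?_
  rw [Matrix.mulVec_mulVec, Matrix.mulVec_mulVec, eq_sub_of_add_eq (iotV_eps a c),
    Matrix.sub_mulVec, Matrix.smul_mulVec, Matrix.one_mulVec]

theorem S_empty (D : Fin k → Fk k) : (∑ c, eps c *ᵥ D c) ∅ = 0 := by
  rw [Finset.sum_apply]
  exact Finset.sum_eq_zero fun c _ => eps_mulVec_empty c _

theorem T_mul (a : Fin k → ℂ) (M : FM k) (D : Fin k → Fk k) :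
    ∑ c, a c • (M *ᵥ D c) = M *ᵥ ∑ c, a c • D c := by
  rw [Matrix.mulVec_sum]
  exact Finset.sum_congr rfl fun c _ => (Matrix.mulVec_smul _ _ _).symm

theorem io2 (a b : Fin k → ℂ) (D : Fin k → Fk k) :
    (iotV b *ᵥ (iotV a *ᵥ ∑ c, eps c *ᵥ D c)) ∅ =
      (iotV b *ᵥ ∑ c, a c • D c) ∅ - (iotV a *ᵥ ∑ c, b c • D c) ∅ := by
  rw [io_S, Matrix.mulVec_sub, io_S, T_mul, Pi.sub_apply, Pi.sub_apply, S_empty, sub_zero]

theorem io3 (a b g : Fin k → ℂ) (D : Fin k → Fk k) :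
    (iotV g *ᵥ (iotV b *ᵥ (iotV a *ᵥ ∑ c, eps c *ᵥ D c))) ∅ =
      (iotV g *ᵥ (iotV b *ᵥ ∑ c, a c • D c)) ∅ + (iotV a *ᵥ (iotV g *ᵥ ∑ c, b c • D c)) ∅ +
        (iotV b *ᵥ (iotV a *ᵥ ∑ c, g c • D c)) ∅ := by
  rw [io_S a, Matrix.mulVec_sub, Matrix.mulVec_sub, Pi.sub_apply, io2, T_mul, T_mul,
    Matrix.mulVec_mulVec _ (iotV g) (iotV a), iotV_iotV g a, Matrix.neg_mulVec,
    ← Matrix.mulVec_mulVec, Pi.neg_apply]
  ring

theorem dg_two {y : Fk k} (h : ∀ l m, (iot l *ᵥ (iot m *ᵥ y)) ∅ = 0) : dg 2 *ᵥ y = 0 := by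
  funext I
  rw [dg_mulVec, Pi.zero_apply]
  split_ifs with hI
  · obtain ⟨m, l, hml, rfl⟩ := Finset.card_eq_two.1 hI
    have h1 := h l m
    rw [iot_mulVec, if_neg (Finset.notMem_empty l), iot_mulVec, if_neg (by simpa using hml)] at h1
    have hs : ∀ (a : Fin k) J, sg a J ≠ 0 := fun a J e => by
      have := sg_mul_self a J
      rw [e, zero_mul] at this
      exact zero_ne_one this
    exact (mul_eq_zero.1 ((mul_eq_zero.1 h1).resolve_left (hs _ _))).resolve_left (hs _ _)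
  · rfl

end alg

theorem bil_zero {y : Fo n} (h : ∀ v w, bil y v w = 0) : dg 2 *ᵥ y = 0 := dg_two fun l m => by
  obtain ⟨a, b, v, w, -, e⟩ := Po1.rep l
  obtain ⟨a', b', v', w', -, e'⟩ := Po1.rep m
  have h' : ∀ v w, (iotV (Hg.cx w) *ᵥ (iotV (Hg.cx v) *ᵥ y)) ∅ = 0 := h
  rw [← iotV_single, ← iotV_single, ← e, ← e']
  simp only [iotV_add, iotV_smul, Matrix.add_mulVec, Matrix.smul_mulVec, Matrix.mulVec_add,
    Matrix.mulVec_smul, Pi.add_apply, Pi.smul_apply, h', smul_zero, add_zero]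

theorem dot_ext {p q : Fin (n + n) → ℂ} (h : ∀ v : Cm n, Hg.cx v ⬝ᵥ p = Hg.cx v ⬝ᵥ q) : p = q := by
  funext l
  obtain ⟨a, b, v, w, -, e⟩ := Po1.rep l
  rw [← one_mul (p l), ← one_mul (q l), ← single_dotProduct, ← single_dotProduct, ← e,
    add_dotProduct, add_dotProduct, smul_dotProduct, smul_dotProduct, smul_dotProduct,
    smul_dotProduct, h, h]

theorem fdv {u : Cm n → Fo n} {z : Cm n} (hu : DifferentiableAt ℝ u z) (v : Cm n) :
    ∑ c, Hg.cx v c • Dv c u z = fderiv ℝ u z v := by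
  funext I
  rw [Finset.sum_apply, ← ContinuousLinearMap.proj_apply (R := ℝ) I (fderiv ℝ u z v),
    ← ContinuousLinearMap.comp_apply, ← fderiv_apply hu I, Ka.fd]
  rfl

theorem exA (n : ℕ) : ∃ A : (Cm n →L[ℝ] ℝ) →L[ℝ] (Fin (n + n) → ℂ),
    ∀ α v, Hg.cx v ⬝ᵥ A α = α v := by
  choose a b v w h _ using fun c : Fin (n + n) => Po1.rep c
  refine ⟨ContinuousLinearMap.pi fun c =>
    a c • Complex.ofRealCLM.comp (ContinuousLinearMap.apply ℝ ℝ (v c)) +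
      b c • Complex.ofRealCLM.comp (ContinuousLinearMap.apply ℝ ℝ (w c)), fun α y => ?_⟩
  have e := Ka.fd (g := Complex.ofRealCLM.comp α) (z := 0) y
  rw [ContinuousLinearMap.fderiv] at e
  refine Eq.symm (e.trans (Finset.sum_congr rfl fun c _ => ?_))
  rw [h, ContinuousLinearMap.fderiv]
  rfl

theorem exE (n : ℕ) : ∃ E : (Fin (n + n) → ℂ) →L[ℝ] Fo n, ∀ a, E a = epsV a *ᵥ ev ∅ :=
  ⟨LinearMap.toContinuousLinearMap
    { toFun := fun a => epsV a *ᵥ ev ∅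
      map_add' := fun a b => by rw [epsV_add, Matrix.add_mulVec]
      map_smul' := fun r a => by
        rw [← Complex.coe_smul, epsV_smul, Matrix.smul_mulVec, Complex.coe_smul]
        rfl }, fun _ => rfl⟩

theorem io_E {k : ℕ} (a b : Fin k → ℂ) : (iotV a *ᵥ (epsV b *ᵥ ev ∅)) ∅ = a ⬝ᵥ b := by
  rw [Matrix.mulVec_mulVec, eq_sub_of_add_eq (iotV_epsV a b), Matrix.sub_mulVec,
    ← Matrix.mulVec_mulVec, iotV_ev_empty, Matrix.mulVec_zero, sub_zero, Matrix.smul_mulVec,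
    Matrix.one_mulVec]
  simp [ev]

theorem fd_comp {E F G : Type} [NormedAddCommGroup E] [NormedSpace ℝ E] [NormedAddCommGroup F]
    [NormedSpace ℝ F] [NormedAddCommGroup G] [NormedSpace ℝ G] (L : F →L[ℝ] G) {u : E → F} {z : E}
    (h : DifferentiableAt ℝ u z) : fderiv ℝ (fun y => L (u y)) z = L.comp (fderiv ℝ u z) :=
  (L.hasFDerivAt.comp z h.hasFDerivAt).fderiv

variable {V : Mf n}

theorem jt_eq {e e' : Chart n V.X} {x : V.X} (h : At e x) (h' : At e' x) :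
    jt e e' x = blk (jacM e e' x)ᵀ ((jacM e e' x)ᵀ.map star) := G1H.jt_eq k1b' h h'

theorem cl2 {Φ : Fo n →L[ℝ] Cm n →L[ℝ] Cm n →L[ℝ] ℝ} (hΦ : ∀ x v w, Φ x v w = (bil x v w).re)
    {u : Co.Om V} (hu : Co.dO u = 0) : Cl2 n fun e z => Φ (Co.val u e z) where
  sm e x h := (ContinuousLinearMap.contDiff (𝕜 := ℝ) (E := Fo n)
    (F := Cm n →L[ℝ] Cm n →L[ℝ] ℝ) Φ).contDiffAt.comp (e x) ((vl_isF u).sm e x h)
  alt e x _ v := by rw [hΦ, bil_self, Complex.zero_re]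
  chg e e' x h h' v w := by
    rw [hΦ, hΦ, show Co.val u e (e x) = _ from (vl_isF u).ch e e' x h h', jt_eq h h', bil_lam]
    rfl
  cls e x h a b c := by
    have hd : DifferentiableAt ℝ (Co.val u e) (e x) := G2H.dif u h
    have h1 : fderiv ℝ (fun z => Φ (Co.val u e z)) (e x) = Φ.comp (fderiv ℝ (Co.val u e) (e x)) :=
      fd_comp (G := Cm n →L[ℝ] Cm n →L[ℝ] ℝ) Φ hd
    have h2 := io3 (Hg.cx a) (Hg.cx b) (Hg.cx c) fun l => Dv l (Co.val u e) (e x)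
    rw [fdv hd, fdv hd, fdv hd, show ∑ l, eps l *ᵥ Dv l (Co.val u e) (e x) = 0 from by
      have := Co.val_d u h
      rw [hu] at this
      exact this.symm, Matrix.mulVec_zero, Matrix.mulVec_zero, Matrix.mulVec_zero] at h2
    rw [h1, ContinuousLinearMap.comp_apply, ContinuousLinearMap.comp_apply,
      ContinuousLinearMap.comp_apply, hΦ, hΦ, hΦ, ← Complex.add_re, ← Complex.add_re]
    exact (congrArg Complex.re h2).symm

theorem ex2 {U : Chart n V.X → Cm n → Cm n →L[ℝ] Cm n →L[ℝ] ℝ} (h : Ex2 n U) :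
    ∃ β : Co.Om V, ∀ e x, At e x → ∀ v w, bil (Co.val (Co.dO β) e (e x)) v w = U e (e x) v w := by
  obtain ⟨α, h1, h2, h3⟩ := h
  obtain ⟨A, hA⟩ := exA n
  obtain ⟨E, hE⟩ := exE n
  obtain ⟨β, hβ⟩ := G1H.mkf (M := V.X) (fun e z => E (A (α e z)))
    (fun e x h => (E.comp A).contDiff.contDiffAt.comp (e x) (h1 e x h)) fun e e' x h h' => by
      rw [hE, hE, Matrix.mulVec_mulVec, lam_epsV, ← Matrix.mulVec_mulVec, lam_ev_empty]
      refine congrArg (fun a => epsV a *ᵥ ev ∅) (dot_ext fun v => ?_)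
      rw [Matrix.dotProduct_mulVec, jt_eq h h', cx_blk, hA, hA, h2 e e' x h h']
  refine ⟨β, fun e x h v w => ?_⟩
  have hd : DifferentiableAt ℝ (Co.val (V := V) β e) (e x) := G2H.dif β h
  have h4 : Co.val (V := V) β e =ᶠ[𝓝 (e x)] fun z => E (A (α e z)) :=
    (e.open_target.eventually_mem (e.map_source h.2)).mono fun z hz => hβ e h.1 z hz
  have h5 : fderiv ℝ (Co.val (V := V) β e) (e x) = (E.comp A).comp (fderiv ℝ (α e) (e x)) :=
    h4.fderiv_eq.trans ((E.comp A).hasFDerivAt.comp (e x)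
      ((h1 e x h).differentiableAt (by simp)).hasFDerivAt).fderiv
  rw [Co.val_d (V := V) (show Co.Om V from β) h, bil, dT, io2, fdv hd, fdv hd, h5, h3 e x h]
  simp only [ContinuousLinearMap.comp_apply, hE, io_E, hA, Complex.ofReal_sub]

end B2H

open B2H in
/-- row B2B -/
theorem b2b : B2B := by
  intro n V h a b ha hb
  obtain ⟨u, rfl⟩ := Co.mk_surj (V := V) a
  obtain ⟨v, rfl⟩ := Co.mk_surj (V := V) b
  obtain ⟨Φ, hΦ⟩ := exP n
  obtain ⟨c, c', hc, hex⟩ := h _ _ (cl2 hΦ (Co.d_fm u)) (cl2 hΦ (Co.d_fm v))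
  obtain ⟨β, hβ⟩ := ex2 hex
  refine ⟨c, c', hc, ?_⟩
  have h1 : Co.dgO 2 (Co.fm (c • u + c' • v) - Co.dO β) = 0 := Co.ext fun e x he => by
    rw [Co.val_dg _ _ he, Co.val_zero, Co.val_sub]
    refine bil_zero fun p q => ?_
    have h2 := bil_star (Co.val (Co.fm (c • u + c' • v)) e (e x)) p q
    rw [← Co.val_cj _ he, Co.cj_fm] at h2
    rw [bil_sub, hβ e x he, ← Complex.conj_eq_iff_re.1 h2, ← hΦ, sub_eq_zero, map_add, map_smul,
      map_smul]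
    show ((Φ (c • Co.val (Co.fm u) e (e x) + c' • Co.val (Co.fm v) e (e x)) p q : ℝ) : ℂ) = _
    rw [map_add, map_smul, map_smul]
    rfl
  have h3 : Co.prH V 1 (Co.mk (c • u + c' • v)) = 0 := by
    rw [Co.pr_mk 1 (v := (Co.good_dg (1 + 1)).res (c • u + c' • v)) rfl, Co.mk_eq_zero]
    rw [map_sub, sub_eq_zero, Co.dg_d 1] at h1
    exact ⟨_, h1.symm⟩
  rw [map_add, map_smul, map_smul, map_add, map_smul, map_smul,
    show Co.prH V 1 (Co.mk u) = Co.mk u from ha, show Co.prH V 1 (Co.mk v) = Co.mk v from hb] at h3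
  exact h3

end Vale.Agent.P280Z.Cv
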