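import Vale.Agent.P280Z.Cv.Sk
import Vale.Agent.P280Z.Mp.Bf0

/-!
# P280Z, block Cv: the dimension of the space of deformations (DIM)
-/

open scoped Matrix
open Vale.Agent.P272.K (Cm)
open Vale.Agent.P280Z.Mp

noncomputable section

namespace Vale.Agent.P280Z.Cv

namespace DimA

variable {n d N r : ℕ} {b : Fin (n + 1) → ℕ}

/-- the combination of the frame -/
def cb (d : ℕ) (v : ∀ i, BF (b i) N) (c : ∀ j, Fin (d - b j + 1) → ℂ) (z : Cm 2) : Cm N :=
  ∑ j, ev (c j) z • ev (v j) z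

theorem hm_cb (hb : ∀ j, b j ≤ d) (v : ∀ i, BF (b i) N) (c : ∀ j, Fin (d - b j + 1) → ℂ) :
    Hm d (cb d v c) :=
  Hm.sum _ fun j _ => ((hm_ev (c j)).mul (hm_ev (v j))).cast (Nat.sub_add_cancel (hb j))

theorem cb_mem {P : Eqs r N} {φ : BF d N} (hd : 0 < d) (hb : ∀ j, b j ≤ d) {v : ∀ i, BF (b i) N}
    (hv : ∀ i, ∀ z ≠ 0, Jm P (ev φ z) *ᵥ ev (v i) z = 0) (c : ∀ j, Fin (d - b j + 1) → ℂ) :
    co d (cb d v c) ∈ Tg P φ := fun z => by
  rw [(hm_cb hb v c).ev_co]
  by_cases hz : z = 0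
  · have := (hm_cb hb v c).arg 0 z
    rw [zero_smul, zero_pow hd.ne', zero_smul] at this
    rw [hz, this, Matrix.mulVec_zero]
  · simp only [cb, Matrix.mulVec_sum, Matrix.mulVec_smul, hv _ z hz, smul_zero,
      Finset.sum_const_zero]

/-- the combination as a linear map -/
def LL {P : Eqs r N} {φ : BF d N} (hd : 0 < d) (hb : ∀ j, b j ≤ d) {v : ∀ i, BF (b i) N}
    (hv : ∀ i, ∀ z ≠ 0, Jm P (ev φ z) *ᵥ ev (v i) z = 0) :
    (∀ j, Fin (d - b j + 1) → ℂ) →ₗ[ℂ] Tg P φ where
  toFun c := ⟨co d (cb d v c), cb_mem hd hb hv c⟩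
  map_add' c c' := Subtype.ext (ev_inj fun z => by
    change ev (co d (cb d v (c + c'))) z = ev (co d (cb d v c) + co d (cb d v c')) z
    rw [ev_add, (hm_cb hb v _).ev_co, (hm_cb hb v _).ev_co, (hm_cb hb v _).ev_co]
    simp only [cb, Pi.add_apply, ev_add, add_smul, Finset.sum_add_distrib])
  map_smul' a c := Subtype.ext (ev_inj fun z => by
    change ev (co d (cb d v (a • c))) z = ev (a • co d (cb d v c)) z
    rw [ev_smul, (hm_cb hb v _).ev_co, (hm_cb hb v _).ev_co]
    simp only [cb, Pi.smul_apply, ev_smul, Finset.smul_sum, smul_assoc])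

theorem eq_zero {m : ℕ} {a : Fin (m + 1) → ℂ} (h : ∀ z ≠ 0, ev a z = 0) : a = 0 := by
  rw [← co_ev a]
  funext i
  refine Finset.sum_eq_zero fun l _ => ?_
  rw [h _ fun k => one_ne_zero (congrFun k 0), smul_zero]

theorem exists_lin {z : Cm 2} (hz : z ≠ 0) : ∃ α β : ℂ, α * z 0 + β * z 1 = 1 := by
  by_cases h : z 0 = 0
  · have h1 : z 1 ≠ 0 := fun k => hz (funext fun i => by fin_cases i <;> assumption)
    exact ⟨0, (z 1)⁻¹, by rw [zero_mul, zero_add, inv_mul_cancel₀ h1]⟩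
  · exact ⟨(z 0)⁻¹, 0, by rw [zero_mul, add_zero, inv_mul_cancel₀ h]⟩

end DimA

open DimA

/-- **DIM** -/
theorem dim_of (h : COEF) : DIM := by
  intro n D d φ hφ hd b v hF hb
  constructor
  · have bij : Function.Bijective (LL hd hb hF.mem) := by
      refine ⟨(injective_iff_map_eq_zero _).2 fun c hc => funext fun j => eq_zero fun z hz => ?_,
        fun ψ => ?_⟩
      · have e : co d (cb d v c) = 0 := congrArg Subtype.val hc
        have e' := (hm_cb hb v c).ev_co z
        rw [e, ev_zero] at e'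
        exact Fintype.linearIndependent_iff.1 (hF.ind z hz) (fun j => ev (c j) z) e'.symm j
      · obtain ⟨c, -, hc⟩ := h n D d φ hφ b v hF d ψ.1 fun z _ => ψ.2 z
        exact ⟨c, Subtype.ext (ev_inj fun z => ((hm_cb hb v c).ev_co z).trans (hc z).symm)⟩
    rw [← (LinearEquiv.ofBijective _ bij).finrank_eq, Module.finrank_pi_fintype]
    simp only [Module.finrank_fin_fun, Finset.sum_add_distrib, Finset.sum_const, Finset.card_univ,
      Fintype.card_fin, smul_eq_mul, mul_one]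
    ring
  · intro z hz w hw
    have h1 := D.cone.rk _ (hφ z hz)
    have h2 := LinearMap.finrank_range_add_finrank_ker (Jm D.P (ev φ z)).mulVecLin
    rw [Module.finrank_fin_fun] at h2
    have h3 : Submodule.span ℂ (Set.range fun i => ev (v i) z) =
        LinearMap.ker (Jm D.P (ev φ z)).mulVecLin := by
      refine Submodule.eq_of_le_of_finrank_eq (Submodule.span_le.2 ?_) ?_
      · rintro _ ⟨i, rfl⟩
        exact hF.mem i z hz
      · rw [finrank_span_eq_card (hF.ind z hz), Fintype.card_fin]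
        exact Nat.add_left_cancel (h1.trans h2.symm)
    have h4 : w ∈ Submodule.span ℂ (Set.range fun i => ev (v i) z) := h3 ▸ hw
    obtain ⟨a, ha⟩ := (Submodule.mem_span_range_iff_exists_fun ℂ).1 h4
    obtain ⟨α, β, hl⟩ := exists_lin hz
    have hm : ∀ j, Hm (d - b j) fun y : Cm 2 => a j • (α * y 0 + β * y 1) ^ (d - b j) := fun j =>
      (((hm_lin α β).pow (d - b j)).cast (one_mul _)).smul (a j)
    refine ⟨_, cb_mem hd hb hF.mem fun j =>
      co (d - b j) fun y : Cm 2 => a j • (α * y 0 + β * y 1) ^ (d - b j), ?_⟩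
    rw [(hm_cb hb v _).ev_co, ← ha]
    refine Finset.sum_congr rfl fun j _ => ?_
    rw [(hm j).ev_co, hl, one_pow, smul_eq_mul, mul_one]

end Vale.Agent.P280Z.Cv
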