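import Vale.Agent.P280Z.Cv.Sk2
import Vale.Agent.P280Z.Cv.Pt
import Vale.Agent.P280Z.Cv.Frm
import Vale.Agent.P280Z.Cv.Dim
import Vale.Agent.P280Z.Cv.Rc
import Vale.Agent.P280Z.Cv.Nef
import Vale.Agent.P281Z.Sc.Bd
import Vale.Agent.P277Z.Slc.Adj

/-!
# P280Z, block Cv: the curves of minimal degree
-/

open scoped Manifold ContDiff Topology Matrix
open Set Filter
open Vale.Agent.P272.K Vale.Agent.P285.H281.FD Vale.Agent.P281Z Vale.Agent.P280Z.Mp
open Vale.Agent.P277 (Bd.inv)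

noncomputable section

namespace Vale.Agent.P280Z.Cv

theorem DegL.pow {X : Type} {L : Bd X} {F : Cm 2 → X} {a : ℤ} (h : DegL L F a) (m : ℕ) :
    DegL (L.pow m) F (m * a) := by
  obtain ⟨β, h1, h2⟩ := h
  refine ⟨fun i p => β i p ^ m, fun i p hp hi => ?_, fun i j p hp hi hj => ?_⟩
  · obtain ⟨k1, k2, k3⟩ := h1 i p hp hi
    refine ⟨k1.pow m, pow_ne_zero _ k2, fun c hc => ?_⟩
    show β i (c • p) ^ m = _
    rw [k3 c hc, mul_pow, ← zpow_natCast (c ^ (-a)), ← zpow_mul, neg_mul, mul_comm a]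
  · show β i p ^ m = L.g i j (F p) ^ m * β j p ^ m
    rw [h2 i j p hp hi hj, mul_pow]

theorem lb_acan (n : ℕ) (V : Mf n) : IsLB n (Bd.inv (Bd.can n V.X)) :=
  have h : IsLB n (Bd.can n V.X) := P277Z.Slc.isLB_can
  { isOpen := h.isOpen
    cover := h.cover
    holo := fun i j e x he hi hj => (h.holo i j e x he hi hj).inv (by
      rw [e.left_inv he.2]
      exact h.ne_zero i j x hi hj)
    ne_zero := fun i j x hi hj => inv_ne_zero (h.ne_zero i j x hi hj)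
    cocycle := fun i j k x hi hj hk =>
      (mul_inv _ _).symm.trans (congrArg _ (h.cocycle i j k x hi hj hk)) }

theorem brg_of (eqs : EQS) : BRG := by
  intro n V i hF hN hI
  have := hF.1
  obtain ⟨m, N, r, δ, P, pt, s, hm, hc, h1, h2, h3⟩ := eqs n V _ inferInstance (lb_acan n V) hF.2
  let D : Dat n := ⟨V, N, r, δ, P, pt, (Bd.inv (Bd.can n V.X)).pow m, s, hF.1, hc,
    P281Z.lb_pow (lb_acan n V) m, h1, h2, h3⟩
  have key : ∀ (d : ℕ) (φ : BF d N), Crv P φ → 0 < d → ∃ κ : ℕ, d = m * κ ∧ i ≤ κ ∧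
      Module.finrank ℂ (Tg P φ) = n + 1 + κ ∧ Gen P φ := by
    intro d φ hφ hd
    obtain ⟨b, v, hv⟩ := frm n D d φ hφ
    have hb := nef_of pt_all coef (rcp_of pt_all) n D d φ hN hφ hd b v hv
    obtain ⟨k1, k2⟩ := rcp_of pt_all n D d φ hφ hd
    have k3 := degk_of pt_all n D d φ hφ b v hv
    obtain ⟨k4, k5⟩ := dim_of coef n D d φ hφ hd b v hv hb
    have e : (∑ j, ((d : ℤ) - b j)) = ((∑ j, (d - b j) : ℕ) : ℤ) := by
      rw [Nat.cast_sum]
      exact Finset.sum_congr rfl fun j _ => (Nat.cast_sub (hb j)).symm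
    rw [e] at k3
    refine ⟨_, ?_, by exact_mod_cast hI.2 _ _ k1 k3, k4, k5⟩
    exact_mod_cast degu n V _ _ _ _ D.lb k1 k2 (DegL.pow k3 m)
  obtain ⟨F, f1, f2⟩ := hI.1
  obtain ⟨d, e, hd, φ, hφ, -⟩ := prc_of pt_all n D F _ f1 (DegL.pow f2 m)
  obtain rfl : m * i = d := by exact_mod_cast e
  refine ⟨m, N, r, δ, P, pt, hm, ⟨hc, hd, fun d' h0 h' a ha => ?_, fun a ha => ?_⟩,
    fun a ha => ?_, φ, hφ⟩
  · obtain ⟨κ, rfl, k, -⟩ := key d' a ha h0
    exact absurd (Nat.mul_le_mul_left m k) (not_le.2 h')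
  · obtain ⟨κ, -, -, -, k⟩ := key _ a ha hd
    exact k
  · obtain ⟨κ, k0, -, k, -⟩ := key _ a ha hd
    exact ⟨ha, by rw [k, Nat.eq_of_mul_eq_mul_left hm k0]⟩

end Vale.Agent.P280Z.Cv
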