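import Vale.Agent.P280Z.Stmt
import Vale.Agent.P280Z.Co.Defs
import Vale.Agent.P281Z.Mf.Api
import Vale.Agent.P280Z.Mp.Defs
import Vale.Agent.P280Z.Gp.Sk

/-!
# P280Z, block Cv: families of rational curves (definitions)
-/

open scoped Manifold ContDiff Topology Matrix Matrix.Norms.Elementwise
open Set Filter
open Vale.Agent.P272.K Vale.Agent.P285.H281.FD Vale.Agent.P281Z
open Vale.Agent.P277Z (Hol)
open Vale.Agent.P277Z.Slc (lin dd)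
open Vale.Agent.P277.HD (pull)
open Vale.Agent.P280Z.Mp (BF M2 ev act lf inf Eqs Jm In Crv Tg Gen Low Cone CD)

noncomputable section

namespace Vale.Agent.P280Z

/-! ### Projective manifolds and maps from the line -/

/-- a projective manifold with its embedding by the sections `s` of `H` and its equations -/
structure Dat (n : ℕ) : Type 1 where
  X : Mf n
  N : ℕ
  r : ℕ
  δ : ℕ
  P : Eqs r N
  pt : Cm N → X.X
  H : Bd X.X
  s : H.ι → X.X → Cm N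
  conn : ConnectedSpace X.X
  cone : Cone X P δ pt
  lb : IsLB n H
  sec : ∀ a, IsSec n H fun b x => s b x a
  lifts : Gp.Lifts n H.U s
  ins : ∀ b, ∀ x ∈ H.U b, In P (s b x) ∧ pt (s b x) = x

namespace Dat
variable {n : ℕ} (D : Dat n)

/-- a frame along `φ` of the tangent spaces of the cone -/
structure Frm {d : ℕ} (φ : BF d D.N) (b : Fin (n + 1) → ℕ) (v : ∀ i, BF (b i) D.N) : Prop where
  mem : ∀ i, ∀ z ≠ 0, Jm D.P (ev φ z) *ᵥ ev (v i) z = 0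
  ind : ∀ z ≠ 0, LinearIndependent ℂ fun i => ev (v i) z

/-- an unsplit family of free curves -/
structure Adm (d k : ℕ) (M : Set (BF d D.N)) : Prop where
  pos : 0 < d
  ne : M.Nonempty
  cd : ∀ φ ∈ M, CD D.P (k + 4) φ
  gen : ∀ φ ∈ M, Gen D.P φ
  inv : ∀ φ ∈ M, ∀ g : M2, g.det ≠ 0 → act φ g ∈ M
  opn : ∀ φ ∈ M, ∀ᶠ ψ in 𝓝 φ, Crv D.P ψ → ψ ∈ M
  cls : ∀ ψ ∈ closure M, Crv D.P ψ → ψ ∈ M
  free : ∀ φ ∈ M, ∀ g : M2, act φ g = φ → ∃ c : ℂ, c ^ d = 1 ∧ g = c • (1 : M2)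

end Dat

/-! ### Bundles of projective lines -/

/-- a cocycle up to scalars -/
structure Coc {k : ℕ} (K : Mf k) {ι : Type} (V : ι → Set K.X) (R : ι → ι → K.X → M2 → Prop) :
    Prop where
  isOpen : ∀ a, IsOpen (V a)
  cover : ∀ y, ∃ a, y ∈ V a
  ex : ∀ a b y, y ∈ V a → y ∈ V b → ∃ g : K.X → M2, (∀ i j, Hol k (fun y => g y i j) y) ∧
    ∀ᶠ y' in 𝓝 y, R a b y' (g y')
  det : ∀ a b y g, y ∈ V a → y ∈ V b → R a b y g → g.det ≠ 0
  uniq : ∀ a b y g g', y ∈ V a → y ∈ V b → R a b y g → R a b y g' → ∃ c : ℂ, g' = c • g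
  refl : ∀ a y, y ∈ V a → R a a y 1
  trans : ∀ a b c y g g', y ∈ V a → y ∈ V b → y ∈ V c → R a b y g → R b c y g' →
    R a c y (g * g')

/-- the data of a bundle of projective lines: `θ a y v` is the point with the homogeneous
coordinates `v` over `y`, in the trivialization over `V a` -/
structure P1 {k : ℕ} (K : Mf k) (U : Mf (k + 1)) : Type 1 where
  ι : Type
  V : ι → Set K.X
  R : ι → ι → K.X → M2 → Prop
  p : U.X → K.X
  θ : ι → K.X → Cm 2 → U.X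

namespace P1
variable {k : ℕ} {K : Mf k} {U : Mf (k + 1)} (P : P1 K U)

/-- the points whose coordinate `i` is not zero -/
def W (a : P.ι) (i : Fin 2) : Set U.X := {u | P.p u ∈ P.V a ∧ ∃ v, v i = 1 ∧ P.θ a (P.p u) v = u}

/-- the homogeneous coordinates, normalized by `q i = 1` -/
def q (a : P.ι) (i : Fin 2) (u : U.X) : Cm 2 :=
  Classical.epsilon fun v => v i = 1 ∧ P.θ a (P.p u) v = u

/-- a transition matrix -/
def gg (a b : P.ι) (y : K.X) : M2 := Classical.epsilon (P.R a b y)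

/-- the factor `τ` in `gg a b • q b j = τ q a i` -/
def ta (a : P.ι) (i : Fin 2) (b : P.ι) (j : Fin 2) (u : U.X) : ℂ :=
  (P.gg a b (P.p u) *ᵥ P.q b j u) i

/-- the relative tangent bundle -/
def T : Bd U.X where
  ι := P.ι × Fin 2
  U h := P.W h.1 h.2
  g h h' u := (P.gg h.1 h'.1 (P.p u)).det / P.ta h.1 h.2 h'.1 h'.2 u ^ 2

/-- the bundle of the diagonal on the fibre product -/
def Dg {Z : Type} (p1 p2 : Z → U.X) : Bd Z where
  ι := P.ι × Fin 2 × Fin 2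
  U h := {z | p1 z ∈ P.W h.1 h.2.1 ∧ p2 z ∈ P.W h.1 h.2.2}
  g h h' z := (P.gg h.1 h'.1 (P.p (p1 z))).det /
    (P.ta h.1 h.2.1 h'.1 h'.2.1 (p1 z) * P.ta h.1 h.2.2 h'.1 h'.2.2 (p2 z))

/-- the equation of the diagonal -/
def ds {Z : Type} (p1 p2 : Z → U.X) (h : (P.Dg p1 p2).ι) (z : Z) : ℂ :=
  lf (P.q h.1 h.2.1 (p1 z)) (P.q h.1 h.2.2 (p2 z))

/-- the properties -/
structure Ok : Prop where
  coc : Coc K P.V P.R
  hol : HolM (k + 1) k P.p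
  p_θ : ∀ a y v, y ∈ P.V a → v ≠ 0 → P.p (P.θ a y v) = y
  surj : ∀ a u, P.p u ∈ P.V a → ∃ v, v ≠ 0 ∧ P.θ a (P.p u) v = u
  eq : ∀ a y v v', y ∈ P.V a → v ≠ 0 → v' ≠ 0 → (P.θ a y v = P.θ a y v' ↔ lf v v' = 0)
  rel : ∀ a b y g v, y ∈ P.V a → y ∈ P.V b → P.R a b y g → v ≠ 0 → P.θ b y v = P.θ a y (g *ᵥ v)
  opn : ∀ a i, IsOpen (P.W a i)
  qhol : ∀ a i, ∀ u ∈ P.W a i, ∀ j, Hol (k + 1) (fun u => P.q a i u j) u
  θhol : ∀ a (l : ℕ) (Z : Type) [TopologicalSpace Z] [ChartedSpace (Cm l) Z]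
    [IsManifold 𝓘(ℂ, Cm l) ω Z] (y : Z → K.X) (v : Z → Cm 2) (z : Z), HolA l k y z →
    (∀ j, Hol l (fun z => v z j) z) → y z ∈ P.V a → v z ≠ 0 →
    HolA l (k + 1) (fun z => P.θ a (y z) (v z)) z

end P1

/-! ### The family -/

/-- the moduli space of the curves in `M`, with local sections -/
structure Mod {n : ℕ} (D : Dat n) (d k : ℕ) (M : Set (BF d D.N)) : Type 1 where
  K : Mf k
  cl : BF d D.N → K.X
  ι : Type
  V : ι → Set K.X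
  σ : ι → K.X → BF d D.N
  isOpen : ∀ a, IsOpen (V a)
  cover : ∀ y, ∃ a, y ∈ V a
  mem : ∀ a, ∀ y ∈ V a, σ a y ∈ M
  hol : ∀ a, ∀ y ∈ V a, ∀ i j, Hol k (fun y => σ a y i j) y
  cl_σ : ∀ a, ∀ y ∈ V a, cl (σ a y) = y
  cl_eq : ∀ φ ∈ M, ∀ ψ ∈ M, cl φ = cl ψ ↔ ∃ g : M2, g.det ≠ 0 ∧ ψ = act φ g
  loc : ∀ a, ∀ φ ∈ M, cl φ ∈ V a → ∃ (c : BF d D.N → K.X) (γ : BF d D.N → M2), ContinuousAt c φ ∧
    c φ = cl φ ∧ (∀ e : Chart k K.X, At e (cl φ) → AnalyticAt ℂ (fun ψ => e (c ψ)) φ) ∧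
    AnalyticAt ℂ γ φ ∧ (γ φ).det ≠ 0 ∧
    ∀ᶠ ψ in 𝓝 φ, ψ ∈ M → cl ψ = c ψ ∧ ψ = act (σ a (c ψ)) (γ ψ)
  tg : ∀ a, ∀ y ∈ V a, ∀ e : Chart k K.X, At e y → ∀ v,
    (fun i j => dd (fun y => σ a y i j) e y v) ∈ Tg D.P (σ a y)
  ind : ∀ a, ∀ y ∈ V a, ∀ e : Chart k K.X, At e y → ∀ v ξ,
    inf (σ a y) ξ + (fun i j => dd (fun y => σ a y i j) e y v) = 0 → ξ = 0 ∧ v = 0
  span : ∀ a, ∀ y ∈ V a, ∀ e : Chart k K.X, At e y → ∀ ψ ∈ Tg D.P (σ a y), ∃ ξ v,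
    ψ = inf (σ a y) ξ + fun i j => dd (fun y => σ a y i j) e y v

/-- the transition relation of the local sections -/
def Mod.R {n d k : ℕ} {D : Dat n} {M : Set (BF d D.N)} (A : Mod D d k M) (a b : A.ι) (y : A.K.X)
    (g : M2) : Prop := g.det ≠ 0 ∧ A.σ b y = act (A.σ a y) g

/-- the universal family -/
structure Fam {n : ℕ} (D : Dat n) (d k : ℕ) (M : Set (BF d D.N)) : Type 1
    extends Mod D d k M where
  U : Mf (k + 1)
  p : U.X → K.X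
  θ : ι → K.X → Cm 2 → U.X
  e : U.X → D.X.X
  ok : (P1.mk ι V toMod.R p θ : P1 K U).Ok
  se : Sub (k + 1) n e
  e_θ : ∀ a y v, y ∈ V a → v ≠ 0 → e (θ a y v) = D.pt (ev (σ a y) v)

/-- the bundle of projective lines -/
def Fam.P {n d k : ℕ} {D : Dat n} {M : Set (BF d D.N)} (F : Fam D d k M) : P1 F.K F.U :=
  ⟨F.ι, F.V, F.toMod.R, F.p, F.θ⟩

/-- a line bundle with a section without zeros -/
def Triv (n : ℕ) {X : Type} [TopologicalSpace X] [ChartedSpace (Cm n) X] (L : Bd X) : Prop :=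
  ∃ s, IsSec n L s ∧ ∀ x, NZ L s x

/-- **what the cohomological part uses**: `T` is the relative tangent bundle of `p`, `E` any model
of the relative tangent bundle of `e` -/
structure Geo {n k : ℕ} {X : Mf n} {K : Mf k} {U : Mf (k + 1)} (p : U.X → K.X) (e : U.X → X.X)
    (T : Bd U.X) (H : Bd X.X) : Prop where
  sp : Sub (k + 1) k p
  se : Sub (k + 1) n e
  lbT : IsLB (k + 1) T
  lbH : IsLB n H
  posH : Pos n H
  ses : ∃ φ, Ses (k + 1) (VB.ln T) (VB.tan (k + 1) U.X) ((VB.tan k K.X).pull p) φ (Df (k + 1) k p)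
  pos : ∃ a b : ℕ, 0 < b ∧ Pos (k + 1) (lin ![pull e H, T] ![a, -b])
  kah : U.Kah
  diag : ∀ (Z : Mf (k + 2)) (p1 p2 : Z.X → U.X), Cart p p p1 p2 →
    ∃ (L : Bd Z.X) (s : L.ι → Z.X → ℂ) (δ : U.X → Z.X), Cut L s δ ∧
      (∀ u, p1 (δ u) = u ∧ p2 (δ u) = u) ∧
      Triv (k + 2) (lin ![L, pull p1 T, pull p2 T] ![2, -1, -1]) ∧
      ∀ (E : VB U.X) φ, Ses (k + 1) E (VB.tan (k + 1) U.X) ((VB.tan n X.X).pull e) φ
        (Df (k + 1) n e) → ∃ Φ, IsHom (k + 2) ((E.pull p1).tw (lin ![pull p1 T, L] ![1, -1]))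
          (E.pull p2) Φ ∧ ∀ z, Function.Bijective (Φ z)

end Vale.Agent.P280Z
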