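import Vale.Agent.P280Z.Cv.Rc

/-!
# P280Z, block Cv: a line bundle with a section has a degree along a rational curve
-/

open scoped Manifold ContDiff Topology Matrix
open Set Filter
open Vale.Agent.P272.K Vale.Agent.P285.H281.FD Vale.Agent.P281Z

noncomputable section

namespace Vale.Agent.P280Z.Cv

namespace DgeH

open RcH

/-- one variable: the zeros of a section over the line are the zeros of a polynomial -/
theorem one {ι : Type} {W : ι → Set ℂ} {g : ι → ι → ℂ → ℂ} {u : ι → ℂ → ℂ}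
    (wo : ∀ i, ∀ t ∈ W i, ∀ᶠ s in 𝓝 t, s ∈ W i) (wc : ∀ t, ∃ i, t ∈ W i)
    (ga : ∀ i j t, t ∈ W i → t ∈ W j → AnalyticAt ℂ (g i j) t)
    (g0 : ∀ i j t, t ∈ W i → t ∈ W j → g i j t ≠ 0)
    (gc : ∀ i j k t, t ∈ W i → t ∈ W j → t ∈ W k → g i j t * g j k t = g i k t)
    (ua : ∀ i, ∀ t ∈ W i, AnalyticAt ℂ (u i) t)
    (uc : ∀ i j t, t ∈ W i → t ∈ W j → u i t = g i j t * u j t)
    (far : ∀ᶠ t in cocompact ℂ, ∃ i, t ∈ W i ∧ u i t ≠ 0) :
    ∃ (Z : Finset ℂ) (m : ℂ → ℕ) (b : ι → ℂ → ℂ),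
      (∀ i, ∀ t ∈ W i, AnalyticAt ℂ (b i) t ∧ b i t ≠ 0 ∧
        u i t = (∏ z ∈ Z, (t - z) ^ m z) * b i t) ∧
      ∀ i j t, t ∈ W i → t ∈ W j → b i t = g i j t * b j t := by
  classical
  choose j hj using wc
  have z0 : ∀ i t, t ∈ W i → (u i t = 0 ↔ u (j t) t = 0) := fun i t h => by
    rw [uc i (j t) t h (hj t), mul_eq_zero, or_iff_right (g0 _ _ t h (hj t))]
  have alt : ∀ t, (∀ᶠ s in 𝓝 t, u (j s) s = 0) ∨ ∀ᶠ s in 𝓝[≠] t, u (j s) s ≠ 0 := fun t =>
    (ua _ t (hj t)).eventually_eq_zero_or_eventually_ne_zero.imp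
      (fun h => by filter_upwards [h, wo _ t (hj t)] with s k1 k2 using (z0 _ s k2).1 k1)
      fun h => by
        filter_upwards [h, nhdsWithin_le_nhds (wo _ t (hj t))] with s k1 k2
          using mt (z0 _ s k2).2 k1
  obtain ⟨K, hK, hK'⟩ := mem_cocompact.1 far
  have far' : ∀ t ∉ K, u (j t) t ≠ 0 := fun t ht =>
    let ⟨i, k1, k2⟩ := hK' ht
    mt (z0 i t k1).2 k2
  have iso : ∀ t, ∀ᶠ s in 𝓝[≠] t, u (j s) s ≠ 0 := by
    have cl : IsClopen {t | ∀ᶠ s in 𝓝 t, u (j s) s = 0} := by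
      refine ⟨isOpen_compl_iff.1 (isOpen_iff_mem_nhds.2 fun t ht => ?_),
        isOpen_setOfPred_eventually_nhds⟩
      have k := eventually_nhdsWithin_iff.1 ((alt t).resolve_left ht)
      filter_upwards [k] with s hs c
      by_cases e : s = t
      · exact ht (e ▸ c)
      · exact hs e c.self_of_nhds
    intro t
    refine (alt t).resolve_left fun c => ?_
    obtain ⟨s, hs⟩ := (ne_univ_iff_exists_notMem K).1 hK.ne_univ
    exact far' s hs ((cl.eq_univ ⟨t, c⟩).ge (mem_univ s)).self_of_nhds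
  have fin : {t | u (j t) t = 0}.Finite := by
    by_contra c
    obtain ⟨x, -, hx⟩ := Set.Infinite.exists_accPt_of_subset_isCompact c hK fun t ht =>
      not_not.1 fun k => far' t k ht
    exact accPt_iff_frequently_nhdsNE.1 hx (iso x)
  have loc : ∀ t, ∃ (n : ℕ) (h : ℂ → ℂ), AnalyticAt ℂ h t ∧ h t ≠ 0 ∧
      ∀ᶠ s in 𝓝 t, u (j t) s = (s - t) ^ n • h s := fun t =>
    (ua _ t (hj t)).exists_eventuallyEq_pow_smul_nonzero_iff.2 fun c => by
      obtain ⟨s, k1, k2, k3⟩ := ((iso t).and (nhdsWithin_le_nhds (c.and (wo _ t (hj t))))).exists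
      exact k1 ((z0 _ s k3).1 k2)
  choose m h h1 h2 h3 using loc
  let Z := fin.toFinset
  have loc' : ∀ t, ∃ k : ℂ → ℂ, AnalyticAt ℂ k t ∧ k t ≠ 0 ∧
      ∀ᶠ s in 𝓝 t, u (j t) s = (∏ z ∈ Z, (s - z) ^ m z) * k s := fun t => by
    have a1 : AnalyticAt ℂ (fun s => ∏ z ∈ Z.erase t, (s - z) ^ m z) t :=
      Finset.analyticAt_fun_prod _ fun z _ => (analyticAt_id.sub analyticAt_const).pow _
    have a2 : ∏ z ∈ Z.erase t, (t - z) ^ m z ≠ 0 := Finset.prod_ne_zero_iff.2 fun z hz =>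
      pow_ne_zero _ (sub_ne_zero.2 (Finset.ne_of_mem_erase hz).symm)
    refine ⟨fun s => h t s / ∏ z ∈ Z.erase t, (s - z) ^ m z, (h1 t).fun_div a1 a2,
      div_ne_zero (h2 t) a2, ?_⟩
    filter_upwards [h3 t, a1.continuousAt.eventually_ne a2] with s k1 k2
    have e : ∏ z ∈ Z, (s - z) ^ m z = (s - t) ^ m t * ∏ z ∈ Z.erase t, (s - z) ^ m z := by
      by_cases ht : t ∈ Z
      · exact (Finset.mul_prod_erase Z (fun z => (s - z) ^ m z) ht).symm
      · have : m t = 0 := by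
          by_contra c
          refine ht (fin.mem_toFinset.2 ?_)
          simpa [c] using (h3 t).self_of_nhds
        rw [Finset.erase_eq_of_notMem ht, this, pow_zero, one_mul]
    rw [k1, e, smul_eq_mul, mul_assoc, mul_div_cancel₀ _ k2]
  choose k k1 k2 k3 using loc'
  have id1 : ∀ i, ∀ t ∈ W i, u i t = (∏ z ∈ Z, (t - z) ^ m z) * (g i (j t) t * k t t) :=
    fun i t ht => by rw [uc i (j t) t ht (hj t), (k3 t).self_of_nhds, mul_left_comm]
  refine ⟨Z, m, fun i t => g i (j t) t * k t t, fun i t ht => ⟨?_,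
    mul_ne_zero (g0 _ _ t ht (hj t)) (k2 t), id1 i t ht⟩, fun i i' t hi hi' => by
      rw [← mul_assoc, gc i i' _ t hi hi' (hj t)]⟩
  refine ((ga i _ t ht (hj t)).fun_mul (k1 t)).congr ?_
  have nz : ∀ᶠ s in 𝓝 t, s ≠ t → s ∉ Z := by
    filter_upwards [(Z.erase t).finite_toSet.isClosed.isOpen_compl.mem_nhds
      (Z.notMem_erase t)] with s hs e c using hs (Finset.mem_erase.2 ⟨e, c⟩)
  filter_upwards [nz, k3 t, wo _ t ht, wo _ t (hj t)] with s c1 c2 c3 c4
  by_cases e : s = t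
  · rw [e]
  · refine mul_left_cancel₀ (a := ∏ z ∈ Z, (s - z) ^ m z) (Finset.prod_ne_zero_iff.2 fun z hz =>
      pow_ne_zero (m z) (sub_ne_zero.2 fun c => c1 e (c ▸ hz))) ?_
    rw [← id1 i s c3, uc i _ s c3 c4, c2, mul_left_comm]

theorem an1 (t : ℂ) : AnalyticAt ℂ (fun s : ℂ => (![1, s] : Cm 2)) t :=
  analyticAt_pi_iff.2 fun i => by
    fin_cases i
    · exact analyticAt_const
    · exact analyticAt_id

theorem nrm {p : Cm 2} (h : p 0 ≠ 0) : p = p 0 • ![1, p 1 / p 0] := funext fun i => by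
  fin_cases i
  · simp
  · simp [mul_div_cancel₀ _ h]

end DgeH

open DgeH RcH

/-- the degree exists -/
theorem dge {n : ℕ} {X : Type} [TopologicalSpace X] [ChartedSpace (Cm n) X]
    [IsManifold 𝓘(ℂ, Cm n) ω X] {L : Bd X} {F : Cm 2 → X} (hL : IsLB n L) (hF : RC n F)
    {σ : L.ι → X → ℂ} (hs : IsSec n L σ) {i₀ : L.ι} (hi : F ![0, 1] ∈ L.U i₀)
    (h0 : σ i₀ (F ![0, 1]) ≠ 0) : ∃ a, DegL L F a := by
  have k0 : (![0, 1] : Cm 2) ≠ 0 := fun e => one_ne_zero (congrFun e 1)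
  have nr : ∀ i, ∀ p ≠ 0, F p ∈ L.U i → ∀ᶠ q in 𝓝 p, F q ∈ L.U i := fun i p hp h =>
    (hF.hol p hp).continuousAt.eventually ((hL.isOpen i).mem_nhds h)
  have sa : ∀ i, ∀ p ≠ 0, F p ∈ L.U i → AnalyticAt ℂ (fun q => σ i (F q)) p := fun i p hp h =>
    sec_an hs (hF.hol p hp) h
  have e1 : ∀ p : Cm 2, p 0 ≠ 0 → F ![1, p 1 / p 0] = F p := fun p h => by
    conv_rhs => rw [nrm h]
    exact (hF.hom _ _ h (ne1 _)).symm
  obtain ⟨Z, m, b, b1, b2⟩ := one (W := fun i => {t | F ![1, t] ∈ L.U i})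
    (g := fun i j t => L.g i j (F ![1, t])) (u := fun i t => σ i (F ![1, t]))
    (fun i t ht => (an1 t).continuousAt.eventually (nr i _ (ne1 t) ht)) (fun t => hL.cover _)
    (fun i j t hi hj => AnalyticAt.fun_comp (g := fun q => L.g i j (F q))
      (HolA.hol (hF.hol _ (ne1 t)) (fun e he => (hL.holo i j e _ he hi hj).analyticAt) _
        (P277Z.at_chart _)) (an1 t))
    (fun i j t => hL.ne_zero i j _) (fun i j k t => hL.cocycle i j k _)
    (fun i t ht => AnalyticAt.fun_comp (g := fun q => σ i (F q)) (f := fun s : ℂ => ![1, s])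
      (sa i _ (ne1 t) ht) (an1 t)) (fun i j t => hs.change i j _) (by
      have k1 : Tendsto (fun t : ℂ => (![t⁻¹, 1] : Cm 2)) (cocompact ℂ) (𝓝 ![0, 1]) :=
        tendsto_pi_nhds.2 fun i => by
          fin_cases i
          · exact inv_lim
          · exact tendsto_const_nhds
      filter_upwards [ne_ev, k1.eventually (nr _ _ k0 hi),
        k1.eventually ((sa _ _ k0 hi).continuousAt.eventually_ne h0)] with t c1 c2 c3
      have := e1 ![t⁻¹, 1] (inv_ne_zero c1)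
      simp only [Matrix.cons_val_zero, Matrix.cons_val_one, one_div, inv_inv] at this
      exact ⟨i₀, (this ▸ c2 :), this ▸ c3⟩)
  let d := ∑ z ∈ Z, m z
  let P : Cm 2 → ℂ := fun p => ∏ z ∈ Z, (p 1 - z * p 0) ^ m z
  have pr : ∀ i (p : Cm 2), AnalyticAt ℂ (fun q : Cm 2 => q i) p := fun i p =>
    analyticAt_pi_iff.1 analyticAt_id i
  have Pa : ∀ p, AnalyticAt ℂ P p := fun p => Finset.analyticAt_fun_prod _ fun z _ =>
    ((pr 1 p).sub (analyticAt_const.mul (pr 0 p))).pow _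
  have Ph : ∀ (c : ℂ) p, P (c • p) = c ^ d * P p := fun c p => by
    simp only [P, d, ← Finset.prod_pow_eq_pow_sum, ← Finset.prod_mul_distrib, ← mul_pow,
      Pi.smul_apply, smul_eq_mul]
    exact Finset.prod_congr rfl fun z _ => by ring
  have P0 : ∀ p ≠ 0, p 0 = 0 → P p ≠ 0 := fun p hp h => Finset.prod_ne_zero_iff.2 fun z _ =>
    pow_ne_zero _ (by
      rw [h, mul_zero, sub_zero]
      exact fun c => hp (funext fun i => by fin_cases i <;> assumption))
  have F0 : ∀ p ≠ 0, p 0 = 0 → F p = F ![0, 1] := fun p hp h => by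
    have c : p 1 ≠ 0 := fun c => hp (funext fun i => by fin_cases i <;> assumption)
    rw [← hF.hom _ _ c k0]
    exact congrArg F (funext fun i => by fin_cases i <;> simp [h])
  classical
  refine ⟨d, fun i p => if p 0 = 0 then σ i (F p) / P p else (p 0 ^ d)⁻¹ * b i (p 1 / p 0),
    fun i p hp hi' => ⟨?_, ?_, fun c hc => ?_⟩, fun i j p hp hi' hj => ?_⟩
  · by_cases h : p 0 = 0
    · refine ((sa i p hp hi').fun_div (Pa p) (P0 p hp h)).congr ?_
      filter_upwards [nr i p hp hi', (Pa p).continuousAt.eventually_ne (P0 p hp h)] with q c1 c2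
      split_ifs with c
      · rfl
      · have e2 := (b1 i (q 1 / q 0) (show F _ ∈ _ from (e1 q c).symm ▸ c1)).2.2
        have e3 := Ph (q 0) ![1, q 1 / q 0]
        rw [← nrm c] at e3
        simp only [P, Matrix.cons_val_zero, Matrix.cons_val_one, mul_one] at e3
        rw [e1 q c] at e2
        rw [div_eq_iff c2, e2]
        simp only [P, e3]
        field_simp
    · refine ((((pr 0 p).fun_pow d).fun_inv (pow_ne_zero d h)).fun_mul
        (AnalyticAt.fun_comp (g := b i) (b1 i _ (show F _ ∈ _ from (e1 p h).symm ▸ hi')).1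
          ((pr 1 p).fun_div (pr 0 p) h))).congr ?_
      filter_upwards [(pr 0 p).continuousAt.eventually_ne h] with q c
      rw [if_neg c]
  · beta_reduce
    split_ifs with h
    · refine div_ne_zero ?_ (P0 p hp h)
      rw [F0 p hp h] at hi' ⊢
      rw [hs.change i i₀ _ hi' hi]
      exact mul_ne_zero (hL.ne_zero _ _ _ hi' hi) h0
    · exact mul_ne_zero (inv_ne_zero (pow_ne_zero d h))
        (b1 i _ (show F _ ∈ _ from (e1 p h).symm ▸ hi')).2.1
  · simp only [Pi.smul_apply, smul_eq_mul, mul_eq_zero, hc, false_or, hF.hom c p hc hp, Ph,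
      mul_div_mul_left _ _ hc, zpow_neg, zpow_natCast, mul_pow, mul_inv]
    split_ifs
    · rw [div_mul_eq_div_div_swap, div_eq_inv_mul]
    · rw [mul_assoc]
  · beta_reduce
    split_ifs with h
    · rw [hs.change i j _ hi' hj, mul_div_assoc]
    · rw [b2 i j _ (show F _ ∈ _ from (e1 p h).symm ▸ hi') (show F _ ∈ _ from (e1 p h).symm ▸ hj),
        e1 p h, mul_left_comm]

end Vale.Agent.P280Z.Cv
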