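import Vale.Agent.P280Z.Cv.Sit
import Vale.Agent.P280Z.Gm.Defs
import Vale.Agent.P280Z.En.Defs

/-!
# P280Z, block Cv: the end of stage one
-/

open scoped Manifold ContDiff Topology Matrix
open Set Filter
open Vale.Agent.P272.K Vale.Agent.P285.H281.FD Vale.Agent.P281Z Vale.Agent.P280Z.Mp

noncomputable section

namespace Vale.Agent.P280Z.Cv

/-- the output of the elimination -/
def ALN : Prop := ∀ (T : CT) {N r d δ : ℕ} {V : Mf 6} {P : Eqs r N} {pt : Cm N → V.X}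
  (F : Mp.Fam V P pt d 12 8) (E : VB F.U.X), Sit T δ F 3 E → Gm.HRR T →
  Gm.Num T F.p F.e ((d : ℝ)⁻¹ • T.c1 V (O1 P pt))

theorem end_of (hrr : Hr.HRR) (al : ALN) (fn : Gm.FUN) (dp : En.DP5) : END := by
  intro T N r d δ V P pt F E h
  have H : Gm.HRR T := hrr T h.ok
  have k := al T F E h H
  obtain ⟨L, h1, h2, h3⟩ := fn T h.ok H _ _ _ k
  have := k.cX
  refine dp T h.ok V L ⟨inferInstance, h1, h2, h3 ▸ k.kc, ?_, h3 ▸ k.vol⟩
  rw [h3, k.can]
  norm_num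

theorem gen_of (brg : BRG) (maps : MAPS) (nsx : NSX) (rel : REL) (ok : Co.ct.OK) (b2b : B2B)
    (en : END) (V : Mf 6) (hF : Fano 6 V.X) (hN : NefRC 6 V.X) (h2 : B2 6 V.X)
    (hI : Iota 6 V.X 5) : Gp.Gen 6 V.X := by
  obtain ⟨N, r, d, δ, P, pt, F, E, h⟩ := sit_of brg maps nsx rel Co.ct ok (i := 5) (m := 3)
    (D := 12) (k := 8) V (by norm_num) rfl rfl rfl hF hN hI (b2b 6 V h2)
  exact en _ F E h

end Vale.Agent.P280Z.Cv
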