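import Vale.Agent.P280Z.Cv.Sk
import Vale.Agent.P280Z.Mp.Bf
import Vale.Agent.P281Z.Pb.Kode
import Vale.Agent.P281Z.Pb.Ps
import Vale.Agent.P301Z.Al.Homp
import Vale.Agent.P301Z.Al.Cone
import Vale.Agent.P301Z.Al.Chow
import Vale.Agent.P301Z.Al.Eqm

/-!
# P280Z, block Cv: embedding and equations
-/

open scoped Manifold ContDiff Topology Matrix
open Set Filter
open Vale.Agent.P272.K Vale.Agent.P285.H281.FD Vale.Agent.P281Z
open Vale.Agent.P277Z (Hol)
open Vale.Agent.P277Z.Slc (dd)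
open Vale.Agent.P280Z.Mp (Eqs Jm In Cone Pv)
open Vale.Agent.P301Z.Al (Pl Hmg ev_an)

noncomputable section

namespace Vale.Agent.P280Z.Cv

namespace EqsAux

/-- equations of one degree -/
theorem same {N s : ℕ} (F : Fin s → Pl N) (hF : ∀ j, Hmg (F j)) :
    ∃ (r δ : ℕ) (P : Eqs r N), Mp.Hom P δ ∧ ∀ v : Cm N, v ≠ 0 →
      (Pv P v = 0 ↔ ∀ j, P301Z.Al.ev (F j) v = 0) ∧ ((∀ j, P301Z.Al.ev (F j) v = 0) →
        ∀ ξ, Jm P v *ᵥ ξ = 0 ↔ ∀ j, fderiv ℂ (P301Z.Al.ev (F j)) v ξ = 0) := by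
  choose d hd using hF
  have key : ∀ {v : Cm N}, v ≠ 0 → ∀ t : Fin s → ℂ, (∀ i : Fin (N * s),
      v (finProdFinEquiv.symm i).1 ^ (∑ j, d j - d (finProdFinEquiv.symm i).2) *
        t (finProdFinEquiv.symm i).2 = 0) ↔ ∀ j, t j = 0 := fun {v} hv t => by
    refine ⟨fun h j => ?_, fun h i => by rw [h, mul_zero]⟩
    obtain ⟨l, hl⟩ := Function.ne_iff.1 hv
    have h1 := h (finProdFinEquiv (l, j))
    rw [Equiv.symm_apply_apply] at h1
    exact (mul_eq_zero.1 h1).resolve_left (pow_ne_zero _ hl)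
  refine ⟨N * s, ∑ j, d j, fun i => MvPolynomial.X (finProdFinEquiv.symm i).1 ^
    (∑ j, d j - d (finProdFinEquiv.symm i).2) * F (finProdFinEquiv.symm i).2, fun i => ?_,
    fun v hv => ⟨?_, fun h0 ξ => ?_⟩⟩
  · have h1 := (MvPolynomial.isHomogeneous_X_pow (R := ℂ) (finProdFinEquiv.symm i).1
      (∑ j, d j - d (finProdFinEquiv.symm i).2)).mul (hd (finProdFinEquiv.symm i).2)
    rwa [Nat.sub_add_cancel
      (Finset.single_le_sum (f := d) (fun _ _ => Nat.zero_le _) (Finset.mem_univ _))] at h1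
  · rw [← key hv, funext_iff]
    refine forall_congr' fun i => ?_
    simp only [Pv, map_mul, map_pow, MvPolynomial.eval_X, P301Z.Al.ev, Pi.zero_apply]
  · rw [← key hv, funext_iff]
    refine forall_congr' fun i => ?_
    have h1 : ∀ Q : Pl N, ∀ k : Fin s, fderiv ℂ (fun y => MvPolynomial.eval y (Q * F k)) v ξ =
        MvPolynomial.eval v Q * fderiv ℂ (P301Z.Al.ev (F k)) v ξ := fun Q k => by
      rw [show (fun y => MvPolynomial.eval y (Q * F k)) =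
        fun w => P301Z.Al.ev Q w * P301Z.Al.ev (F k) w from funext fun w => map_mul _ _ _,
        fderiv_fun_mul (ev_an Q v).differentiableAt (ev_an _ v).differentiableAt]
      rw [h0 k]
      simp [P301Z.Al.ev]
    have h2 := h1 (MvPolynomial.X (finProdFinEquiv.symm i).1 ^
      (∑ j, d j - d (finProdFinEquiv.symm i).2)) (finProdFinEquiv.symm i).2
    rw [Mp.fd_eval, map_pow, MvPolynomial.eval_X] at h2
    rw [← h2]
    rfl

/-- the tangent space of a set with a local parametrisation -/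
theorem tan {E κ : Type} [NormedAddCommGroup E] [NormedSpace ℂ E] {N : ℕ} {C : Set (Cm N)}
    {G : E → Cm N} {R : Cm N → E} {x : Cm N} (hG : AnalyticAt ℂ G (R x)) (hR : AnalyticAt ℂ R x)
    (h0 : G (R x) = x) (h1 : ∀ᶠ e in 𝓝 (R x), G e ∈ C) (h2 : ∀ᶠ w in 𝓝 x, w ∈ C → G (R w) = w)
    {f : κ → Cm N → ℂ} (hf : ∀ j, AnalyticAt ℂ (f j) x) (hf0 : ∀ j, ∀ w ∈ C, f j w = 0)
    (hc : ∀ h : Cm N → ℂ, AnalyticAt ℂ h x → (∀ᶠ w in 𝓝 x, w ∈ C → h w = 0) →
      ∀ ξ, (∀ j, fderiv ℂ (f j) x ξ = 0) → fderiv ℂ h x ξ = 0) (ξ : Cm N) :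
    (∀ j, fderiv ℂ (f j) x ξ = 0) ↔ ∃ η, fderiv ℂ G (R x) η = ξ := by
  constructor
  · intro h
    refine ⟨fderiv ℂ R x ξ, funext fun a => ?_⟩
    have k1 := hG.differentiableAt.hasFDerivAt.comp x hR.differentiableAt.hasFDerivAt
    have k2 := (hasFDerivAt_pi'.1 (k1.sub (hasFDerivAt_id x)) a).fderiv
    have k3 := hc (fun w => (G ∘ R - id : Cm N → Cm N) w a)
      (analyticAt_pi_iff.1 ((hG.comp hR).sub analyticAt_id) a)
      (h2.mono fun w hw k => by simp [hw k]) ξ h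
    rw [k2] at k3
    simpa [sub_eq_zero] using k3
  · rintro ⟨η, rfl⟩ j
    have k1 := (h0.symm ▸ (hf j).differentiableAt.hasFDerivAt).comp (R x)
      hG.differentiableAt.hasFDerivAt
    have k2 : (f j ∘ G) =ᶠ[𝓝 (R x)] fun _ => 0 := h1.mono fun e he => hf0 j _ he
    have k3 := k1.fderiv.symm.trans k2.fderiv_eq
    rw [h0, fderiv_fun_const] at k3
    exact congrArg (· η) k3

/-- the rank of a matrix with a given kernel -/
theorem rank {E : Type} [NormedAddCommGroup E] [NormedSpace ℂ E] {r N : ℕ}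
    {J : Matrix (Fin r) (Fin N) ℂ} {Λ : E →L[ℂ] Cm N} (hi : ∀ η, Λ η = 0 → η = 0)
    (h : ∀ ξ, J *ᵥ ξ = 0 ↔ ∃ η, Λ η = ξ) : J.rank + Module.finrank ℂ E = N := by
  have h1 := J.mulVecLin.finrank_range_add_finrank_ker
  have h2 : LinearMap.ker J.mulVecLin = LinearMap.range (Λ : E →ₗ[ℂ] Cm N) :=
    Submodule.ext fun ξ => h ξ
  rwa [h2, LinearMap.finrank_range_of_inj ((injective_iff_map_eq_zero _).2 hi),
    Module.finrank_fin_fun] at h1

theorem rank_cone {n N r : ℕ} {κ : Type} {C : Set (Cm N)} {x : Cm N} {ρ : Cm N → Cm n}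
    {lam : Cm n → Cm N} {J : Matrix (Fin r) (Fin N) ℂ} (hx : x ≠ 0) (hρ : AnalyticAt ℂ ρ x)
    (hl : AnalyticAt ℂ lam (ρ x)) (h0 : lam (ρ x) = x)
    (h1 : ∀ᶠ z in 𝓝 (ρ x), ∀ c : ℂ, c ≠ 0 → c • lam z ∈ C)
    (h2 : ∀ᶠ w in 𝓝 x, w ∈ C → ∃ c : ℂ, w = c • lam (ρ w))
    (hi : ∀ ξ (c : ℂ), fderiv ℂ lam (ρ x) ξ = c • x → ξ = 0)
    {f : κ → Cm N → ℂ} (hf : ∀ j, AnalyticAt ℂ (f j) x) (hf0 : ∀ j, ∀ w ∈ C, f j w = 0)
    (hc : ∀ h : Cm N → ℂ, AnalyticAt ℂ h x → (∀ᶠ w in 𝓝 x, w ∈ C → h w = 0) →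
      ∀ ξ, (∀ j, fderiv ℂ (f j) x ξ = 0) → fderiv ℂ h x ξ = 0)
    (hJ : ∀ ξ, J *ᵥ ξ = 0 ↔ ∀ j, fderiv ℂ (f j) x ξ = 0) : J.rank + (n + 1) = N := by
  obtain ⟨l, hl0⟩ := Function.ne_iff.1 hx
  replace hl0 : x l ≠ 0 := hl0
  have a1 : AnalyticAt ℂ (fun w => lam (ρ w) l) x := analyticAt_pi_iff.1 (hl.comp hρ) l
  have a2 : lam (ρ x) l ≠ 0 := by rwa [h0]
  have a3 : x l / lam (ρ x) l = 1 := by rw [h0, div_self hl0]
  have a4 : AnalyticAt ℂ (fun w : Cm N => (ρ w, w l / lam (ρ w) l)) x :=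
    hρ.prod ((analyticAt_pi_iff.1 analyticAt_id l).div a1 a2)
  have a5 : AnalyticAt ℂ (fun e : Cm n × ℂ => e.2 • lam e.1) (ρ x, x l / lam (ρ x) l) :=
    analyticAt_snd.smul (hl.comp_of_eq analyticAt_fst rfl)
  have a6 : ∀ᶠ e : Cm n × ℂ in 𝓝 (ρ x, x l / lam (ρ x) l), e.2 • lam e.1 ∈ C := by
    filter_upwards [continuousAt_fst.eventually h1,
      continuousAt_snd.eventually_ne (a3.symm ▸ one_ne_zero : (ρ x, x l / lam (ρ x) l).2 ≠ 0)]
      with e k1 k2 using k1 _ k2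
  have a7 := tan (G := fun e : Cm n × ℂ => e.2 • lam e.1)
    (R := fun w => (ρ w, w l / lam (ρ w) l)) a5 a4 (by rw [a3, one_smul, h0]) a6 (by
      filter_upwards [h2, a1.continuousAt.eventually_ne a2] with w k1 k2 k3
      obtain ⟨c, k4⟩ := k1 k3
      have k5 : w l / lam (ρ w) l = c := by
        rw [div_eq_iff k2]; exact congrFun k4 l
      rw [k5, ← k4]) hf hf0 hc
  have a8 := ((hasFDerivAt_snd (𝕜 := ℂ) (p := (ρ x, x l / lam (ρ x) l))).smul
    (hl.differentiableAt.hasFDerivAt.comp (f := Prod.fst) (ρ x, x l / lam (ρ x) l)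
      hasFDerivAt_fst)).fderiv
  have a9 := rank (J := J) (Λ := fderiv ℂ (fun e : Cm n × ℂ => e.2 • lam e.1)
    (ρ x, x l / lam (ρ x) l)) (fun η hη => ?_) fun ξ => (hJ ξ).trans (a7 ξ)
  · rwa [Module.finrank_prod, Module.finrank_fin_fun, Module.finrank_self] at a9
  · have b1 : fderiv ℂ lam (ρ x) η.1 + η.2 • x = 0 := by
      have b2 := (congrArg (· η) a8).symm.trans hη
      simpa [h0, div_self hl0] using b2
    have b2 := hi η.1 (-η.2) (by rw [neg_smul]; exact eq_neg_of_add_eq_zero_left b1)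
    rw [b2, map_zero, zero_add] at b1
    exact Prod.ext b2 ((smul_eq_zero.1 b1).resolve_right hx)

variable {n r : ℕ} {V : Mf n} {L : Bd V.X} {s : L.ι → V.X → Cm (r + 1)} {S : PS r}
  {φ : V.X → S.P.X}

theorem lifts {k : ℕ} (hL : IsLB n L) (h1 : ∀ a, IsSec n (L.pow k) fun b y => s b y a)
    (h2 : ∀ b, ∀ y ∈ L.U b, s b y ≠ 0) (hφ : Emb n r φ (range φ))
    (h3 : ∀ b, ∀ y ∈ L.U b, φ y = S.pt (s b y)) : Gp.Lifts n L.U s := by
  have hol : ∀ b, ∀ x ∈ L.U b, ∀ a, Hol n (fun y => s b y a) x := fun b x hx a e he =>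
    ((h1 a).holo b e x he hx).analyticAt
  refine ⟨hL.isOpen, hL.cover, fun b x hx => AnV.pi (hol b x hx), h2,
    fun b b' x k k' => ⟨_, funext fun a => (h1 a).change b b' x k k'⟩, fun b b' x x' k k' h => ?_,
    fun b x hx e he ξ c h => ?_⟩
  · refine hφ.inj ?_
    rw [h3 b x k, h3 b' x' k']
    exact (S.pt_eq_iff (h2 b x k) (h2 b' x' k')).2 h
  · obtain ⟨l, hl⟩ := Function.ne_iff.1 (h2 b x hx)
    replace hl : s b x l ≠ 0 := hl
    by_contra hξ
    obtain ⟨j, hj⟩ := (S.imm_iff (hol b x hx) hl he).1 ((hφ.imm x).cng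
      (Eventually.mono ((hL.isOpen b).mem_nhds hx) (h3 b))) ξ hξ
    have k1 : ∀ a, dd (fun y => s b y a) e x ξ = c * s b x a := fun a => by
      have k2 := fderiv_pi (𝕜 := ℂ) (φ := fun a z => s b (e.symm z) a) (x := e x) fun a =>
        (hol b x hx a e he).differentiableAt
      exact (congrFun (congrArg (· ξ) k2) a).symm.trans (congrFun h a)
    have k2 : dd (fun y => s b y j / s b y l * s b y l) e x = dd (fun y => s b y j) e x :=
      P277Z.Slc.dd_congr (((hol b x hx l).ne_near hl).mono fun y hy => div_mul_cancel₀ _ hy) he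
    have k3 := fderiv_fun_mul ((hol b x hx j).div (hol b x hx l) hl e he).differentiableAt
      (hol b x hx l e he).differentiableAt
    have k4 : s b x j / s b x l * dd (fun y => s b y l) e x ξ +
        s b x l * dd (fun y => s b y j / s b y l) e x ξ = dd (fun y => s b y j) e x ξ := by
      rw [← k2]
      have k5 := congrArg (· ξ) k3
      simp only [he.left_inv] at k5
      exact k5.symm
    rw [k1, k1] at k4
    refine hj (mul_left_cancel₀ hl ?_)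
    field_simp at k4
    linear_combination k4

end EqsAux

open EqsAux in
/-- **EQS** -/
theorem eqs : EQS := by
  intro n V L hV hL hP
  obtain ⟨k, r, s, hk, h1, h2, H⟩ := Pb.kode n V L hL hP
  obtain ⟨S⟩ := Pb.psex r
  obtain ⟨φ, hφ, h3⟩ := H S
  have hl := lifts hL h1 h2 hφ h3
  have hC := P301Z.Al.chow_of P301Z.Al.cone_an P301Z.Al.homp r S _ hφ.an
  obtain ⟨t, F, hF, hgen⟩ := P301Z.Al.finj _ (P301Z.Al.cone S (range φ))
  obtain ⟨q, δ, P, p1, p2⟩ := same F fun j => (hF j).1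
  have hIn : ∀ v, In P v ↔ v ≠ 0 ∧ S.pt v ∈ range φ := fun v => and_congr_right fun hv =>
    (p2 v hv).1.trans ⟨fun h => ((hC v).1 fun Q hQ =>
      P301Z.Al.Eqm.span_zero h (hgen Q hQ)).resolve_left hv, fun h j => (hF j).2 v (Or.inr h)⟩
  have hpt : ∀ v, In P v → φ (Function.invFun φ (S.pt v)) = S.pt v := fun v hv =>
    Function.invFun_eq ((hIn v).1 hv).2
  have hs : ∀ b, ∀ x ∈ L.U b, ∀ c : ℂ, c ≠ 0 →
      In P (c • s b x) ∧ Function.invFun φ (S.pt (c • s b x)) = x := fun b x hx c hc => by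
    rw [hIn, S.pt_smul hc (h2 b x hx), ← h3 b x hx]
    exact ⟨⟨smul_ne_zero hc (h2 b x hx), x, rfl⟩, Function.leftInverse_invFun hφ.inj x⟩
  have hs1 : ∀ b, ∀ x ∈ L.U b, In P (s b x) ∧ Function.invFun φ (S.pt (s b x)) = x :=
    fun b x hx => by simpa only [one_smul] using hs b x hx 1 one_ne_zero
  have inj : ∀ x y, In P x → In P y → Function.invFun φ (S.pt x) = Function.invFun φ (S.pt y) →
      ∃ c : ℂ, y = c • x := fun x y hx hy h =>
    (S.pt_eq_iff hy.1 hx.1).1 (by rw [← hpt x hx, ← hpt y hy, h])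
  have loc : ∀ x, In P x → ∀ χ : Chart n V.X, At χ (Function.invFun φ (S.pt x)) →
      ∃ (ρ : Cm (r + 1) → Cm n) (b : L.ι) (c : ℂ), c ≠ 0 ∧ Function.invFun φ (S.pt x) ∈ L.U b ∧
        x = c • s b (Function.invFun φ (S.pt x)) ∧ AnalyticAt ℂ ρ x ∧
        ∀ᶠ y in 𝓝 x, In P y → Function.invFun φ (S.pt y) ∈ χ.source ∧
          χ (Function.invFun φ (S.pt y)) = ρ y := fun x hx χ hχ => by
    obtain ⟨b, hb⟩ := hL.cover (Function.invFun φ (S.pt x))
    obtain ⟨c, hc⟩ := inj _ x (hs1 b _ hb).1 hx (hs1 b _ hb).2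
    obtain ⟨g, g1, g2, g3⟩ := (hφ.imm (Function.invFun φ (S.pt x))).ret (hφ.hol.at _)
    refine ⟨fun w => χ (g (S.pt w)), b, c, fun k => hx.1 (by rw [hc, k, zero_smul]), hb, hc,
      AnalyticAt.pi fun a => P301Z.Al.Eqm.an_pt S hx.1 (A := fun p => χ (g p) a) ?_, ?_⟩
    · rw [← hpt x hx]
      exact g2.hol (hol_chart (g1.symm ▸ hχ) a)
    · have k1 := hφ.ev.1 (g3.and (at_near hχ))
      rw [hpt x hx] at k1
      filter_upwards [(S.cont x hx.1).eventually k1] with y k2 k3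
      obtain ⟨k4, k5⟩ := k2 _ (hpt y k3)
      exact ⟨k5.2, by rw [← hpt y k3, Function.leftInverse_invFun hφ.inj, k4]⟩
  refine ⟨k, r + 1, q, δ, P, fun v => Function.invFun φ (S.pt v), s, hk, ⟨p1,
    fun x c hx hc => by rw [S.pt_smul hc hx.1], inj, fun v => ?_, fun x hx => ?_,
    fun x hx χ hχ => ?_⟩, h1, hl, hs1⟩
  · obtain ⟨b, hb⟩ := hL.cover v
    exact ⟨_, hs1 b v hb⟩
  · have hχ := AMP.at_chartAt (n := n) (Function.invFun φ (S.pt x))
    generalize chartAt (Cm n) (Function.invFun φ (S.pt x)) = χ at hχ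
    obtain ⟨ρ, b, c, k1, k2, k3, k4, k5⟩ := loc x hx χ hχ
    have k6 := (k5.self_of_nhds hx).2
    have k7 := hl.hol b _ k2 χ hχ
    have k8 := hl.imm b _ k2 χ hχ
    have k9 := at_ev hχ ((hL.isOpen b).mem_nhds k2)
    have hx' : ∀ j, P301Z.Al.ev (F j) x = 0 := (p2 x hx.1).1.1 hx.2
    rw [k6] at k7 k8 k9
    refine rank_cone (C := P301Z.Al.cone S (range φ)) (lam := fun z => c • s b (χ.symm z)) hx.1 k4
      (k7.const_smul (c := c)) (by rw [← k6, hχ.left_inv, ← k3]) ?_ ?_ (fun ξ c' h => ?_)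
      (fun j => ev_an (F j) x) (fun j => (hF j).2) (fun h a1 a2 ξ a3 =>
        (hC x).2 (Or.inr ((hIn x).1 hx).2) h a1 a2 ξ fun Q hQ =>
          P301Z.Al.Eqm.span_der hx' a3 (hgen Q hQ)) ((p2 x hx.1).2 hx')
    · filter_upwards [k9] with z hz c' hc'
      rw [smul_smul]
      exact Or.inr ((hIn _).1 (hs b _ hz _ (mul_ne_zero hc' k1)).1).2
    · filter_upwards [k5, k4.continuousAt.eventually k9, eventually_ne_nhds hx.1] with w a1 a2 a3 a4
      have a5 := (hIn w).2 ⟨a3, a4.resolve_left a3⟩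
      obtain ⟨a6, a7⟩ := a1 a5
      refine inj _ w (hs b _ a2 c k1).1 a5 ?_
      rw [(hs b _ a2 c k1).2, ← a7, χ.left_inv a6]
    · rw [fderiv_fun_const_smul k7.differentiableAt, smul_apply] at h
      refine k8 ξ c' (smul_right_injective _ k1 ?_)
      show c • _ = c • _
      rw [h, smul_comm, ← k3]
  · obtain ⟨ρ, b, c, k1, k2, k3, k4, k5⟩ := loc x hx χ hχ
    refine ⟨ρ, fun z => c • s b (χ.symm z), k4, (hl.hol b _ k2 χ hχ).const_smul (c := c),
      by simp only [hχ.left_inv]; exact k3.symm, k5, ?_⟩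
    filter_upwards [at_ev hχ ((hL.isOpen b).mem_nhds k2)] with z hz using hs b _ hz c k1

end Vale.Agent.P280Z.Cv
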