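import Vale.Agent.P280Z.Cv.Cs
import Vale.Agent.P280Z.Ma.Nx
import Vale.Agent.P281Z.Sc.Bd
import Vale.Agent.P277Z.Slc.Adj

/-!
# P280Z, block Cv: the anticanonical class; the case of pseudoindex two
-/

open scoped Manifold ContDiff Topology Matrix
open Set Filter
open Vale.Agent.P272.K Vale.Agent.P285.H281.FD Vale.Agent.P281Z Vale.Agent.P280Z.Mp
open Vale.Agent.P277 (Bd.inv)

noncomputable section

namespace Vale.Agent.P280Z.Cv

variable {T : CT} {n : ℕ} {V : Mf n}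

theorem lb_inv {L : Bd V.X} (h : IsLB n L) : IsLB n (Bd.inv L) where
  isOpen := h.isOpen
  cover := h.cover
  holo i j e x he hi hj := (h.holo i j e x he hi hj).inv (by
    rw [e.left_inv he.2]
    exact h.ne_zero i j x hi hj)
  ne_zero i j x hi hj := inv_ne_zero (h.ne_zero i j x hi hj)
  cocycle i j k x hi hj hk := (mul_inv _ _).symm.trans (congrArg _ (h.cocycle i j k x hi hj hk))

theorem c1_inv (hT : T.C1) {L : Bd V.X} (h : IsLB n L) : T.c1 V (Bd.inv L) = -T.c1 V L := by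
  rw [eq_neg_iff_add_eq_zero, add_comm, ← hT.mul V _ _ h (lb_inv h)]
  refine hT.triv V _ (fun a x => L.g a.1 a.2 x) (lb_mul h (lb_inv h))
    ⟨fun a e x he ha => h.holo a.1 a.2 e x he ha.1 ha.2, fun a b x ha hb => ?_⟩
    fun x a ha => h.ne_zero a.1 a.2 x ha.1 ha.2
  show L.g a.1 a.2 x = L.g a.1 b.1 x * (L.g a.2 b.2 x)⁻¹ * L.g b.1 b.2 x
  rw [mul_right_comm, h.cocycle _ _ _ x ha.1 hb.1 hb.2, ← h.cocycle _ _ _ x ha.1 ha.2 hb.2,
    mul_inv_cancel_right₀ (h.ne_zero _ _ x ha.2 hb.2)]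

theorem fa_of (hT : T.OK) (h : Fano n V.X) : Gm.Fa T V := by
  have k : IsLB n (Bd.can n V.X) := P277Z.Slc.isLB_can
  rw [Gm.Fa, ← c1_inv hT.c1 k]
  exact hT.c1.pos V _ (lb_inv k) h.2

theorem fano_of (hT : T.OK) (hc : ConnectedSpace V.X) (h : Gm.Fa T V) : Fano n V.X := by
  have k : IsLB n (Bd.can n V.X) := P277Z.Slc.isLB_can
  rw [Gm.Fa, ← c1_inv hT.c1 k] at h
  exact ⟨hc, hT.kp V _ (lb_inv k) h⟩

theorem sub_id (V : Mf n) : Sub n n fun x : V.X => x :=
  ⟨holM_id, sbm_id⟩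

/-- an injective local isomorphism: pull back and push forward are inverse to each other -/
theorem pull_push (hT : T.OK) {U : Mf n} {e : U.X → V.X} (h : Sub n n e)
    (hi : Function.Injective e) (b : T.H U) : T.pull h.hol (T.push e b) = b := by
  have C : Cart e e (fun x : U.X => x) fun x : U.X => x :=
    ⟨rfl, h, sub_id U, h.hol, holM_id, fun _ => rfl,
      fun y x q => ⟨y, ⟨rfl, hi q⟩, fun _ k => k.1⟩, fun z v k _ => by
        rwa [Df, df_id_self (P277Z.Slc.at_chartAt z)] at k⟩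
  rw [hT.pu.bc C b, hT.rg.pull_id, hT.pu.id]

/-- Hodge theory on the space of curves -/
def EXO : Prop := ∀ (T : CT) {n N r d D k δ m : ℕ} {V : Mf n} {P : Eqs r N} {pt : Cm N → V.X}
  (F : Mp.Fam V P pt d D k) (E : VB F.U.X), Sit T δ F m E → (nsF T F E).Ex n k

theorem c0_of (cov : Gm.COV) (eta : Gm.ETA) (exo : EXO) (n : ℕ) (hn : 2 ≤ n) : CS n 0 := by
  intro T hT N r d D k δ V P pt F E s _ _
  obtain rfl : n = k + 1 := s.dim.symm
  have := s.fano.1
  have se : Sub (k + 1) (k + 1) F.e := ⟨F.e_hol, F.e_sbm⟩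
  have hi : Function.Injective F.e := fun u v q => by_contra fun ne =>
    (cov T s.ok hT.hrr _ _ _ se s.cU s.fano.1 (fa_of s.ok s.fano)
      (F.e v)).isPreconnected.infinite_of_nontrivial ⟨u, q, v, rfl, ne⟩
      ((eta T s.ok _ _ _ se inferInstance).2 _).1
  have h := s.ns
  have hv := (exo T F E s).vol
  have ep : ∀ b, (nsF T F E).es ((nsF T F E).el b) = b := pull_push s.ok se hi
  generalize nsF T F E = S at h hv ep
  obtain ⟨c, hc⟩ := h.b2 (S.el S.τ) ((h.el_pr 1 _).trans (congrArg _ h.dτ))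
  have h1 : S.τ = c • S.hh := by rw [← ep S.τ, hc, map_smul, NS.hh]
  have h2 : (2 : T.H F.U) = c • (1 : T.H F.U) := by
    rw [← h.Tτ, h1, map_smul, NS.hh, h.Tη]
  have h3 : S.aa = 0 := by
    rw [NS.aa, NS.hc, h1, ← mul_one S.hh, ← mul_smul_comm, ← h2]
    ring
  rw [h3, zero_pow (by omega), mul_zero, map_zero] at hv
  exact absurd hv (lt_irrefl _)

end Vale.Agent.P280Z.Cv
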