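import Vale.Agent.P280Z.Cv.Two

/-!
# P280Z: stage two, with the cases of the top dimension as a parameter
-/

open scoped Manifold ContDiff Topology Matrix
open Set Filter
open Vale.Agent.P272.K Vale.Agent.P285.H281.FD Vale.Agent.P281Z Vale.Agent.P280Z.Mp
open Vale.Agent.P277 (Bd.inv)

noncomputable section

namespace Vale.Agent.P280Z.Cv

theorem r1x (T : CT) (hT : Rh.Th T) {n : ℕ} (V : Mf n) (hF : Fano n V.X) (hN : NefRC n V.X)
    (h2 : B2T T V) (cs : ∀ m : ℕ, 0 < m → m + 2 ≤ n → Iota n V.X ((m : ℤ) + 2) → CS n m) :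
    Gp.Gen n V.X := by
  rcases Nat.eq_zero_or_pos n with rfl | hn
  · exact fun e x _ v => ⟨fun _ _ => 0, ⟨fun _ _ _ => analyticAt_const,
      fun _ _ _ _ _ => Subsingleton.elim _ _⟩, Subsingleton.elim _ _⟩
  obtain ⟨F₀, a₀, f1, f2, -, f3⟩ := Br.iot n V hn hF
  obtain ⟨j, ⟨F, g1, g2⟩, g3⟩ := Int.exists_least_of_bdd
    (P := fun a => ∃ F : Cm 2 → V.X, RC n F ∧ DegL (Bd.inv (Bd.can n V.X)) F a)
    ⟨0, fun a ⟨F, k1, k2⟩ => (deg_pos eqs hF k1 k2).le⟩ ⟨a₀, F₀, f1, f2⟩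
  obtain ⟨i, rfl⟩ := Int.eq_ofNat_of_zero_le (deg_pos eqs hF g1 g2).le
  have hI : Iota n V.X i := ⟨⟨F, g1, g2⟩, fun G a k1 k2 => g3 a ⟨G, k1, k2⟩⟩
  have hi : i ≤ n + 1 := by exact_mod_cast (g3 a₀ ⟨F₀, f1, f2⟩).trans f3
  rcases hi.eq_or_lt with rfl | hi
  · exact Br.pn n V hF (by exact_mod_cast hI.2)
  obtain ⟨h3, h4⟩ := two_le (brg_of eqs) Mp.maps hF hN hI
  obtain ⟨m, rfl⟩ := Nat.exists_eq_add_of_le' h3
  obtain ⟨k, hk⟩ := Nat.exists_eq_add_of_le' h4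
  obtain ⟨N, r, d, δ, P, pt, G, E, h⟩ := sit_of (brg_of eqs) Mp.maps Ma.nsx Ma.rel T hT.ok (m := m)
    V hn rfl hk.symm (by omega) hF hN hI h2
  have key : CS n m → Gp.Gen n V.X := fun c => c T hT G E h hN (by exact_mod_cast hI)
  rcases Nat.eq_zero_or_pos m with rfl | hm
  · exact key (c0 n (by omega))
  exact key (cs m hm (by omega) (by exact_mod_cast hI))

theorem stp (sys : Sq.SYS) (nsa : Sq.NSA) (p1 : Rh.PONE) (p2 : Rh.PTWO) {n : ℕ} (V : Mf n)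
    (hn : n ≤ 6) (hI : Rh.IH n) (hF : Fano n V.X) (hN : NefT n V.X)
    (cs : ∀ m : ℕ, 0 < m → m + 2 ≤ n → Iota n V.X ((m : ℤ) + 2) → CS n m) : Gp.Gen n V.X := by
  rcases Nat.eq_zero_or_pos n with rfl | h0
  · exact fun e x _ v => ⟨fun _ _ => 0, ⟨fun _ _ _ => analyticAt_const,
      fun _ _ _ _ _ => Subsingleton.elim _ _⟩, Subsingleton.elim _ _⟩
  obtain ⟨B⟩ := Rh.bas_of sys nsa Ma.rel nrc nbase th_ct h0 ⟨hF, hN⟩
  rcases subsingleton_or_nontrivial B.J with h | h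
  · exact r1x _ th_ct V hF (nrc n V hN) (B.b2 h) cs
  by_cases k : ∃ j, (B.F j).m = 0
  · exact p1 _ th_ct V B hn hI ⟨hF, hN⟩ h k
  · exact p2 _ th_ct V B hn hI ⟨hF, hN⟩ h fun j => Nat.pos_of_ne_zero fun e => k ⟨j, e⟩

theorem ihx (sys : Sq.SYS) (nsa : Sq.NSA) (p1 : Rh.PONE) (p2 : Rh.PTWO) (c31 : CS 3 1)
    (c41 : CS 4 1) (c51 : CS 5 1) (c52 : CS 5 2) (n : ℕ) (hn : n ≤ 6) : Rh.IH n := by
  induction n with
  | zero => exact fun m hm => absurd hm (Nat.not_lt_zero m)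
  | succ n ih =>
    intro m hm W hW
    rcases (Nat.lt_succ_iff.1 hm).eq_or_lt with rfl | h
    · refine stp sys nsa p1 p2 W (by omega) (ih (by omega)) hW.1 hW.2 fun j h1 h2 h3 => ?_
      have : m ≤ 5 := by omega
      have : j ≤ 3 := by omega
      clear h3 ih hW W
      interval_cases m <;> interval_cases j <;> first
        | omega | exact c31 | exact c41 | exact c51 | exact En.c42 | exact c52 | exact En.c53
    · exact ih (by omega) m h W hW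

theorem genx (sys : Sq.SYS) (nsa : Sq.NSA) (p1 : Rh.PONE) (p2 : Rh.PTWO) (al : ALN) (c31 : CS 3 1)
    (c41 : CS 4 1) (c51 : CS 5 1) (c52 : CS 5 2) (c64 : CS 6 4) {n : ℕ} (V : Mf n) (hn : n ≤ 6)
    (hF : Fano n V.X) (hN : NefT n V.X) (c61 : n = 6 → Iota n V.X 3 → CS 6 1)
    (c62 : n = 6 → Iota n V.X 4 → CS 6 2) : Gp.RatHom n V.X := by
  have := hF.1
  refine Gp.of_pos V hF.2 ?_
  rcases hn.eq_or_lt with rfl | h
  · refine stp sys nsa p1 p2 V hn (ihx sys nsa p1 p2 c31 c41 c51 c52 6 hn) hF hN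
      fun j h1 h2 h3 => ?_
    have : j ≤ 4 := by omega
    interval_cases j
    exacts [c61 rfl h3, c62 rfl h3, c63_of (end_of Hr.hrr al Gm.fund (En.dp5 Hr.hrr)), c64]
  · exact ihx sys nsa p1 p2 c31 c41 c51 c52 6 le_rfl n h V ⟨hF, hN⟩

end Vale.Agent.P280Z.Cv
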