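import Vale.Agent.P280Z.Cv.I4b
import Vale.Agent.P280Z.Co.Vbl

/-!
# P280Z, row I4: the vertical tangent spaces at two points of a curve
-/

open scoped Manifold ContDiff Topology Matrix Matrix.Norms.Elementwise
open Set Filter Function
open Vale.Agent.P272.K Vale.Agent.P285.H281.FD Vale.Agent.P281Z
open Vale.Agent.P277Z (Hol at_chart)
open Vale.Agent.P277Z.Slc (lin dd)
open Vale.Agent.P277.HD (pull)
open Vale.Agent.P280Z.Mp hiding Fam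

noncomputable section

namespace Vale.Agent.P280Z.Cv

namespace I4x

theorem cf_lin {n : ℕ} {X α : Type} [TopologicalSpace X] [ChartedSpace (Cm n) X] [Fintype α]
    {L : α → Bd X} (hL : ∀ s, IsLB n (L s)) {m : α → ℤ} {a b : (lin L m).ι} {x : X}
    (ha : x ∈ (lin L m).U a) (hb : x ∈ (lin L m).U b) :
    cf (lin L m) a x ≠ 0 ∧ cf (lin L m) b x = cf (lin L m) a x * (lin L m).g a b x := by
  have h : ∃ c, x ∈ (lin L m).U c := ⟨a, ha⟩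
  simp only [cf, dif_pos h]
  refine ⟨Finset.prod_ne_zero_iff.2 fun s _ => zpow_ne_zero _
    ((hL s).ne_zero _ _ x (h.choose_spec s) (ha s)), Eq.trans ?_ Finset.prod_mul_distrib⟩
  exact Finset.prod_congr rfl fun s _ => by
    rw [← mul_zpow, (hL s).cocycle _ _ _ x (h.choose_spec s) (ha s) (hb s)]

/-- the index of a frame -/
def ix {k : ℕ} {K : Mf k} {U : Mf (k + 1)} (P : P1 K U) {Z : Type} (p1 p2 : Z → U.X) (a : P.ι)
    (i j : Fin 2) : (lin ![pull p1 P.T, P.Dg p1 p2] ![1, -1]).ι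
  | ⟨0, _⟩ => (a, i)
  | ⟨1, _⟩ => (a, i, j)

theorem ix_g {k : ℕ} {K : Mf k} {U : Mf (k + 1)} (P : P1 K U) {Z : Type} (p1 p2 : Z → U.X)
    (a b : P.ι) (i j i' j' : Fin 2) (z : Z) :
    (lin ![pull p1 P.T, P.Dg p1 p2] ![1, -1]).g (ix P p1 p2 a i j) (ix P p1 p2 b i' j') z =
      ((P.gg a b (P.p (p1 z))).det / P.ta a i b i' (p1 z) ^ 2) ^ (1 : ℤ) *
        ((P.gg a b (P.p (p1 z))).det / (P.ta a i b i' (p1 z) * P.ta a j b j' (p2 z))) ^ (-1 : ℤ) :=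
  (Fin.prod_univ_two fun s => (![pull p1 P.T, P.Dg p1 p2] s).g (ix P p1 p2 a i j s)
    (ix P p1 p2 b i' j' s) z ^ (![1, -1] s : ℤ)).trans rfl

theorem col {α : Type} {r : ℕ} (B : Matrix α (Fin r) ℂ) (β : Fin r) :
    B *ᵥ Pi.single β 1 = fun α => B α β := funext fun α => by simp

variable {n d k : ℕ} {D : Dat n} {M : Set (BF (d + 1) D.N)} {F : Fam D (d + 1) k M} {a b : F.ι}
  {i j i' j' : Fin 2} {u u' : F.U.X} {v v' w w' : Cm (k + 1)}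

variable (F) in
/-- the correspondence -/
def Cr (a : F.ι) (i j : Fin 2) (u u' : F.U.X) (v v' : Cm (k + 1)) : Prop :=
  ∃ χ ξ ξ', Rx F a i (chartAt (Cm (k + 1)) u) u χ ξ v ∧ Rx F a j (chartAt (Cm (k + 1)) u') u' χ ξ' v'

theorem Cr.symm (h : Cr F a i j u u' v v') : Cr F a j i u' u v' v :=
  let ⟨χ, ξ, ξ', h1, h2⟩ := h
  ⟨χ, ξ', ξ, h2, h1⟩

theorem Cr.add (h : Cr F a i j u u' v v') (h' : Cr F a i j u u' w w') :
    Cr F a i j u u' (v + w) (v' + w') :=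
  let ⟨_, _, _, h1, h2⟩ := h
  let ⟨_, _, _, k1, k2⟩ := h'
  ⟨_, _, _, h1.add k1, h2.add k2⟩

theorem Cr.smul (s : ℂ) (h : Cr F a i j u u' v v') : Cr F a i j u u' (s • v) (s • v') :=
  let ⟨_, _, _, h1, h2⟩ := h
  ⟨_, _, _, h1.smul s, h2.smul s⟩

theorem Cr.zero (h : Cr F a i j u u' 0 v') (hA : D.Adm (d + 1) k M) (hu : u ∈ F.P.W a i)
    (hu' : u' ∈ F.P.W a j) (hp : F.p u = F.p u') : v' = 0 := by
  obtain ⟨χ, ξ, ξ', h1, h2⟩ := h
  obtain ⟨_, h3⟩ := h1.tr (j := j) (e' := chartAt (Cm (k + 1)) u') hA hu hp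
  have h4 := h2.add (h3.smul (-1))
  rw [neg_one_smul, add_neg_cancel, smul_zero, add_zero] at h4
  exact (h4.zero hu' (at_chart _)).2

theorem cr_ex (hP : Pt D) (hA : D.Adm (d + 1) k M) (hu : u ∈ F.P.W a i) (hu' : u' ∈ F.P.W a j)
    (hp : F.p u = F.p u') (h : Df (k + 1) n F.e u v = 0) :
    ∃ v', Df (k + 1) n F.e u' v' = 0 ∧ Cr F a i j u u' v v' := by
  obtain ⟨s, h1⟩ := (ker_iff hP hA hu (at_chart _) (at_chart _)).1 h
  obtain ⟨χ, ξ, h2⟩ := rl_ex (q_lf hu) h1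
  obtain ⟨ξ', v', h3⟩ := Rx.tot h2 hA hu hu' (at_chart _) (at_chart _) hp
  obtain ⟨_, -, h4⟩ := Rl.dir h3 (q_lf hu')
  exact ⟨v', (ker_iff hP hA hu' (at_chart _) (at_chart _)).2 ⟨_, h4⟩, χ, ξ, ξ', h2, h3⟩

theorem Cr.norm (h : Cr F a i j u u' v v') (hA : D.Adm (d + 1) k M) (hu : u ∈ F.P.W a i)
    (hp : F.p u = F.p u') : ∃ χ ξ ξ', Rx F a i (chartAt (Cm (k + 1)) u) u χ ξ v ∧
      Rx F a j (chartAt (Cm (k + 1)) u') u' χ ξ' v' ∧ ξ *ᵥ rr i = 0 := by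
  obtain ⟨χ, ξ, ξ', h1, h2⟩ := h
  obtain ⟨χ₀, h3⟩ := rl_k (φ := F.σ a (F.p u)) (q_lf hu) (ξ *ᵥ rr i)
  have h4 := (rx0 (e := chartAt (Cm (k + 1)) u)).2 h3
  obtain ⟨_, h5⟩ := h4.tr (j := j) (e' := chartAt (Cm (k + 1)) u') hA hu hp
  have h6 := h1.add (h4.smul (-1))
  have h7 := h2.add (h5.smul (-1))
  rw [smul_zero, add_zero] at h6 h7
  refine ⟨_, _, _, h6, h7, ?_⟩
  rw [Matrix.add_mulVec, Matrix.smul_mulVec, om_mv, q_lf hu, one_smul, neg_one_smul, add_neg_cancel]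

theorem Cr.chg (h : Cr F a i j u u' v v') (hu : u ∈ F.P.W a i) (hu' : u' ∈ F.P.W a j)
    (hb : u ∈ F.P.W b i') (hb' : u' ∈ F.P.W b j') (hp : F.p u = F.p u') :
    Cr F b i' j' u u' v ((((F.P.gg a b (F.p u)).det / F.P.ta a i b i' u ^ 2) ^ (1 : ℤ) *
      ((F.P.gg a b (F.p u)).det / (F.P.ta a i b i' u * F.P.ta a j b j' u')) ^ (-1 : ℤ)) • v') := by
  obtain ⟨χ, ξ, ξ', h1, h2⟩ := h
  obtain ⟨g, k1, k2⟩ := (ok F).coc.ex a b _ hu.1 hb.1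
  have k3 : F.P.R a b (F.p u) (F.P.gg a b (F.p u)) := Classical.epsilon_spec ⟨_, k2.self_of_nhds⟩
  obtain ⟨s, k4⟩ := (ok F).coc.uniq a b _ _ _ hu.1 hb.1 k3 k2.self_of_nhds
  obtain ⟨η, k5⟩ := h1.chg hu hb (at_chart _) k1 k2
  obtain ⟨η', k6⟩ := h2.chg (g := g) hu' hb' (at_chart _) (hp ▸ k1) (hp ▸ k2)
  have k7 : (g (F.p u) *ᵥ F.P.q b i' u) i ≠ 0 := fun k => k2.self_of_nhds.1
    (Matrix.exists_mulVec_eq_zero_iff.1 ⟨_, ne_of (q_lf hb),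
      (q_chg (ok F) hu hb k2.self_of_nhds).trans (smul_eq_zero_of_left k _)⟩)
  rw [← hp] at k6
  have k8 := Cr.smul ((g (F.p u) *ᵥ F.P.q b i' u) i)⁻¹ ⟨_, _, _, k5, k6⟩
  rw [inv_smul_smul₀ k7, smul_smul] at k8
  have l1 : (g (F.p u) *ᵥ F.P.q b i' u) i = s * F.P.ta a i b i' u :=
    (congrArg (fun g => (g *ᵥ F.P.q b i' u) i) k4).trans (congrFun (Matrix.smul_mulVec _ _ _) i)
  have l2 : (g (F.p u) *ᵥ F.P.q b j' u') j = s * F.P.ta a j b j' u' := by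
    rw [show F.P.ta a j b j' u' = (F.P.gg a b (F.p u) *ᵥ F.P.q b j' u') j by rw [hp]; rfl]
    exact (congrArg (fun g => (g *ᵥ F.P.q b j' u') j) k4).trans
      (congrFun (Matrix.smul_mulVec _ _ _) j)
  rw [l1] at k7
  have l3 := left_ne_zero_of_mul k7
  have l4 := right_ne_zero_of_mul k7
  have l5 : (F.P.gg a b (F.p u)).det ≠ 0 := k3.1
  rw [l1, l2] at k8
  refine cast (congrArg (fun s : ℂ => Cr F b i' j' u u' v (s • v')) ?_) k8
  rw [zpow_one, zpow_neg_one, inv_div]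
  field_simp

theorem phi (hP : Pt D) (hA : D.Adm (d + 1) k M) (hu : u ∈ F.P.W a i) (hu' : u' ∈ F.P.W a j)
    (hp : F.p u = F.p u') {A A' : Type} [AddCommGroup A] [Module ℂ A] [AddCommGroup A']
    [Module ℂ A'] {φ : A →ₗ[ℂ] Cm (k + 1)} {φ' : A' →ₗ[ℂ] Cm (k + 1)} (h1 : Injective φ)
    (h1' : Injective φ') (h2 : Exact φ (Df (k + 1) n F.e u)) (h2' : Exact φ' (Df (k + 1) n F.e u'))
    {s : ℂ} (hs : s ≠ 0) :
    ∃ f : A →ₗ[ℂ] A', Bijective f ∧ ∀ x, Cr F a i j u u' (φ x) (φ' (s • f x)) := by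
  refine graph (C := fun x y => Cr F a i j u u' (φ x) (φ' (s • y))) (fun x y x' y' k k' => ?_)
    (fun c x y k => ?_) (fun x => ?_) (fun y => ?_) (fun y k => ?_) fun x k => ?_
  · rw [smul_add, map_add, map_add]
    exact k.add k'
  · rw [smul_comm, map_smul, map_smul]
    exact k.smul c
  · obtain ⟨v', k1, k2⟩ := cr_ex hP hA hu hu' hp ((h2 _).2 ⟨x, rfl⟩)
    obtain ⟨y, rfl⟩ := (h2' _).1 k1
    exact ⟨s⁻¹ • y, by rwa [smul_inv_smul₀ hs]⟩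
  · obtain ⟨v, k1, k2⟩ := cr_ex hP hA hu' hu hp.symm ((h2' _).2 ⟨s • y, rfl⟩)
    obtain ⟨x, rfl⟩ := (h2 _).1 k1
    exact ⟨x, k2.symm⟩
  · rw [map_zero] at k
    exact (smul_eq_zero.1 ((map_eq_zero_iff _ h1').1 (k.zero hA hu hu' hp))).resolve_left hs
  · rw [smul_zero, map_zero] at k
    exact (map_eq_zero_iff _ h1).1 (k.symm.zero hA hu' hu hp.symm)

theorem sm_rx {l : ℕ} {Z G : Type} [TopologicalSpace Z] [ChartedSpace (Cm l) Z]
    [IsManifold 𝓘(ℂ, Cm l) ω Z] [NormedAddCommGroup G] [NormedSpace ℝ G] [NormedSpace ℂ G]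
    [IsScalarTower ℝ ℂ G] [FiniteDimensional ℂ G] {f : Z → F.U.X} {z : Z} {c : Chart l Z}
    {e : Chart (k + 1) F.U.X} (hf : HolA l (k + 1) f z) (hc : At c z) (he : At e (f z))
    (hu : f z ∈ F.P.W a i) (π : BF d D.N × M2 × Cm (k + 1) →ₗ[ℂ] G)
    (hi : ∀ x, Rx F a i e (f z) x.1 x.2.1 x.2.2 → π x = 0 → x = 0)
    {x : Z → BF d D.N × M2 × Cm (k + 1)} (hb : ContDiffAt ℝ ∞ (fun t => π (x (c.symm t))) (c z))
    (h : ∀ᶠ y in 𝓝 z, Rx F a i e (f y) (x y).1 (x y).2.1 (x y).2.2) :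
    ContDiffAt ℝ ∞ (fun t => x (c.symm t)) (c z) := by
  have h1 : ∀ {V : Type} [NormedAddCommGroup V] [NormedSpace ℝ V] [NormedSpace ℂ V]
      [IsScalarTower ℝ ℂ V] [CompleteSpace V] {S : F.U.X → V}, AnV (k + 1) S (f z) →
      ContDiffAt ℝ ∞ (fun t => S (f (c.symm t))) (c z) ∧
        ∀ v, ContDiffAt ℝ ∞ (fun t => dV S e (f (c.symm t)) v) (c z) := fun hS =>
    ⟨((anV_comp hS hf c hc).contDiffAt.restrict_scalars ℝ).of_le le_top, fun v =>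
      ((anV_comp ((anV_chart he).cmp (((ContinuousLinearMap.apply ℂ _ v).analyticAt _).fun_comp
        (hS e he).fderiv)) hf c hc).contDiffAt.restrict_scalars ℝ).of_le le_top⟩
  exact sm_rl (ψ := fun t => (dV (fun u => F.σ a (F.p u)) e (f (c.symm t))).toLinearMap)
    (w := fun t => (dV (F.P.q a i) e (f (c.symm t))).toLinearMap) π (h1 (an_S hu.1)).1
    (h1 (an_q hu)).1 (h1 (an_S hu.1)).2 (h1 (an_q hu)).2 (by
      rw [hc.left_inv]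
      exact hi) hb (at_ev hc h)

theorem sm_cr (hA : D.Adm (d + 1) k M) {l r : ℕ} {Z : Type} [TopologicalSpace Z]
    [ChartedSpace (Cm l) Z] [IsManifold 𝓘(ℂ, Cm l) ω Z] {f f' : Z → F.U.X} {z : Z} {c : Chart l Z}
    {e e' : Chart (k + 1) F.U.X} (hf : HolA l (k + 1) f z) (hf' : HolA l (k + 1) f' z)
    (hp : ∀ y, F.p (f y) = F.p (f' y)) (hc : At c z) (he : At e (f z)) (he' : At e' (f' z))
    (hu : f z ∈ F.P.W a i) (hu' : f' z ∈ F.P.W a j) {m : Z → Matrix (Fin (k + 1)) (Fin r) ℂ}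
    (hm : SmAt l m z) (hi : ∀ x, m z *ᵥ x = 0 → x = 0) {x : Z → Cm (k + 1)} {y : Z → Cm r}
    (hx : ContDiffAt ℝ ∞ (fun t => x (c.symm t)) (c z))
    (h : ∀ᶠ t in 𝓝 z, Cr F a i j (f t) (f' t)
      (df (fun y => y) e (chartAt (Cm (k + 1)) (f t)) (f t) (x t))
      (df (fun y => y) e' (chartAt (Cm (k + 1)) (f' t)) (f' t) (m t *ᵥ y t))) :
    ContDiffAt ℝ ∞ (fun t => y (c.symm t)) (c z) := by
  have h1 : ∀ᶠ t in 𝓝 z, ∃ s : BF d D.N × M2 × M2, Rx F a i e (f t) s.1 s.2.1 (x t) ∧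
      Rx F a j e' (f' t) s.1 s.2.2 (m t *ᵥ y t) ∧ s.2.1 *ᵥ rr i = 0 := by
    filter_upwards [h, hf.cont.eventually (((ok F).opn a i).mem_nhds hu),
      hf'.cont.eventually (((ok F).opn a j).mem_nhds hu'), hf.cont.eventually (at_near he),
      hf'.cont.eventually (at_near he')] with t k1 k2 k3 k4 k5
    obtain ⟨χ, ξ, ξ', l1, l2, l3⟩ := k1.norm hA k2 (hp t)
    exact ⟨(χ, ξ, ξ'), (rx_chart k2 (at_chart _) k4).1 l1, (rx_chart k3 (at_chart _) k5).1 l2, l3⟩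
  obtain ⟨s, hs⟩ := h1.choice
  let π : BF d D.N × M2 × Cm (k + 1) →ₗ[ℂ] Cm 2 × Cm (k + 1) :=
    ((⟨⟨fun g => g *ᵥ rr i, fun g g' => Matrix.add_mulVec g g' _⟩,
      fun c g => Matrix.smul_mulVec c g _⟩ : M2 →ₗ[ℂ] Cm 2).prodMap LinearMap.id).comp
      (LinearMap.snd ℂ _ _)
  have h2 := sm_rx hf hc he hu π (x := fun t => ((s t).1, (s t).2.1, x t)) (fun w k1 k2 => by
    have k3 : w.2.2 = 0 := congrArg (·.2) k2
    rw [k3] at k1
    obtain ⟨k4, k5⟩ := (rx0.1 k1).inj (q_lf hu) (crv hA hu.1).nz (congrArg (·.1) k2)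
    exact Prod.ext k4 (Prod.ext k5 k3))
    (((contDiffAt_const (c := (0 : Cm 2))).prodMk hx).congr_of_eventuallyEq
      ((at_ev hc hs).mono fun t k => Prod.ext k.2.2 rfl)) (hs.mono fun t k => k.1)
  have h3 := sm_rx hf' hc he' hu' (LinearMap.fst ℂ _ _)
    (x := fun t => ((s t).1, (s t).2.2, m t *ᵥ y t)) (fun w k1 k2 => by
      have k3 : w.1 = 0 := k2
      rw [k3] at k1
      exact Prod.ext k3 (Prod.ext (k1.zero hu' he').1 (k1.zero hu' he').2)) h2.fst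
    (hs.mono fun t k => k.2.1)
  exact solve (L := fun t w => m (c.symm t) *ᵥ w)
    (fun t => ⟨Matrix.mulVec_add _, fun s w => Matrix.mulVec_smul _ s w⟩)
    (fun w => contDiffAt_pi.2 fun a => ContDiffAt.sum (s := Finset.univ)
      (f := fun b t => m (c.symm t) a b * w b) fun b _ => (hm c hc a b).mul contDiffAt_const)
    (by
      rw [hc.left_inv]
      exact hi) h3.snd.snd (.of_forall fun _ => rfl)

end I4x

open I4x in
/-- row I4 -/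
theorem i4_of (hPT : PT) (h1T : P1T) (h1D : P1D) : I4 := by
  intro n D d k M F hA Z p1 p2 hZ E φ hS
  obtain ⟨d, rfl⟩ := Nat.exists_eq_succ_of_ne_zero hA.pos.ne'
  have hp : ∀ z, F.p (p1 z) = F.p (p2 z) := fun z => (hZ.comm z).symm
  have hL : ∀ s, IsLB (k + 2) (![pull p1 F.P.T, F.P.Dg p1 p2] s) := Fin.forall_fin_two.2
    ⟨hZ.sf'.hol.lb (h1T k _ _ F.P F.ok).1, (h1D k _ _ F.P F.ok Z p1 p2 hZ).1.choose_spec.1.lb⟩
  have hU : ∀ {a i j z}, p1 z ∈ F.P.W a i → p2 z ∈ F.P.W a j →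
      z ∈ (lin ![pull p1 F.P.T, F.P.Dg p1 p2] ![1, -1]).U (ix F.P p1 p2 a i j) :=
    fun h h' => Fin.forall_fin_two.2 ⟨h, h, h'⟩
  have h1 : ∀ z, ∃ a i j, p1 z ∈ F.P.W a i ∧ p2 z ∈ F.P.W a j := fun z => by
    obtain ⟨a, ha⟩ := F.cover (F.p (p1 z))
    obtain ⟨i, hi⟩ := w_ex (ok F) ha
    obtain ⟨j, hj⟩ := w_ex (ok F) (a := a) (u := p2 z) (show F.p (p2 z) ∈ F.V a from hp z ▸ ha)
    exact ⟨a, i, j, hi, hj⟩
  have h2 : ∀ z, ∃ f : E.A (p1 z) →ₗ[ℂ] E.A (p2 z), Bijective f ∧ ∀ a i j, p1 z ∈ F.P.W a i →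
      p2 z ∈ F.P.W a j → ∀ x, Cr F a i j (p1 z) (p2 z) (φ _ x)
        (φ _ (cf (lin ![pull p1 F.P.T, F.P.Dg p1 p2] ![1, -1]) (ix F.P p1 p2 a i j) z • f x)) := by
    intro z
    obtain ⟨a, i, j, hi, hj⟩ := h1 z
    obtain ⟨f, k1, k2⟩ := phi (hPT n D) hA hi hj (hp z) (hS.inj _) (hS.inj _) (hS.ex _) (hS.ex _)
      (cf_lin hL (hU hi hj) (hU hi hj)).1
    refine ⟨f, k1, fun b i' j' hi' hj' x => ?_⟩
    rw [(cf_lin hL (hU hi hj) (hU hi' hj')).2, mul_comm, mul_smul, map_smul]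
    exact cast (congrArg (fun s : ℂ => Cr F b i' j' (p1 z) (p2 z) _ (s • _))
      (ix_g F.P p1 p2 a b i j i' j' z).symm) ((k2 x).chg hi hj hi' hj' (hp z))
  choose Φ h3 h4 using h2
  refine ⟨Φ, fun z => ?_, h3⟩
  obtain ⟨a, i, j, hi, hj⟩ := h1 z
  obtain ⟨s, e, k1, he, m, k2, k3⟩ := hS.h1 (p1 z)
  obtain ⟨s', e', k1', he', m', k2', k3'⟩ := hS.h1 (p2 z)
  have h5 : ∀ t, ∃ A : Matrix (Fin E.r) (Fin E.r) ℂ, Bijective (E.b s' (p2 t)) → (Φ t).comp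
      (cf (lin ![pull p1 F.P.T, F.P.Dg p1 p2] ![1, -1]) (ix F.P p1 p2 a i j) t • E.b s (p1 t)) =
      (E.b s' (p2 t)).comp (Matrix.toLin' A) := fun t => by
    by_cases hb : Bijective (E.b s' (p2 t))
    · refine ⟨LinearMap.toMatrix' ((LinearEquiv.ofBijective _ hb).symm.toLinearMap ∘ₗ (Φ t).comp
        (cf (lin ![pull p1 F.P.T, F.P.Dg p1 p2] ![1, -1]) (ix F.P p1 p2 a i j) t • E.b s (p1 t))),
        fun _ => LinearMap.ext fun v => ?_⟩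
      rw [Matrix.toLin'_toMatrix']
      exact ((LinearEquiv.ofBijective _ hb).apply_symm_apply _).symm
    · exact ⟨0, fun k => absurd k hb⟩
  choose A hA' using h5
  have f1 := hZ.sf'.hol.at z
  have f2 := hZ.hg'.at z
  have hb := f2.cont.eventually (VblH.bij_ev hS.v1 k1')
  refine ⟨(s, ix F.P p1 p2 a i j), s', ⟨k1, hU hi hj⟩, k1', A, fun c hc α β => ?_,
    hb.mono fun t => hA' t⟩
  refine contDiffAt_pi.1 (sm_cr hA f1 f2 hp hc he he' hi hj (VblH.sm_comp f2 k2') (fun x hx => ?_)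
    (x := fun t α => m (p1 t) α β) (y := fun t α => A t α β)
    (contDiffAt_pi.2 fun α => VblH.sm_comp f1 k2 c hc α β) ?_) α
  · refine (map_eq_zero_iff _ hb.self_of_nhds.1).1 ((map_eq_zero_iff _ (hS.inj _)).1
      ((LinearMap.congr_fun k3'.self_of_nhds x).trans ?_))
    exact (congrArg ((VB.tan (k + 1) F.U.X).b e' (p2 z)) hx).trans (map_zero _)
  · filter_upwards [f1.cont.eventually k3, f2.cont.eventually k3', hb,
      f1.cont.eventually (((ok F).opn a i).mem_nhds hi),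
      f2.cont.eventually (((ok F).opn a j).mem_nhds hj)] with t l1 l2 l3 l4 l5
    have l6 := h4 t a i j l4 l5 (E.b s (p1 t) (Pi.single β 1))
    have l7 := LinearMap.congr_fun (hA' t l3) (Pi.single β 1)
    rw [LinearMap.comp_apply, LinearMap.smul_apply, map_smul] at l7
    rw [l7] at l6
    exact cast (congrArg₂ (Cr F a i j (p1 t) (p2 t)) ((LinearMap.congr_fun l1 _).trans
      (congrArg ((VB.tan (k + 1) F.U.X).b e (p1 t)) (col (m (p1 t)) β)))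
      ((LinearMap.congr_fun l2 _).trans (congrArg
        (fun w => (VB.tan (k + 1) F.U.X).b e' (p2 t) (m' (p2 t) *ᵥ w)) (col (A t) β)))) l6

end Vale.Agent.P280Z.Cv
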