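import Vale.Agent.P280Z.Mp.Bf

/-!
# P280Z, row I4: algebra of the vertical tangent vectors
-/

open scoped ContDiff Topology Matrix Matrix.Norms.Elementwise
open Set Filter
open Vale.Agent.P272.K Vale.Agent.P280Z.Mp

noncomputable section

namespace Vale.Agent.P280Z.Cv.I4x

/-- smooth solutions of injective linear systems -/
theorem solve {T F G : Type} [NormedAddCommGroup T] [NormedSpace ℝ T] [NormedAddCommGroup F]
    [NormedSpace ℝ F] [NormedSpace ℂ F] [IsScalarTower ℝ ℂ F] [FiniteDimensional ℂ F]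
    [NormedAddCommGroup G] [NormedSpace ℝ G] [NormedSpace ℂ G] [IsScalarTower ℝ ℂ G]
    [FiniteDimensional ℂ G] {L : T → F → G} {t₀ : T} (hl : ∀ t, IsLinearMap ℂ (L t))
    (hs : ∀ x, ContDiffAt ℝ ∞ (fun t => L t x) t₀) (hi : ∀ x, L t₀ x = 0 → x = 0) {x : T → F}
    {b : T → G} (hb : ContDiffAt ℝ ∞ b t₀) (h : ∀ᶠ t in 𝓝 t₀, L t (x t) = b t) :
    ContDiffAt ℝ ∞ x t₀ := by
  have : FiniteDimensional ℝ F := Module.Finite.trans ℂ F
  have : FiniteDimensional ℝ G := Module.Finite.trans ℂ G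
  have : CompleteSpace F := FiniteDimensional.complete ℝ F
  obtain ⟨P, hP⟩ := ((hl t₀).mk' _).exists_leftInverse_of_injective (LinearMap.ker_eq_bot'.2 hi)
  let P' : G →L[ℝ] F := LinearMap.toContinuousLinearMap (P.restrictScalars ℝ)
  let A : T → F →L[ℝ] F := fun t =>
    LinearMap.toContinuousLinearMap ((P.comp ((hl t).mk' _)).restrictScalars ℝ)
  let B := Module.finBasis ℝ F
  have h1 : A = fun t => ∑ i, (LinearMap.toContinuousLinearMap (B.coord i)).smulRight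
      (P' (L t (B i))) := funext fun t => ContinuousLinearMap.ext fun v => by
    conv_lhs => rw [← B.sum_repr v, map_sum]
    rw [sum_apply]
    exact Finset.sum_congr rfl fun i _ => map_smul _ _ _
  have h2 : ContDiffAt ℝ ∞ A t₀ := h1 ▸ ContDiffAt.sum fun i _ =>
    contDiffAt_const.smulRight (P'.contDiff.contDiffAt.comp t₀ (hs _))
  have h3 : A t₀ = ((1 : (F →L[ℝ] F)ˣ) : F →L[ℝ] F) :=
    ContinuousLinearMap.ext fun v => LinearMap.congr_fun hP v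
  have h4 : ContDiffAt ℝ ∞ (fun t => Ring.inverse (A t)) t₀ :=
    ContDiffAt.comp (g := Ring.inverse) t₀ (h3 ▸ contDiffAt_ringInverse ℝ 1) h2
  refine (h4.clm_apply (P'.contDiff.contDiffAt.comp t₀ hb)).congr_of_eventuallyEq ?_
  filter_upwards [h, h2.continuousAt.eventually (Units.isOpen.mem_nhds
    (show IsUnit (A t₀) from h3 ▸ Units.isUnit 1))] with t k1 k2
  have k4 : Ring.inverse (A t) * A t = 1 := Ring.inverse_mul_cancel _ k2
  have k3 := congrArg (fun f : F →L[ℝ] F => f (x t)) k4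
  exact k3.symm.trans (congrArg (Ring.inverse (A t) : F →L[ℝ] F) (congrArg P k1))

/-- a linear relation which is the graph of a map -/
theorem graph {A B : Type} [AddCommGroup A] [Module ℂ A] [AddCommGroup B] [Module ℂ B]
    {C : A → B → Prop} (h1 : ∀ a b a' b', C a b → C a' b' → C (a + a') (b + b'))
    (h2 : ∀ (c : ℂ) a b, C a b → C (c • a) (c • b)) (h3 : ∀ a, ∃ b, C a b) (h4 : ∀ b, ∃ a, C a b)
    (h5 : ∀ b, C 0 b → b = 0) (h6 : ∀ a, C a 0 → a = 0) :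
    ∃ f : A →ₗ[ℂ] B, Function.Bijective f ∧ ∀ a, C a (f a) := by
  have u : ∀ a b b', C a b → C a b' → b = b' := fun a b b' k k' => by
    have k1 := h1 _ _ _ _ k (h2 (-1) _ _ k')
    rw [neg_one_smul, neg_one_smul, add_neg_cancel] at k1
    exact add_neg_eq_zero.1 (h5 _ k1)
  choose f hf using h3
  refine ⟨⟨⟨f, fun a a' => u _ _ _ (hf _) (h1 _ _ _ _ (hf a) (hf a'))⟩,
    fun c a => u _ _ _ (hf _) (h2 c _ _ (hf a))⟩,
    ⟨(injective_iff_map_eq_zero _).2 fun a ha => h6 a ?_, fun b => ?_⟩, hf⟩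
  · exact (show f a = 0 from ha) ▸ hf a
  · obtain ⟨a, ha⟩ := h4 b
    exact ⟨a, u _ _ _ (hf a) ha⟩

variable {d N : ℕ} {q q' r w w' : Cm 2} {φ ψ ψ' : BF (d + 1) N} {χ χ' : BF d N} {ξ ξ' : M2}

theorem lf_add (q x y : Cm 2) : lf q (x + y) = lf q x + lf q y := by
  simp only [lf, Pi.add_apply]
  ring

theorem lf_sub (q x y : Cm 2) : lf q (x - y) = lf q x - lf q y := by
  simp only [lf, Pi.sub_apply]
  ring

theorem lf_smul (q : Cm 2) (c : ℂ) (x : Cm 2) : lf q (c • x) = c * lf q x := by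
  simp only [lf, Pi.smul_apply, smul_eq_mul]
  ring

theorem lf_smul' (c : ℂ) (q x : Cm 2) : lf (c • q) x = c * lf q x := by
  simp only [lf, Pi.smul_apply, smul_eq_mul]
  ring

theorem lf_self (q : Cm 2) : lf q q = 0 := by
  rw [lf]
  ring

theorem lf_zero (q : Cm 2) : lf q 0 = 0 := by simp [lf]

theorem lf_mv (g : M2) (x z : Cm 2) : lf (g *ᵥ x) (g *ᵥ z) = g.det * lf x z := by
  simp only [lf, Matrix.mulVec, dotProduct, Fin.sum_univ_two, Matrix.det_fin_two]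
  ring

theorem dec (hr : lf q r = 1) (z : Cm 2) : z = lf q z • r - lf r z • q := funext fun k => by
  rw [lf] at hr
  fin_cases k <;> simp [lf]
  · linear_combination (-z 0) * hr
  · linear_combination (-z 1) * hr

theorem ne_of (hr : lf q r = 1) : q ≠ 0 := fun e => by simp [e, lf] at hr

/-- the matrix of `z ↦ lf q z • w` -/
def om (w q : Cm 2) : M2 := Matrix.of fun a b => w a * ![-q 1, q 0] b

theorem om_mv (w q z : Cm 2) : om w q *ᵥ z = lf q z • w := funext fun k => by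
  simp [om, lf, Matrix.mulVec, dotProduct, Fin.sum_univ_two]
  ring

/-- `χ` represents the tangent vector with the components `ψ`, `w` -/
structure Rl (φ : BF (d + 1) N) (q : Cm 2) (χ : BF d N) (ξ : M2) (ψ : BF (d + 1) N) (w : Cm 2) :
    Prop where
  e1 : ∀ z, lf q z • ev χ z = fderiv ℂ (ev φ) z (ξ *ᵥ z) + ev ψ z
  e2 : lf q w = lf q (ξ *ᵥ q)

theorem Rl.add (h : Rl φ q χ ξ ψ w) (h' : Rl φ q χ' ξ' ψ' w') :
    Rl φ q (χ + χ') (ξ + ξ') (ψ + ψ') (w + w') :=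
  ⟨fun z => by
    rw [ev_add, ev_add, smul_add, h.e1, h'.e1, Matrix.add_mulVec, map_add, add_add_add_comm],
    by rw [Matrix.add_mulVec, lf_add, lf_add, h.e2, h'.e2]⟩

theorem Rl.smul (c : ℂ) (h : Rl φ q χ ξ ψ w) : Rl φ q (c • χ) (c • ξ) (c • ψ) (c • w) :=
  ⟨fun z => by
    rw [ev_smul, ev_smul, smul_comm, h.e1, Matrix.smul_mulVec, map_smul, smul_add],
    by rw [Matrix.smul_mulVec, lf_smul, lf_smul, h.e2]⟩

theorem hm_l (q : Cm 2) (χ : BF d N) : Hm (d + 1) fun z => lf q z • ev χ z :=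
  ((hm_lf q).mul (hm_ev χ)).cast (Nat.add_comm 1 d)

theorem Rl.eq (h : Rl φ q χ ξ ψ w) : co (d + 1) (fun z => lf q z • ev χ z) = inf φ ξ + ψ :=
  ev_inj fun z => by rw [(hm_l q χ).ev_co, ev_add, ev_inf, h.e1]

theorem Rl.tg {s e : ℕ} {P : Eqs s N} (h : Rl φ q χ ξ ψ w) (hr : lf q r = 1) (hP : Mp.Hom P e)
    (hφ : Crv P φ) (hψ : ψ ∈ Tg P φ) (q' : Cm 2) :
    co (d + 1) (fun z => lf q' z • ev χ z) ∈ Tg P φ := fun z => by
  have h1 : Hm ((d + 1) * (e - 1) + d) fun z => Jm P (ev φ z) *ᵥ ev χ z :=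
    Hm.pi fun k => Hm.sum Finset.univ fun l _ =>
      (Hm.eval (hP k).pderiv (hm_ev φ)).mul ((hm_ev χ).apply l)
  have h2 := (hm_lf q).cancel ⟨r, by rw [hr]; exact one_ne_zero⟩ h1 (fun z => by
    have k := (Tg P φ).add_mem (inf_mem (hφ.pv hP) ξ) hψ z
    rwa [← h.eq, (hm_l q χ).ev_co, Matrix.mulVec_smul] at k) z
  rw [(hm_l q' χ).ev_co, Matrix.mulVec_smul, h2, smul_zero]

theorem Rl.dir (h : Rl φ q χ ξ ψ w) (hr : lf q r = 1) :
    ∃ c : ℂ, w = ξ *ᵥ q + c • q ∧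
      ev ψ q + fderiv ℂ (ev φ) q w = (c * ((d + 1 : ℕ) : ℂ)) • ev φ q := by
  have h1 := dec hr (w - ξ *ᵥ q)
  rw [lf_sub, h.e2, sub_self, zero_smul, zero_sub, ← neg_smul, sub_eq_iff_eq_add'] at h1
  have h2 := h.e1 q
  rw [lf_self, zero_smul] at h2
  refine ⟨_, h1, ?_⟩
  conv_lhs => rw [h1, map_add, map_smul, euler, ← add_assoc, add_comm (ev ψ q), ← h2, zero_add,
    smul_smul]

theorem rl_div (hr : lf q r = 1) (h1 : fderiv ℂ (ev φ) q (ξ *ᵥ q) + ev ψ q = 0)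
    (h2 : lf q w = lf q (ξ *ᵥ q)) : ∃ χ, Rl φ q χ ξ ψ w := by
  obtain ⟨f, k1, k2⟩ := (hm_ev (inf φ ξ + ψ)).div (ne_of hr) (by rw [ev_add, ev_inf, h1])
  exact ⟨co d f, fun z => by rw [k1.ev_co, ← k2, ev_add, ev_inf], h2⟩

theorem rl_ex (hr : lf q r = 1) {c : ℂ} (h : ev ψ q + fderiv ℂ (ev φ) q w = c • ev φ q) :
    ∃ χ ξ, Rl φ q χ ξ ψ w := by
  have h0 : lf r q = -1 := by
    rw [lf] at hr ⊢
    linear_combination -hr
  have h1 : om ((c / ((d + 1 : ℕ) : ℂ)) • q - w) r *ᵥ q = w - (c / ((d + 1 : ℕ) : ℂ)) • q := by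
    rw [om_mv, h0, neg_one_smul, neg_sub]
  obtain ⟨χ, hχ⟩ := rl_div (φ := φ) (ψ := ψ) (w := w) (ξ := om ((c / ((d + 1 : ℕ) : ℂ)) • q - w) r)
    hr (by
      rw [h1, map_sub, map_smul, euler, smul_smul,
        div_mul_cancel₀ _ (Nat.cast_ne_zero.2 d.succ_ne_zero), ← h]
      abel)
    (by rw [h1, lf_sub, lf_smul, lf_self, mul_zero, sub_zero])
  exact ⟨χ, _, hχ⟩

theorem rl_k (hr : lf q r = 1) (w : Cm 2) : ∃ χ, Rl φ q χ (om w q) 0 0 :=
  rl_div hr (by rw [om_mv, lf_self, zero_smul, map_zero, ev_zero, add_zero])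
    (by rw [om_mv, lf_self, zero_smul])

theorem Rl.form (h : Rl φ q χ ξ 0 0) (hr : lf q r = 1) (hφ : Nz φ) (z : Cm 2) :
    ξ *ᵥ z = lf q z • ξ *ᵥ r := by
  obtain ⟨c, h1, h2⟩ := h.dir hr
  rw [ev_zero, map_zero, add_zero] at h2
  have h3 : c = 0 := (mul_eq_zero.1 ((smul_eq_zero.1 h2.symm).resolve_right
    (hφ q (ne_of hr)))).resolve_right (Nat.cast_ne_zero.2 d.succ_ne_zero)
  rw [h3, zero_smul, add_zero] at h1
  conv_lhs => rw [dec hr z, Matrix.mulVec_sub, Matrix.mulVec_smul, Matrix.mulVec_smul, ← h1,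
    smul_zero, sub_zero]

theorem Rl.tr (h : Rl φ q χ ξ 0 0) (hr : lf q r = 1) (hφ : Nz φ) (q' : Cm 2) :
    Rl φ q' χ (om (ξ *ᵥ r) q') 0 0 := by
  refine ⟨fun z => ?_, by rw [om_mv, lf_self, zero_smul]⟩
  have h1 := (hm_lf q).cancel ⟨r, by rw [hr]; exact one_ne_zero⟩
    ((hm_l q' χ).sub (hm_ev (inf φ (om (ξ *ᵥ r) q')))) (fun z => by
      rw [smul_sub, smul_comm, h.e1, ev_inf, om_mv, h.form hr hφ z, ev_zero, add_zero, map_smul,
        map_smul, smul_comm, sub_self]) z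
  rw [ev_zero, add_zero, ← ev_inf]
  exact sub_eq_zero.1 h1

theorem Rl.inj (h : Rl φ q χ ξ 0 0) (hr : lf q r = 1) (hφ : Nz φ) (h0 : ξ *ᵥ r = 0) :
    χ = 0 ∧ ξ = 0 := by
  have h1 : ∀ z, ξ *ᵥ z = 0 := fun z => by rw [h.form hr hφ z, h0, smul_zero]
  refine ⟨ev_inj fun z => ?_, Matrix.ext fun a b => ?_⟩
  · rw [ev_zero]
    exact (hm_lf q).cancel ⟨r, by rw [hr]; exact one_ne_zero⟩ (hm_ev χ) (fun z => by
      rw [h.e1, h1, map_zero, ev_zero, add_zero]) z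
  · simpa using congrFun (h1 (Pi.single b 1)) a

theorem fd_act' (φ : BF d N) (g : M2) (z x : Cm 2) :
    fderiv ℂ (ev (act φ g)) z x = fderiv ℂ (ev φ) (g *ᵥ z) (g *ᵥ x) := by
  let L : Cm 2 →L[ℂ] Cm 2 := LinearMap.toContinuousLinearMap (Matrix.toLin' g)
  rw [show ev (act φ g) = ev φ ∘ L from funext (ev_act φ g)]
  exact congrArg (· x) (((an_ev2 φ).differentiable (by simp) (L z)).hasFDerivAt.comp z
    L.hasFDerivAt).fderiv

/-- change of the slice and of the coordinates -/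
theorem Rl.act (h : Rl φ q χ ξ ψ w) {g G : M2} {τ τ' : ℂ} (hg : g.det ≠ 0)
    (h1 : g *ᵥ q' = τ • q) (h2 : G *ᵥ q' + g *ᵥ w' = τ' • q + τ • w)
    (h3 : ∀ z, ev ψ' z = ev ψ (g *ᵥ z) + fderiv ℂ (ev φ) (g *ᵥ z) (G *ᵥ z)) :
    ∃ ξ', Rl (act φ g) q' (g.det • act χ g) ξ' (τ • ψ') (τ • w') := by
  have k : ∀ x, g *ᵥ ((τ • (g⁻¹ * (ξ * g - G))) *ᵥ x) = τ • (ξ *ᵥ (g *ᵥ x) - G *ᵥ x) := fun x => by
    rw [Matrix.smul_mulVec, Matrix.mulVec_smul, Matrix.mulVec_mulVec, ← Matrix.mul_assoc,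
      Matrix.mul_nonsing_inv _ (Ne.isUnit hg), Matrix.one_mul, Matrix.sub_mulVec,
      Matrix.mulVec_mulVec]
  refine ⟨τ • (g⁻¹ * (ξ * g - G)), fun z => ?_, mul_left_cancel₀ hg ?_⟩
  · rw [fd_act', k, ev_smul, ev_smul, ev_act, h3, smul_smul, mul_comm, ← lf_mv, h1, lf_smul',
      mul_smul, h.e1, map_smul, map_sub, ← smul_add]
    congr 1
    abel
  · rw [← lf_mv, ← lf_mv, k, Matrix.mulVec_smul, eq_sub_of_add_eq' h2, h1, Matrix.mulVec_smul]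
    simp only [lf_smul, lf_smul', lf_sub, lf_add, lf_self, h.e2, mul_zero, zero_add]

theorem fd_sum (a : BF d N) (z x : Cm 2) : fderiv ℂ (ev a) z x =
    ∑ i : Fin (d + 1), fderiv ℂ (fun z : Cm 2 => z 0 ^ (d - i.val) * z 1 ^ i.val) z x • a i := by
  have h : ∀ i : Fin (d + 1), DifferentiableAt ℂ
      (fun z : Cm 2 => z 0 ^ (d - i.val) * z 1 ^ i.val) z := fun i => by fun_prop
  exact (congrArg (· x) (HasFDerivAt.fun_sum fun i _ =>
    (h i).hasFDerivAt.smul_const (a i)).fderiv).trans (sum_apply _ _ _)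

/-- the equations of the relation at finitely many points -/
def Lq (φ : BF (d + 1) N) (q : Cm 2) (χ : BF d N) (ξ : M2) (ψ : BF (d + 1) N) (w : Cm 2) :
    (Fin (d + 2) → Cm N) × ℂ :=
  (fun l => lf q ![1, l.val] • ev χ ![1, l.val] - ev (inf φ ξ) ![1, l.val] - ev ψ ![1, l.val],
    lf q w - lf q (ξ *ᵥ q))

theorem lq_iff : Lq φ q χ ξ ψ w = 0 ↔ Rl φ q χ ξ ψ w := by
  refine ⟨fun k => ⟨fun z => ?_, sub_eq_zero.1 (congrArg (·.2) k)⟩,
    fun k => Prod.ext (funext fun l => ?_) (sub_eq_zero.2 k.e2)⟩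
  · have k1 := (((hm_l q χ).sub (hm_ev (inf φ ξ))).sub (hm_ev ψ)).ev_co z
    have k2 : co (d + 1) (fun z => lf q z • ev χ z - ev (inf φ ξ) z - ev ψ z) = 0 :=
      funext fun i => Finset.sum_eq_zero fun l _ =>
        smul_eq_zero_of_right _ (congrFun (congrArg (·.1) k) l)
    rw [k2, ev_zero, sub_sub, ev_inf] at k1
    exact sub_eq_zero.1 k1.symm
  · show _ - ev (inf _ _) _ - _ = 0
    rw [k.e1, ev_inf, sub_sub, sub_self]

theorem lq_add :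
    Lq φ q (χ + χ') (ξ + ξ') (ψ + ψ') (w + w') = Lq φ q χ ξ ψ w + Lq φ q χ' ξ' ψ' w' := by
  refine Prod.ext (funext fun l => ?_) ?_
  · simp only [Lq, ev_inf, Prod.fst_add, Matrix.add_mulVec, map_add, ev_add, smul_add, Pi.add_apply]
    abel
  · simp only [Lq, Prod.snd_add, Matrix.add_mulVec, lf_add]
    ring

theorem lq_smul (c : ℂ) : Lq φ q (c • χ) (c • ξ) (c • ψ) (c • w) = c • Lq φ q χ ξ ψ w := by
  refine Prod.ext (funext fun l => ?_) ?_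
  · simp only [Lq, ev_inf, Prod.smul_fst, Matrix.smul_mulVec, map_smul, ev_smul, smul_sub,
      Pi.smul_apply, smul_comm c]
  · simp only [Lq, Prod.smul_snd, Matrix.smul_mulVec, lf_smul, smul_eq_mul, mul_sub]

theorem lq_sm {T : Type} [NormedAddCommGroup T] [NormedSpace ℝ T] {t₀ : T} {φ ψ : T → BF (d + 1) N}
    {q w : T → Cm 2} (hφ : ContDiffAt ℝ ∞ φ t₀) (hq : ContDiffAt ℝ ∞ q t₀)
    (hψ : ContDiffAt ℝ ∞ ψ t₀) (hw : ContDiffAt ℝ ∞ w t₀) :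
    ContDiffAt ℝ ∞ (fun t => Lq (φ t) (q t) χ ξ (ψ t) (w t)) t₀ := by
  have h1 : ∀ {a b : T → Cm 2}, ContDiffAt ℝ ∞ a t₀ → ContDiffAt ℝ ∞ b t₀ →
      ContDiffAt ℝ ∞ (fun t => lf (a t) (b t)) t₀ := fun ha hb =>
    ((contDiffAt_pi.1 ha 0).mul (contDiffAt_pi.1 hb 1)).sub
      ((contDiffAt_pi.1 ha 1).mul (contDiffAt_pi.1 hb 0))
  have h2 : ContDiffAt ℝ ∞ (fun t => ξ *ᵥ q t) t₀ := contDiffAt_pi.2 fun a =>
    ContDiffAt.sum (s := Finset.univ) (f := fun b t => ξ a b * q t b) fun b _ =>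
      contDiffAt_const.mul (contDiffAt_pi.1 hq b)
  have h3 : ∀ z, ContDiffAt ℝ ∞ (fun t => ev (inf (φ t) ξ) z) t₀ := fun z => by
    simp only [ev_inf, fd_sum]
    exact ContDiffAt.sum fun i _ => (contDiffAt_pi.1 hφ i).const_smul _
  have h4 : ∀ z, ContDiffAt ℝ ∞ (fun t => ev (ψ t) z) t₀ := fun z =>
    ContDiffAt.sum fun i _ => (contDiffAt_pi.1 hψ i).const_smul _
  exact (contDiffAt_pi.2 fun l => (((h1 hq contDiffAt_const).smul contDiffAt_const).sub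
    (h3 _)).sub (h4 _)).prodMk ((h1 hq hw).sub (h1 hq h2))

/-- smooth dependence of the representatives -/
theorem sm_rl {T C G : Type} [NormedAddCommGroup T] [NormedSpace ℝ T] [NormedAddCommGroup C]
    [NormedSpace ℝ C] [NormedSpace ℂ C] [IsScalarTower ℝ ℂ C] [FiniteDimensional ℂ C]
    [NormedAddCommGroup G] [NormedSpace ℝ G] [NormedSpace ℂ G] [IsScalarTower ℝ ℂ G]
    [FiniteDimensional ℂ G] {t₀ : T} {φ : T → BF (d + 1) N} {q : T → Cm 2}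
    {ψ : T → C →ₗ[ℂ] BF (d + 1) N} {w : T → C →ₗ[ℂ] Cm 2} (π : BF d N × M2 × C →ₗ[ℂ] G)
    (hφ : ContDiffAt ℝ ∞ φ t₀) (hq : ContDiffAt ℝ ∞ q t₀)
    (hψ : ∀ c, ContDiffAt ℝ ∞ (fun t => ψ t c) t₀) (hw : ∀ c, ContDiffAt ℝ ∞ (fun t => w t c) t₀)
    (hi : ∀ x, Rl (φ t₀) (q t₀) x.1 x.2.1 (ψ t₀ x.2.2) (w t₀ x.2.2) → π x = 0 → x = 0)
    {x : T → BF d N × M2 × C} (hb : ContDiffAt ℝ ∞ (fun t => π (x t)) t₀)
    (h : ∀ᶠ t in 𝓝 t₀, Rl (φ t) (q t) (x t).1 (x t).2.1 (ψ t (x t).2.2) (w t (x t).2.2)) :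
    ContDiffAt ℝ ∞ x t₀ := by
  have h1 : ∀ t, IsLinearMap ℂ fun x : BF d N × M2 × C =>
      (Lq (φ t) (q t) x.1 x.2.1 (ψ t x.2.2) (w t x.2.2), π x) := fun t =>
    ⟨fun x y => Prod.ext ((congrArg₂ (Lq _ _ _ _) (map_add _ _ _) (map_add _ _ _)).trans lq_add)
      (map_add π x y), fun c x => Prod.ext ((congrArg₂ (Lq _ _ _ _) (map_smul _ _ _)
        (map_smul _ _ _)).trans (lq_smul c)) (map_smul π c x)⟩
  exact solve h1 (fun x => (lq_sm hφ hq (hψ _) (hw _)).prodMk contDiffAt_const)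
    (fun x k => hi x (lq_iff.1 (congrArg (·.1) k)) (congrArg (·.2) k))
    (contDiffAt_const.prodMk hb) (h.mono fun t k => Prod.ext (lq_iff.2 k) rfl)

end Vale.Agent.P280Z.Cv.I4x
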