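import Vale.Agent.P280Z.Cv.I4a
import Vale.Agent.P280Z.Cv.Sk
import Vale.Agent.P281Z.Pb.Api

/-!
# P280Z, row I4: tangent vectors of the universal curve and binary forms
-/

open scoped Manifold ContDiff Topology Matrix Matrix.Norms.Elementwise
open Set Filter
open Vale.Agent.P272.K Vale.Agent.P285.H281.FD Vale.Agent.P281Z
open Vale.Agent.P277Z (Hol at_chart)
open Vale.Agent.P277Z.Slc (lin dd)
open Vale.Agent.P280Z.Mp hiding Fam
open Vale.Agent.P280Z.Pu (ap p1 p2)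

noncomputable section

namespace Vale.Agent.P280Z.Cv.I4x

section calc0
variable {n p : ℕ} {X Y : Type} [TopologicalSpace X] [ChartedSpace (Cm n) X] [TopologicalSpace Y]
  [ChartedSpace (Cm p) Y] {V V' : Type} [NormedAddCommGroup V] [NormedSpace ℂ V]
  [NormedAddCommGroup V'] [NormedSpace ℂ V'] {x : X} {e : Chart n X} {e' : Chart p Y}

/-- the differential of a vector valued function in a chart -/
def dV (f : X → V) (e : Chart n X) (x : X) : Cm n →L[ℂ] V := fderiv ℂ (fun z => f (e.symm z)) (e x)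

theorem dV_congr {f f' : X → V} (k : ∀ᶠ y in 𝓝 x, f y = f' y) (he : At e x) :
    dV f e x = dV f' e x := EventuallyEq.fderiv_eq (at_ev he k)

theorem dV_cng {f f' : X → V} (k : ∀ᶠ y in 𝓝 x, f y = f' y) (he : At e x) (v : Cm n) :
    dV f e x v = dV f' e x v := by rw [dV_congr k he]

theorem dV_app {α : Type} [Fintype α] {f : X → α → V} (h : AnV n f x) (he : At e x) (v : Cm n)
    (a : α) : dV f e x v a = dV (fun y => f y a) e x v :=
  (congrArg (· v) ((hasFDerivAt_pi'.1 (h e he).differentiableAt.hasFDerivAt a).fderiv)).symm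

theorem anV_app {α : Type} [Fintype α] {f : X → α → V} (h : AnV n f x) (a : α) :
    AnV n (fun y => f y a) x := fun e he => analyticAt_pi_iff.1 (h e he) a

theorem anV2 {α β : Type} [Fintype α] [Fintype β] {f : X → α → β → ℂ}
    (h : ∀ a b, Hol n (fun y => f y a b) x) : AnV n f x :=
  fun e he => AnalyticAt.pi fun a => AnalyticAt.pi fun b => h a b e he

theorem dV2 {α β : Type} [Fintype α] [Fintype β] {f : X → α → β → ℂ} (h : AnV n f x) (he : At e x)
    (v : Cm n) : dV f e x v = fun a b => dd (fun y => f y a b) e x v :=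
  funext fun a => (dV_app h he v a).trans (funext fun b => dV_app (anV_app h a) he v b)

theorem dV_ev {d N : ℕ} {S : X → BF d N} {Q : X → Cm 2} (hS : AnV n S x) (hQ : AnV n Q x)
    (he : At e x) (v : Cm n) : dV (fun y => ev (S y) (Q y)) e x v =
      ev (dV S e x v) (Q x) + fderiv ℂ (ev (S x)) (Q x) (dV Q e x v) := by
  have h2 := (an_ev (d := d) (N := N)).differentiable (by simp) (S x, Q x)
  have h1 := (hS e he).differentiableAt.hasFDerivAt.prodMk (hQ e he).differentiableAt.hasFDerivAt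
  have h3 := congrArg (· v) (HasFDerivAt.comp (e x) (by
    rw [he.left_inv]
    exact h2.hasFDerivAt) h1).fderiv
  have h4 := congrArg (· (dV S e x v)) (HasFDerivAt.comp (f := fun a => (a, Q x)) (S x)
    h2.hasFDerivAt (hasFDerivAt_prodMk_left (S x) (Q x))).fderiv
  have h5 := congrArg (· (dV Q e x v)) (HasFDerivAt.comp (f := fun z => (S x, z)) (Q x)
    h2.hasFDerivAt (hasFDerivAt_prodMk_right (S x) (Q x))).fderiv
  have h6 := congrArg (· (dV S e x v)) ((evL d N (Q x)).fderiv (x := S x))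
  refine h3.trans (Eq.trans ?_ (congrArg₂ (· + ·) (h4.symm.trans h6) h5.symm))
  show fderiv ℂ _ (S x, Q x) (dV S e x v, dV Q e x v) =
    fderiv ℂ _ (S x, Q x) (dV S e x v, 0) + fderiv ℂ _ (S x, Q x) (0, dV Q e x v)
  rw [← map_add, Prod.mk_add_mk, add_zero, zero_add]

theorem dV_mv {g : X → M2} {Q : X → Cm 2} (hg : AnV n g x) (hQ : AnV n Q x) (he : At e x)
    (v : Cm n) : dV (fun y => g y *ᵥ Q y) e x v = dV g e x v *ᵥ Q x + g x *ᵥ dV Q e x v := by
  let L : M2 →L[ℂ] Cm 2 →L[ℂ] Cm 2 := LinearMap.toContinuousLinearMap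
    (LinearMap.toContinuousLinearMap.toLinearMap ∘ₗ Matrix.toLin'.toLinearMap)
  have h := congrArg (· v) ((L.hasFDerivAt.comp (e x)
    (hg e he).differentiableAt.hasFDerivAt).clm_apply (hQ e he).differentiableAt.hasFDerivAt).fderiv
  refine h.trans ((add_comm _ _).trans ?_)
  show dV g e x v *ᵥ Q (e.symm (e x)) + g (e.symm (e x)) *ᵥ dV Q e x v = _
  rw [he.left_inv]

theorem dV_smul {τ : X → ℂ} {Q : X → V} (hτ : Hol n τ x) (hQ : AnV n Q x) (he : At e x)
    (v : Cm n) : dV (fun y => τ y • Q y) e x v = dV τ e x v • Q x + τ x • dV Q e x v := by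
  have h := congrArg (· v) ((hτ e he).differentiableAt.hasFDerivAt.fun_smul
    (hQ e he).differentiableAt.hasFDerivAt).fderiv
  refine h.trans ((add_comm _ _).trans ?_)
  show dV τ e x v • Q (e.symm (e x)) + τ (e.symm (e x)) • dV Q e x v = _
  rw [he.left_inv]

variable [IsManifold 𝓘(ℂ, Cm n) ω X] [IsManifold 𝓘(ℂ, Cm p) ω Y] {f : X → Y}

theorem anV_comp [CompleteSpace V] {a : Y → V} (ha : AnV p a (f x)) (hf : HolA n p f x) :
    AnV n (fun x => a (f x)) x := fun e he => by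
  have he' := at_chart (n := p) (f x)
  refine (((hf.anV he').cmp (ha _ he')) e he).congr ?_
  filter_upwards [at_map hf.cont he he'] with z hz
  rw [hz.left_inv]

theorem dV_comp {a : Y → V} (ha : AnV p a (f x)) (hf : HolA n p f x) (he : At e x)
    (he' : At e' (f x)) (v : Cm n) :
    dV (fun x => a (f x)) e x v = dV a e' (f x) (df f e e' x v) := by
  unfold dV df
  have h0 : (fun z => a (f (e.symm z))) =ᶠ[𝓝 (e x)]
      fun z => a (e'.symm (e' (f (e.symm z)))) := by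
    filter_upwards [at_map hf.cont he he'] with z hz
    rw [hz.left_inv]
  have h1 : DifferentiableAt ℂ (fun z => a (e'.symm z)) (e' (f (e.symm (e x)))) := by
    rw [he.left_inv]
    exact (ha e' he').differentiableAt
  rw [h0.fderiv_eq, fderiv_fun_comp (e x) h1 (hf.an he he').differentiableAt, he.left_inv]
  rfl

end calc0

/-- a vector `r` with `lf q r = q i` -/
def rr (i : Fin 2) : Cm 2 := ![![0, 1], ![-1, 0]] i

theorem lf_rr (q : Cm 2) (i : Fin 2) : lf q (rr i) = q i := by fin_cases i <;> simp [lf, rr]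

section p1
variable {k : ℕ} {K : Mf k} {U : Mf (k + 1)} {P : P1 K U} {a b : P.ι} {i j : Fin 2} {u : U.X}
  {e : Chart (k + 1) U.X} {c : Chart k K.X}

theorem q_spec (hu : u ∈ P.W a i) : P.q a i u i = 1 ∧ P.θ a (P.p u) (P.q a i u) = u :=
  Classical.epsilon_spec hu.2

theorem q_lf (hu : u ∈ P.W a i) : lf (P.q a i u) (rr i) = 1 := (lf_rr _ _).trans (q_spec hu).1

theorem w_ex (h : P.Ok) (hu : P.p u ∈ P.V a) : ∃ i, u ∈ P.W a i := by
  obtain ⟨v, h1, h2⟩ := h.surj a u hu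
  obtain ⟨i, hi⟩ := Function.ne_iff.1 h1
  have h3 : (v i)⁻¹ • v ≠ 0 := smul_ne_zero (inv_ne_zero hi) h1
  exact ⟨i, hu, (v i)⁻¹ • v, inv_mul_cancel₀ hi, ((h.eq a _ _ v hu h3 h1).2
    (by rw [lf_smul', lf_self, mul_zero])).trans h2⟩

theorem prop (hq : lf (P.q a i u) (rr i) = 1) {w : Cm 2} (h : lf (P.q a i u) w = 0) :
    w = w i • P.q a i u := by
  have h1 := dec hq w
  rw [h, zero_smul, zero_sub, ← neg_smul] at h1
  have h2 := congrFun h1 i
  rw [Pi.smul_apply, ← lf_rr (P.q a i u) i, hq, smul_eq_mul, mul_one] at h2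
  rwa [h2]

theorem q_chg (h : P.Ok) (hu : u ∈ P.W a i) (hu' : u ∈ P.W b j) {g : M2}
    (hg : P.R a b (P.p u) g) : g *ᵥ P.q b j u = (g *ᵥ P.q b j u) i • P.q a i u := by
  have h1 := ne_of (q_lf hu')
  have h2 : g *ᵥ P.q b j u ≠ 0 := fun k => h.coc.det a b _ g hu.1 hu'.1 hg
    (Matrix.exists_mulVec_eq_zero_iff.1 ⟨_, h1, k⟩)
  exact prop (q_lf hu) ((h.eq a _ _ _ hu.1 (ne_of (q_lf hu)) h2).1 ((q_spec hu).2.trans
    ((q_spec hu').2.symm.trans (h.rel a b _ g _ hu.1 hu'.1 hg h1))))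

theorem lam_inj (h : P.Ok) (hu : u ∈ P.W a i) (he : At e u) (hc : At c (P.p u)) {v : Cm (k + 1)}
    (h1 : df P.p e c u v = 0) (h2 : lf (P.q a i u) (dV (P.q a i) e u v) = 0) : v = 0 := by
  have k0 : AnV (k + 1) (P.q a i) u := AnV.pi (h.qhol a i u hu)
  have k1 : ∀ᶠ y in 𝓝 u, y ∈ P.W a i := (h.opn a i).mem_nhds hu
  have k2 : dV (P.q a i) e u v = 0 := by
    rw [prop (q_lf hu) h2, dV_app k0 he, dV_congr (k1.mono fun y hy => (q_spec hy).1) he]
    simp [dV]
  have k3 : ∀ l, Hol (k + 1) (fun y => ap (c (P.p y)) (P.q a i y) l) u := fun l => by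
    refine Fin.addCases (fun l => ?_) (fun l => ?_) l
    · simpa only [ap, Fin.append_left] using (h.hol.at u).hol (hol_chart hc l)
    · simpa only [ap, Fin.append_right] using h.qhol a i u hu l
  have k4 : ∀ s z, p1 k 2 (ap s z) = s := fun s z => funext fun l => Fin.append_left _ _ l
  have k5 : ∀ s z, p2 k 2 (ap s z) = z := fun s z => funext fun l => Fin.append_right _ _ l
  have k6 : ∀ (l : Fin (k + 2)) (t : Cm (k + 2)), Hol (k + 2) (fun t : Cm (k + 2) => t l) t :=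
    fun l t => hol_chart (at_chart t) l
  have k7 := h.θhol a (k + 2) (Cm (k + 2)) (fun t => c.symm (p1 k 2 t)) (p2 k 2)
    (ap (c (P.p u)) (P.q a i u)) (holA_symm (fun l => k6 _ _) hc.1 (by
      rw [k4]
      exact hc.mem_target)) (fun l => k6 _ _) (by
      rw [k4, hc.left_inv]
      exact hu.1) (by
      rw [k5]
      exact ne_of (q_lf hu))
  have k8 := k7.an (at_chart _) (e' := e) (by
    rw [k4, k5, hc.left_inv, (q_spec hu).2]
    exact he)
  have k9 := dd_fac (f := fun y => y) (e' := e) he (AnV.pi k3) k8 (by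
    filter_upwards [k1, h.hol.cont.continuousAt.eventually (at_near hc)] with y l1 l2
    show _ = e (P.θ a (c.symm (p1 k 2 (ap _ _))) (p2 k 2 (ap _ _)))
    rw [k4, k5, l2.left_inv, (q_spec l1).2]) (ξ := v) (funext fun l => by
    refine (dV_app (AnV.pi k3) he v l).trans (Fin.addCases (fun l => ?_) (fun l => ?_) l)
    · simp only [ap, Fin.append_left]
      exact (df_apply (h.hol.at u) he hc v l).symm.trans (congrFun h1 l)
    · simp only [ap, Fin.append_right]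
      exact (dV_app k0 he v l).symm.trans (congrFun k2 l))
  rwa [df_id_self he] at k9

theorem lam_surj (h : P.Ok) (hu : u ∈ P.W a i) (he : At e u) (hc : At c (P.p u)) (v₀ : Cm k)
    (s : ℂ) : ∃ v, df P.p e c u v = v₀ ∧ lf (P.q a i u) (dV (P.q a i) e u v) = s := by
  let L : Cm (k + 1) →ₗ[ℂ] Cm k × ℂ := (df P.p e c u).toLinearMap.prod
    ((⟨⟨lf (P.q a i u), lf_add _⟩, lf_smul _⟩ : Cm 2 →ₗ[ℂ] ℂ).comp (dV (P.q a i) e u).toLinearMap)
  obtain ⟨v, hv⟩ := (LinearMap.injective_iff_surjective_of_finrank_eq_finrank (f := L)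
    (by simp)).1 ((injective_iff_map_eq_zero _).2 fun v hv =>
      lam_inj h hu he hc (congrArg (·.1) hv) (congrArg (·.2) hv)) (v₀, s)
  exact ⟨v, congrArg (·.1) hv, congrArg (·.2) hv⟩

end p1

section fam
variable {n d k : ℕ} {D : Dat n} {M : Set (BF (d + 1) D.N)} {F : Fam D (d + 1) k M} {a b : F.ι}
  {i j : Fin 2} {u u' : F.U.X} {e e' : Chart (k + 1) F.U.X} {c : Chart k F.K.X}
  {χ χ' : BF d D.N} {ξ : M2} {v v' : Cm (k + 1)}

variable (F) in
/-- `χ` and `ξ` represent the tangent vector `v` -/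
def Rx (a : F.ι) (i : Fin 2) (e : Chart (k + 1) F.U.X) (u : F.U.X) (χ : BF d D.N) (ξ : M2)
    (v : Cm (k + 1)) : Prop :=
  Rl (F.σ a (F.p u)) (F.P.q a i u) χ ξ (dV (fun u => F.σ a (F.p u)) e u v) (dV (F.P.q a i) e u v)

theorem ok (F : Fam D (d + 1) k M) : F.P.Ok := F.ok

theorem an_S (hu : F.p u ∈ F.V a) : AnV (k + 1) (fun u => F.σ a (F.p u)) u :=
  anV_comp (anV2 (F.hol a _ hu)) ((ok F).hol.at u)

theorem an_q (hu : u ∈ F.P.W a i) : AnV (k + 1) (F.P.q a i) u := AnV.pi ((ok F).qhol a i u hu)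

theorem d_S (hu : F.p u ∈ F.V a) (he : At e u) (hc : At c (F.p u)) (v : Cm (k + 1)) :
    dV (fun u => F.σ a (F.p u)) e u v =
      fun i j => dd (fun y => F.σ a y i j) c (F.p u) (df F.p e c u v) :=
  (dV_comp (anV2 (F.hol a _ hu)) ((ok F).hol.at u) he hc v).trans
    (dV2 (anV2 (F.hol a _ hu)) hc _)

theorem Rx.add {ξ' : M2} (h : Rx F a i e u χ ξ v) (h' : Rx F a i e u χ' ξ' v') :
    Rx F a i e u (χ + χ') (ξ + ξ') (v + v') := by
  unfold Rx
  rw [map_add, map_add]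
  exact Rl.add h h'

theorem Rx.smul (s : ℂ) (h : Rx F a i e u χ ξ v) : Rx F a i e u (s • χ) (s • ξ) (s • v) := by
  unfold Rx
  rw [map_smul, map_smul]
  exact Rl.smul s h

theorem rx0 : Rx F a i e u χ ξ 0 ↔ Rl (F.σ a (F.p u)) (F.P.q a i u) χ ξ 0 0 := by
  rw [Rx, map_zero, map_zero]

theorem Rx.zero (h : Rx F a i e u 0 ξ v) (hu : u ∈ F.P.W a i) (he : At e u) : ξ = 0 ∧ v = 0 := by
  have hc := at_chart (n := k) (F.p u)
  obtain ⟨h1, h2⟩ := F.ind a (F.p u) hu.1 _ hc (df F.p e (chartAt (Cm k) (F.p u)) u v) ξ (by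
    rw [← d_S hu.1 he hc]
    exact ev_inj fun z => by rw [ev_add, ev_inf, ← h.e1, ev_zero, smul_zero, ev_zero])
  exact ⟨h1, lam_inj (ok F) hu he hc h2 (by rw [h.e2, h1, Matrix.zero_mulVec, lf_zero])⟩

theorem crv (hA : D.Adm (d + 1) k M) (hu : F.p u ∈ F.V a) : Crv D.P (F.σ a (F.p u)) :=
  (hA.cd _ (F.mem a _ hu)).1

theorem Rx.tot (h : Rx F a i e u χ ξ v) (hA : D.Adm (d + 1) k M) (hu : u ∈ F.P.W a i)
    (hu' : u' ∈ F.P.W a j) (he : At e u) (he' : At e' u') (hp : F.p u = F.p u') :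
    ∃ ξ' v', Rx F a j e' u' χ ξ' v' := by
  have hc := at_chart (n := k) (F.p u)
  have hc' := at_chart (n := k) (F.p u')
  have h1 := Rl.tg h (q_lf hu) D.cone.hom (crv hA hu.1)
    (d_S hu.1 he hc v ▸ F.tg a _ hu.1 _ hc _) (F.P.q a j u')
  rw [hp] at h1
  obtain ⟨ξ', v₀, h2⟩ := F.span a _ hu'.1 _ hc' _ h1
  obtain ⟨v', h3, h4⟩ := lam_surj (ok F) hu' he' hc' v₀ (lf (F.P.q a j u') (ξ' *ᵥ F.P.q a j u'))
  refine ⟨ξ', v', fun z => ?_, h4⟩
  rw [← (hm_l _ χ).ev_co z, h2, ev_add, ev_inf, d_S hu'.1 he' hc',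
    show df F.p e' _ u' v' = v₀ from h3]
  rfl

theorem Rx.tr (h : Rx F a i e u χ ξ 0) (hA : D.Adm (d + 1) k M) (hu : u ∈ F.P.W a i)
    (hp : F.p u = F.p u') : ∃ ξ', Rx F a j e' u' χ ξ' 0 :=
  ⟨_, rx0.2 (hp ▸ (rx0.1 h).tr (q_lf hu) (crv hA hu.1).nz _)⟩

theorem pt_ker (hP : Pt D) {z : F.U.X → Cm D.N} (hz : AnV (k + 1) z u)
    (hi : ∀ᶠ y in 𝓝 u, In D.P (z y)) (he : At e u) {x : Chart n D.X.X} (hx : At x (D.pt (z u))) :
    df (fun y => D.pt (z y)) e x u v = 0 ↔ ∃ s : ℂ, dV z e u v = s • z u := by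
  obtain ⟨h, hh⟩ := D.lb.cover (D.pt (z u))
  obtain ⟨s, hs, k5⟩ := hP.spec _ hi.self_of_nhds h hh
  obtain ⟨s', k6⟩ := (hP.hol (k + 1) F.U.X z u hz.hol hi).2 h s hh k5 e x he hx v
  have k7 : ∀ l, z u l = s * D.s h (D.pt (z u)) l := fun l => congrFun k5 l
  have k8 : ∀ l, dV z e u v l = s * dV (D.s h) x (D.pt (z u))
      (df (fun y => D.pt (z y)) e x u v) l + s' * D.s h (D.pt (z u)) l := fun l => by
    rw [dV_app hz he, dV_app (f := D.s h) (D.lifts.hol h _ hh) hx]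
    exact k6 l
  refine ⟨fun k => ⟨s' / s, funext fun l => ?_⟩, fun ⟨t, k⟩ =>
    D.lifts.imm h _ hh x hx _ (t - s' / s) (funext fun l => mul_left_cancel₀ hs ?_)⟩
  · rw [k8, k, map_zero, Pi.smul_apply, k7, Pi.zero_apply, smul_eq_mul]
    field_simp
    ring
  · have k9 := (k8 l).symm.trans (congrFun k l)
    rw [Pi.smul_apply, k7, smul_eq_mul] at k9
    refine (eq_sub_of_add_eq k9).trans ?_
    rw [Pi.smul_apply, smul_eq_mul]
    field_simp

theorem ker_iff (hP : Pt D) (hA : D.Adm (d + 1) k M) (hu : u ∈ F.P.W a i) (he : At e u)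
    {x : Chart n D.X.X} (hx : At x (F.e u)) : df F.e e x u v = 0 ↔ ∃ s : ℂ,
      ev (dV (fun u => F.σ a (F.p u)) e u v) (F.P.q a i u) + fderiv ℂ (ev (F.σ a (F.p u)))
        (F.P.q a i u) (dV (F.P.q a i) e u v) = s • ev (F.σ a (F.p u)) (F.P.q a i u) := by
  have k1 : ∀ᶠ y in 𝓝 u, y ∈ F.P.W a i := ((ok F).opn a i).mem_nhds hu
  have k2 : ∀ y ∈ F.P.W a i, F.e y = D.pt (ev (F.σ a (F.p y)) (F.P.q a i y)) := fun y hy =>
    (congrArg F.e (q_spec hy).2.symm).trans (F.e_θ a _ _ hy.1 (ne_of (q_lf hy)))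
  have k3 : ∀ y ∈ F.P.W a i, In D.P (ev (F.σ a (F.p y)) (F.P.q a i y)) := fun y hy =>
    crv hA hy.1 _ (ne_of (q_lf hy))
  have k4 : AnV (k + 1) (fun y => ev (F.σ a (F.p y)) (F.P.q a i y)) u := fun e he =>
    (an_ev' (an_S hu.1 e he).contDiffAt (an_q hu e he).contDiffAt).analyticAt
  rw [← dV_ev (an_S hu.1) (an_q hu) he, df_congr (k1.mono k2) he]
  exact pt_ker hP k4 (k1.mono k3) he (k2 u hu ▸ hx)

theorem Rx.chg (h : Rx F a i e u χ ξ v) (hu : u ∈ F.P.W a i) (hu' : u ∈ F.P.W b j) (he : At e u)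
    {g : F.K.X → M2} (hg : ∀ i j, Hol k (fun y => g y i j) (F.p u))
    (hR : ∀ᶠ y in 𝓝 (F.p u), F.toMod.R a b y (g y)) :
    ∃ ξ', Rx F b j e u ((g (F.p u)).det • act χ (g (F.p u))) ξ'
      ((g (F.p u) *ᵥ F.P.q b j u) i • v) := by
  have hp := (ok F).hol.at u
  have k1 : AnV (k + 1) (fun y => g (F.p y)) u := anV_comp (anV2 hg) hp
  have k2 : ∀ᶠ y in 𝓝 u, F.toMod.R a b (F.p y) (g (F.p y)) := hp.cont.eventually hR
  have k3 : ∀ {Q : F.U.X → Cm 2}, AnV (k + 1) Q u → AnV (k + 1) (fun y => g (F.p y) *ᵥ Q y) u :=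
    fun hQ e he => (an_mv' (k1 e he).contDiffAt (hQ e he).contDiffAt).analyticAt
  have k4 : ∀ z : Cm 2, dV (fun _ : F.U.X => z) e u v = 0 := fun z => by simp [dV]
  obtain ⟨ξ', k⟩ := Rl.act h (G := dV (fun y => g (F.p y)) e u v) (q' := F.P.q b j u)
    (ψ' := dV (fun u => F.σ b (F.p u)) e u v) (w' := dV (F.P.q b j) e u v)
    hR.self_of_nhds.1 (q_chg (ok F) hu hu' hR.self_of_nhds) (by
      rw [← dV_mv k1 (an_q hu') he, ← dV_smul ((k3 (an_q hu')).hol i) (an_q hu) he]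
      refine dV_cng ?_ he v
      filter_upwards [k2, ((ok F).opn a i).mem_nhds hu, ((ok F).opn b j).mem_nhds hu']
        with y l1 l2 l3 using q_chg (ok F) l2 l3 l1) fun z => by
      have l1 := dV_ev (an_S hu'.1) (anV_const z u) he v
      have l2 := dV_ev (an_S hu.1) (k3 (anV_const z u)) he v
      rw [k4, map_zero, add_zero] at l1
      rw [dV_mv k1 (anV_const z u) he, k4, Matrix.mulVec_zero, add_zero] at l2
      refine l1.symm.trans ((dV_cng (k2.mono fun y hy => ?_) he v).trans l2)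
      exact (congrArg (ev · z) hy.2).trans (ev_act _ _ _)
  refine ⟨ξ', ?_⟩
  unfold Rx
  rw [map_smul, map_smul, hR.self_of_nhds.2]
  exact k

theorem rx_chart (hu : u ∈ F.P.W a i) (he : At e u) (he' : At e' u) :
    Rx F a i e u χ ξ (df (fun y => y) e' e u v) ↔ Rx F a i e' u χ ξ v := by
  rw [Rx, Rx, ← dV_comp (f := fun y => y) (an_S hu.1) (holM_id.at u) he' he,
    ← dV_comp (f := fun y => y) (an_q hu) (holM_id.at u) he' he]

end fam

end Vale.Agent.P280Z.Cv.I4x
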