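import Vale.Agent.P280Z.Cv.Sk3
import Vale.Agent.P280Z.Gm.Defs
import Vale.Agent.P281Z.Mf.Adj
import Vale.Agent.P281Z.Mf.Sub
import Vale.Agent.P281Z.Sc.Bd

/-!
# P280Z, block Cv: row NBASE
-/

open scoped Manifold ContDiff Topology Matrix
open Set Filter
open Vale.Agent.P272.K Vale.Agent.P285.H281.FD Vale.Agent.P281Z
open Vale.Agent.P277Z (Hol at_chart)
open Vale.Agent.P277 (Bd.inv)
open Vale.Agent.P277.HD (pull)

noncomputable section

namespace Vale.Agent.P280Z.Cv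

namespace NbH

variable {T : CT} {n m : ℕ}

theorem lb_inv {V : Mf n} {L : Bd V.X} (h : IsLB n L) : IsLB n (Bd.inv L) where
  isOpen := h.isOpen
  cover := h.cover
  holo a b e x he ha hb := ((lb_hol h ha hb e he).inv (by
    rw [e.left_inv he.2]
    exact h.ne_zero a b x ha hb)).contDiffAt
  ne_zero a b x ha hb := inv_ne_zero (h.ne_zero a b x ha hb)
  cocycle a b c x ha hb hc := (mul_inv _ _).symm.trans (congrArg _ (h.cocycle a b c x ha hb hc))

/-- complete intersection curves -/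
theorem ladder (hT : T.OK) (ber : Ld.BER) {r : ℕ} (d : ℕ) : ∀ (W : Mf (d + 1)) (A : Bd W.X)
    (s : Fin r → A.ι → W.X → ℂ), IsLB (d + 1) A → (∀ j, IsSec (d + 1) A (s j)) → Ld.Bs A s = ∅ →
    ∃ (Z : Mf 1) (j : Z.X → W.X) (hj : HolM 1 (d + 1) j), (∀ z, Imm 1 (d + 1) j z) ∧
      ∀ a, T.int W (T.c1 W A ^ d * a) = T.int Z (T.pull hj a) := by
  induction d with
  | zero =>
    refine fun W A s _ _ _ => ⟨W, fun x => x, holM_id, imm_id, fun a => ?_⟩
    rw [pow_zero, one_mul]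
    exact congrArg _ (hT.rg.pull_id _ a).symm
  | succ d ih =>
    intro W A s hA hs h0
    obtain ⟨c, Y, i, hi⟩ :=
      (ber W A _ s hA hs (h0 ▸ countable_empty) fun x hx => (h0.le hx).elim).exists
    have hh := hi.emb.hol
    obtain ⟨Z, j, hj, h1, h2⟩ := ih Y (pull i A) (fun k a y => s k a (i y)) (hh.lb hA)
      (fun k => hh.sec (hs k)) (eq_empty_of_forall_notMem fun y hy => h0.le (show i y ∈ Ld.Bs A s from hy))
    refine ⟨Z, fun z => i (j z), hh.comp hj,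
      fun z => Imm.comp (hh.at _) (hj.at _) (hi.emb.imm _) (h1 z), fun a => ?_⟩
    rw [pow_succ', mul_assoc, hT.pl hi, map_mul, map_pow, ← hT.c1.pull hh A hA, h2,
      hT.rg.pull_comp hj hh (hh.comp hj) fun _ => rfl]

theorem imm_pos (hT : T.OK) {Z : Mf 1} {V : Mf n} {p : Z.X → V.X} (hp : HolM 1 n p) {x : Z.X}
    (hi : Imm 1 n p x) {h : T.H V} (hh : T.Kc V h) : 0 < T.int Z (T.pull hp h) := by
  have k : (⊥ : Submodule ℂ (Cm n)).comap (Df 1 n p x) = ⊥ :=
    LinearMap.ker_eq_bot.2 (hi _ _ (at_chart _) (at_chart _))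
  simpa using hT.po.pos 0 1 x (hT.po.pull hp hh) (hT.po.pull hp hh) rfl k
    (by rw [k.le.antisymm bot_le]; simp)

/-- a class of positive degree on a connected curve is a Kähler class -/
theorem crv (hT : T.OK) {Z : Mf 1} (hc : ConnectedSpace Z.X) {h a : T.H Z} (hh : T.Kc Z h)
    (ha : T.Dg Z 1 a) (h0 : 0 < T.int Z a) : T.Kc Z a := by
  have h1 : 0 < T.int Z h := by
    simpa using hT.po.pos 0 1 (Classical.arbitrary _) hh hh rfl rfl (by simp)
  have h2 : T.Dg Z 1 (a - (T.int Z a / T.int Z h) • h) := by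
    rw [CT.Dg, map_sub, map_smul, ha, hT.po.deg hh]
  have h3 : T.int Z (a - (T.int Z a / T.int Z h) • h) = 0 := by
    rw [map_sub, map_smul, smul_eq_mul, div_mul_cancel₀ _ h1.ne', sub_self]
  have h4 : a - (T.int Z a / T.int Z h) • h = 0 := by
    generalize a - (T.int Z a / T.int Z h) • h = c at h2 h3
    refine hT.ho.pd Z ((hT.po.kah Z).2 ⟨h, hh⟩) c fun b => ?_
    rw [← hT.rg.pr_sum Z b, Finset.mul_sum, map_sum]
    refine Finset.sum_eq_zero fun k _ => ?_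
    have hb : T.Dg Z k (T.pr Z k b) := (hT.rg.pr_pr Z k k b).trans (if_pos rfl)
    cases k with
    | zero =>
      obtain ⟨r, hr⟩ := hT.rg.h0 Z inferInstance _ hb
      rw [hr, mul_comm, ← Algebra.smul_def, map_smul, h3, smul_zero]
    | succ k =>
      rw [← hT.rg.int_pr, ← hT.rg.dg_mul Z _ _ _ _ h2 hb, hT.rg.pr_pr, if_neg (by omega), map_zero]
  rw [sub_eq_zero.1 h4]
  exact hT.po.smul _ (div_pos h0 h1) hh

/-- the quotient of the pull back of the tangent bundle of the total space -/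
theorem quo {Y C : Mf 1} {V : Mf n} {B : Mf m} {π : V.X → B.X} {f : C.X → B.X} {G : Y.X → V.X}
    {φ : Y.X → C.X} {L : Bd C.X} {α : Chart m B.X → L.ι → C.X → Cm m} (hπ : Sub n m π)
    (hG : HolM 1 n G) (hφ : HolM 1 1 φ) (e0 : ∀ y, π (G y) = f (φ y)) (hL : IsLB 1 L)
    (hα : QuoC m f L α) : QuoC n G (pull φ L) fun e a y =>
      α (chartAt (Cm m) (π (G y))) a (φ y) ᵥ* dfM π e (chartAt (Cm m) (π (G y))) (G y) := by
  have h0 : ∀ y, At (chartAt (Cm m) (π (G y))) (f (φ y)) := fun y => e0 y ▸ at_chart _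
  refine ⟨fun e a z he ha c hc => ?_, fun e a z he ha k => hα.nz _ a _ (h0 z) ha ?_,
    fun e a b z he ha hb => ?_, fun e e' a z he he' ha => ?_⟩
  · have h1 : ∀ q, Hol 1 (fun y => (α (chartAt (Cm m) (π (G z))) a (φ y) ᵥ*
        dfM π e (chartAt (Cm m) (π (G z))) (G y)) q) z := fun q =>
      Hol.sum Finset.univ fun p _ => (hφ.hol (a := fun t => α _ a t p) fun c hc =>
        analyticAt_pi_iff.1 (hα.hol _ a _ (h0 z) ha c hc) p).mul
          (hG.hol (hol_dfM (hπ.hol.at _) he (at_chart _) p q))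
    refine AnalyticAt.pi fun q => (h1 q).congr (b := fun y => (α (chartAt (Cm m) (π (G y))) a (φ y) ᵥ*
      dfM π e (chartAt (Cm m) (π (G y))) (G y)) q) ?_ c hc
    filter_upwards [hG.cont.continuousAt.eventually (at_near he),
      (hπ.hol.comp hG).cont.continuousAt.eventually (at_near (at_chart (n := m) (π (G z)))),
      hφ.cont.continuousAt.eventually (lb_near hL ha)] with y a1 a2 a3
    rw [hα.chg _ _ a _ (h0 y) (e0 y ▸ a2) a3, Matrix.vecMul_vecMul, ← e0,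
      ← dfM_chg' (hπ.hol.at _) a1 (at_chart _) a2]
  · have := congrArg (· ᵥ* rinv (dfM π e (chartAt (Cm m) (π (G z))) (G z))) k
    simpa only [Matrix.vecMul_vecMul, (hπ.sbm _).rinv he (at_chart _), Matrix.vecMul_one,
      Matrix.zero_vecMul] using this
  · rw [hα.fr _ a b _ (h0 z) ha hb, Matrix.smul_vecMul]
    rfl
  · rw [Matrix.vecMul_vecMul, ← dfM_chg (hπ.hol.at _) he' he (at_chart _)]

end NbH

open NbH in
/-- row NBASE -/
theorem nbase_of' (coh : COH) (fp : FP) (ld : Ld.LD) : NBASE := by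
  intro n m V B π H hπ hc hH hP hV C f L α hC hf hL hα hp
  obtain ⟨T, hT⟩ := coh
  obtain ⟨c₀⟩ : Nonempty C.X := inferInstance
  obtain ⟨x₀, hx₀⟩ := (hc (f c₀)).nonempty
  obtain ⟨d, hd⟩ := Nat.exists_eq_add_of_le (hπ.sbm x₀).le
  obtain ⟨W, f', g', h, -⟩ := fp (d + 1) π f (by omega) hπ hf
  have hL' := lb_inv hL
  have k1 := hT.c1.pos C _ hL' hp
  have hA := lb_mul (h.hg'.lb hH) (h.sf'.hol.lb hL')
  have k2 : T.Kc W (T.c1 W ((pull g' H).mul (pull f' (Bd.inv L)))) := by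
    rw [hT.c1.mul W _ _ (h.hg'.lb hH) (h.sf'.hol.lb hL'), hT.c1.pull h.hg' H hH,
      hT.c1.pull h.sf'.hol _ hL']
    exact hT.po.mono (hT.po.add (hT.po.pull h.hg' (hT.c1.pos V H hH hP)) (hT.po.pull h.sf'.hol k1))
      fun z v hv => h.imm z v hv.2 hv.1
  obtain ⟨k, r, s, hk, hs⟩ := ld.va W _ hA (hT.kp W _ hA k2)
  have k3 := hT.po.smul (k : ℝ) (Nat.cast_pos.2 hk) k2
  rw [← hT.c1.pow W _ k hA] at k3
  obtain ⟨Z, j, hj, h1, h2⟩ := ladder hT ld.ber d W _ s hs.lb (fun i => (hs.sec i).1) hs.bpf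
  obtain ⟨z₀, -, -⟩ := h.uniq c₀ x₀ (Eq.symm hx₀)
  have k4 := hT.po.pos 1 d z₀ (hT.po.pull h.sf'.hol k1) k3 (add_comm 1 d) rfl (by
    have := (Df (d + 1) 1 f' z₀).finrank_range_add_finrank_ker
    rw [(LinearMap.range_eq_top (f := Df (d + 1) 1 f' z₀)).2
      (h.sf'.sbm z₀ _ _ (at_chart _) (at_chart _)), finrank_top,
      Module.finrank_fin_fun, Module.finrank_fin_fun] at this
    exact this.le)
  have hq := h.sf'.hol.comp hj
  rw [pow_one, mul_comm, h2, ← hT.rg.pull_comp hj h.sf'.hol hq fun _ => rfl,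
    ← hT.c1.deg C (Bd.inv L)] at k4
  obtain ⟨x, hx⟩ := not_forall.1 fun k => k4.ne' (by rw [hT.rg.van hq 1 k, map_zero])
  have k5 : Imm 1 1 (fun z => f' (j z)) x := imm_iff_sbm.2 (.of_chart (hq.at x) (at_chart _)
    (at_chart _) (LinearMap.range_eq_top.1 (Submodule.eq_top_of_finrank_eq
      (le_antisymm (Submodule.finrank_le _) ((Module.finrank_fin_fun ℂ).trans_le (not_lt.1 hx))))))
  obtain ⟨Y, i, hY, hi⟩ := comp_emb Z x
  obtain ⟨y, rfl⟩ := hi.ex mem_connectedComponent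
  have hφ := hq.comp hi.hol
  have hw := hj.comp hi.hol
  refine hV Y _ _ _ hY (h.hg'.comp hw) (hφ.lb hL)
    (quo hπ (h.hg'.comp hw) hφ (fun _ => h.comm _) hL hα) (hT.kp Y _ (hφ.lb hL') ?_)
  refine (congrArg (T.Kc Y) (hT.c1.pull hφ _ hL')).mpr ?_
  refine crv hT hY (hT.po.mono (hT.po.pull hw k3) fun z => (LinearMap.ker_eq_bot.2
    (Imm.comp (hj.at _) (hi.hol.at z) (h1 _) (hi.imm z) _ _ (at_chart _) (at_chart _))).le) ?_
    (imm_pos hT hφ (Imm.comp (g := fun z => f' (j z)) (hq.at _) (hi.hol.at y) k5 (hi.imm y)) k1)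
  rw [← hT.c1.pull hφ _ hL']
  exact hT.c1.deg Y _

theorem nbase_of (coh : COH) (fp : FP) (ld : Ld.LD) (_ : Gm.SIM) : NBASE := nbase_of' coh fp ld

end Vale.Agent.P280Z.Cv
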