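import Vale.Agent.P280Z.Cv.Sk3
import Vale.Agent.P280Z.Cv.Dge
import Vale.Agent.P280Z.Cv.Pt
import Vale.Agent.P280Z.Cv.Frm
import Vale.Agent.P280Z.Cv.Dim
import Vale.Agent.P280Z.Cv.Nef
import Vale.Agent.P281Z.Mf.Fib
import Vale.Agent.P281Z.Sc.Bd
import Vale.Agent.P277Z.Slc.Adj

/-!
# P280Z, block Cv: row NFIB
-/

open scoped Manifold ContDiff Topology Matrix
open Set Filter
open Vale.Agent.P272.K Vale.Agent.P285.H281.FD Vale.Agent.P281Z
open Vale.Agent.P277Z (Hol at_chart)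
open Vale.Agent.P277Z.Slc (dd)
open Vale.Agent.P280Z.Mp (BF ev Jm In Crv Tg Gen ev_arg)

noncomputable section

namespace Vale.Agent.P280Z.Cv

namespace NfH

open RcH NefA

/-- a vector field along a rational curve -/
structure VF (n : ℕ) {X : Type} [TopologicalSpace X] [ChartedSpace (Cm n) X] (G : Cm 2 → X)
    (ξ : Chart n X → Cm 2 → Cm n) : Prop where
  an : ∀ e, ∀ p ≠ 0, At e (G p) → AnalyticAt ℂ (ξ e) p
  hom : ∀ e, ∀ p ≠ 0, At e (G p) → ∀ c : ℂ, c ≠ 0 → ξ e (c • p) = ξ e p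
  chg : ∀ e e', ∀ p ≠ 0, At e (G p) → At e' (G p) → ξ e' p = jacM e e' (G p) *ᵥ ξ e p

theorem jac_self {n : ℕ} {X : Type} [TopologicalSpace X] [ChartedSpace (Cm n) X]
    [IsManifold 𝓘(ℂ, Cm n) ω X] {e : Chart n X} {x : X} (h : At e x) : jacM e e x = 1 := by
  rw [← dfM_id h h, dfM_id_self h]

section gen

variable {n d : ℕ} {D : Dat n} {a a' : D.H.ι} {e e' : Chart n D.X.X} {z w : Cm D.N} {v v' : Cm n}

variable (D a e z w v) in
/-- `v` is the tangent vector given by `w` -/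
def R : Prop := ∃ c : ℂ, w = ∑ l, (Fin.cons c v : Fin (n + 1) → ℂ) l • Wm D a e z l

variable (P : Pt D)
include P

theorem li (h : Ok D a e z) : LinearIndependent ℂ (Wm D a e z) := by
  refine Fintype.linearIndependent_iff.2 fun g hg => ?_
  rw [← Fin.cons_self_tail g, sum_w] at hg
  have hs := D.lifts.hol a _ h.ua e h.ch
  have k : Fin.tail g = 0 := by
    refine D.lifts.imm a _ h.ua e h.ch _ (-g 0) (smul_right_injective _ (h.cs P).1 ?_)
    have e1 : fderiv ℂ (fun y => D.s a (e.symm y)) (e (D.pt z)) (Fin.tail g) =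
        Sd D a e (D.pt z) (Fin.tail g) := by
      rw [fderiv_pi fun i => (analyticAt_pi_iff.1 hs i).differentiableAt]
      rfl
    show _ • _ = _ • _
    rw [e1, smul_comm, ← (h.cs P).2, neg_smul, eq_neg_iff_add_eq_zero, hg]
  rw [k, map_zero, smul_zero, zero_add, smul_eq_zero, or_iff_left h.mem.1] at hg
  exact Fin.cases hg (congrFun k)

theorem R.uniq (h : Ok D a e z) (k : R D a e z w v) (k' : R D a e z w v') : v = v' := by
  obtain ⟨c, k⟩ := k
  obtain ⟨c', k'⟩ := k'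
  exact funext fun l => Fintype.linearIndependent_iffₛ.1 (li P h) _ _ (k.symm.trans k') l.succ

theorem R.chg (h : Ok D a e z) (h' : Ok D a' e' z) (k : R D a e z w v) :
    R D a' e' z w (jacM e e' (D.pt z) *ᵥ v) := by
  obtain ⟨c, rfl⟩ := k
  choose τ hτ using h.chg P h'
  refine ⟨c + ∑ k, v k * τ k, ?_⟩
  rw [Fin.sum_univ_succ, Fin.sum_univ_succ]
  simp only [Fin.cons_zero, Fin.cons_succ, hτ, Fin.sum_univ_succ, smul_add, Finset.sum_add_distrib,
    add_smul, Finset.sum_smul, Finset.smul_sum, smul_smul, Matrix.mulVec, dotProduct, add_assoc]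
  rw [Finset.sum_comm]
  simp only [mul_comm]
  rfl

theorem R.ex (h : Ok D a e z) (hw : Jm D.P z *ᵥ w = 0) : ∃ v, R D a e z w v :=
  let ⟨u, k⟩ := h.span P hw
  ⟨Fin.tail u, u 0, by rwa [Fin.cons_self_tail]⟩

theorem gen {φ : BF d D.N} (hφ : Crv D.P φ) (hg : Gen D.P φ) {G : Cm 2 → D.X.X}
    (hG : ∀ p ≠ 0, D.pt (ev φ p) = G p) {p₀ : Cm 2} (h0 : p₀ ≠ 0) {e₀ : Chart n D.X.X}
    (he : At e₀ (G p₀)) (v₀ : Cm n) : ∃ ξ, VF n G ξ ∧ ξ e₀ p₀ = v₀ := by
  have ok : ∀ {e p}, p ≠ 0 → At e (G p) → ∃ a, Ok D a e (ev φ p) := fun {e p} hp he =>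
    let ⟨a, ha⟩ := D.lb.cover (D.pt (ev φ p))
    ⟨a, hφ _ hp, ha, (hG p hp).symm ▸ he⟩
  obtain ⟨a₀, o⟩ := ok h0 he
  obtain ⟨b, hb, eb⟩ := hg p₀ h0
    (∑ l, (Fin.cons 0 v₀ : Fin (n + 1) → ℂ) l • Wm D a₀ e₀ (ev φ p₀) l) (by
      rw [Matrix.mulVec_sum]
      exact Finset.sum_eq_zero fun l _ => by rw [Matrix.mulVec_smul, o.wk P, smul_zero])
  let ξ : Chart n D.X.X → Cm 2 → Cm n := fun e p =>
    Classical.epsilon fun v => ∃ a, Ok D a e (ev φ p) ∧ R D a e (ev φ p) (ev b p) v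
  have sp : ∀ {a e p v}, Ok D a e (ev φ p) → R D a e (ev φ p) (ev b p) v → ξ e p = v :=
    fun {a e p v} h k => by
      obtain ⟨a', h', k'⟩ := Classical.epsilon_spec
        (p := fun v => ∃ a, Ok D a e (ev φ p) ∧ R D a e (ev φ p) (ev b p) v) ⟨v, a, h, k⟩
      have := k'.chg P h' h
      rw [jac_self h.ch, Matrix.one_mulVec] at this
      exact this.uniq P h k
  refine ⟨ξ, ⟨fun e p hp he => ?_, fun e p hp he c hc => ?_, fun e e' p hp he he' => ?_⟩,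
    sp o ⟨0, eb⟩⟩
  · obtain ⟨a, h⟩ := ok hp he
    let U : Cm 2 → Fin (n + 1) → ℂ := fun q =>
      Classical.epsilon fun u => ev b q = ∑ l, u l • Wm D a e (ev φ q) l
    have k : ∀ᶠ q in 𝓝 p, Ok D a e (ev φ q) ∧ ev b q = ∑ l, U q l • Wm D a e (ev φ q) l :=
      (h.near hφ hp).2.mono fun q c => ⟨c.2, Classical.epsilon_spec (c.2.span P (hb q))⟩
    refine (analyticAt_pi_iff.2 fun l : Fin n => an_sol (h.anW P hφ hp) (an_ev b p) (li P h)
      (k.mono fun _ c => c.2) l.succ).congr (k.mono fun q c => ?_)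
    exact (sp (v := Fin.tail (U q)) c.1 ⟨U q 0, by rw [Fin.cons_self_tail]; exact c.2⟩).symm
  · obtain ⟨a, h⟩ := ok hp he
    obtain ⟨v, t, k⟩ := R.ex P h (hb p)
    obtain ⟨o', k'⟩ := h.hom P (pow_ne_zero d hc)
    rw [← ev_arg] at o' k'
    rw [sp h ⟨t, k⟩]
    refine sp o' ⟨t, ?_⟩
    rw [ev_arg, k, Finset.smul_sum]
    exact Finset.sum_congr rfl fun l _ => by rw [k', smul_comm]
  · obtain ⟨a, h⟩ := ok hp he
    obtain ⟨a', h'⟩ := ok hp he'
    obtain ⟨v, k⟩ := R.ex P h (hb p)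
    rw [sp h k, sp h' (k.chg P h h'), hG p hp]

end gen

section fib

variable {n m d : ℕ} {V : Mf n} {B : Mf m} {π : V.X → B.X} {Z : Mf d} {i : Z.X → V.X} {y : B.X}
  {F : Cm 2 → Z.X}

theorem an_dfM {n m : ℕ} {V : Mf n} {B : Mf m} {f : V.X → B.X} (hf : HolM n m f)
    {G : Cm 2 → V.X} {p : Cm 2} (hG : HolA 2 n G p) {e : Chart n V.X} {e' : Chart m B.X}
    (he : At e (G p)) (he' : At e' (f (G p))) (a : Fin m) (b : Fin n) :
    AnalyticAt ℂ (fun q => dfM f e e' (G q) a b) p :=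
  hG.hol (hol_dfM (hf.at _) he he' a b) _ (at_chart p)

theorem rc_comp {S : Set V.X} (hi : Emb d n i S) (hF : RC d F) : RC n fun p => i (F p) :=
  ⟨fun p hp => HolA.cmp (hi.hol.at _) (hF.hol p hp), fun c p hc hp => by rw [hF.hom c p hc hp],
    let ⟨p, q, hp, hq, h⟩ := hF.ncst
    ⟨p, q, hp, hq, fun c => h (hi.inj c)⟩⟩

/-- a field along a curve in the fibre which is vertical at one point is vertical -/
theorem vert (hπ : Sub n m π) (hi : Emb d n i (π ⁻¹' {y})) (hF : RC d F)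
    {ξ : Chart n V.X → Cm 2 → Cm n} (hξ : VF n (fun p => i (F p)) ξ) {e' : Chart m B.X}
    (he' : At e' y) {p p' : Cm 2} (hp : p ≠ 0) (hp' : p' ≠ 0) {e e₁ : Chart n V.X}
    (he : At e (i (F p))) (he₁ : At e₁ (i (F p'))) :
    df π e e' (i (F p)) (ξ e p) = df π e₁ e' (i (F p')) (ξ e₁ p') := by
  have hG := rc_comp hi hF
  have h1 : ∀ x, At e' (π (i x)) := fun x => (hi.fib x).symm ▸ he'
  funext j
  obtain ⟨f, f1, f2⟩ := RcH.glue (a := (0 : ℕ)) (L := Bd.can n V.X) P277Z.Slc.isLB_can hG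
    (u := fun e q => (dfM π e e' (i (F q)) *ᵥ ξ e q) j)
    (fun e q hq he => ⟨Finset.analyticAt_fun_sum Finset.univ fun k _ =>
      (an_dfM hπ.hol (hG.hol q hq) he (h1 _) j k).fun_mul
        (analyticAt_pi_iff.1 (hξ.an e q hq he) k), fun c hc => by
      rw [hF.hom c q hc hq, hξ.hom e q hq he c hc]
      simp⟩)
    fun e e₁ q hq he he₁ => by
      rw [hξ.chg e e₁ q hq he he₁, Matrix.mulVec_mulVec, ← dfM_chg (hπ.hol.at _) he₁ he (h1 _)]
  obtain ⟨c, hc⟩ := f1.pos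
  rw [← dfM_mulVec, ← dfM_mulVec, ← f2 e p hp he, ← f2 e₁ p' hp' he₁, hc p hp, hc p' hp']
  simp [ev]

/-- a vertical field comes from the fibre -/
theorem lift {S : Set V.X} (hi : Emb d n i S) (hF : RC d F) {ξ : Chart n V.X → Cm 2 → Cm n}
    (hξ : VF n (fun p => i (F p)) ξ) (hv : ∀ p ≠ 0, ∀ (c : Chart d Z.X) (e : Chart n V.X),
      At c (F p) → At e (i (F p)) → ∃ w, df i c e (F p) w = ξ e p) :
    ∃ ζ, VF d F ζ ∧ ∀ p ≠ 0, ∀ c (e : Chart n V.X), At c (F p) → At e (i (F p)) →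
      df i c e (F p) (ζ c p) = ξ e p := by
  have hG := rc_comp hi hF
  let ζ : Chart d Z.X → Cm 2 → Cm d := fun c p =>
    Classical.epsilon fun w => ∀ e, At e (i (F p)) → df i c e (F p) w = ξ e p
  have sp : ∀ p ≠ 0, ∀ c e, At c (F p) → At e (i (F p)) → df i c e (F p) (ζ c p) = ξ e p :=
    fun p hp c e hc he => by
      obtain ⟨w, hw⟩ := hv p hp c e hc he
      refine Classical.epsilon_spec
        (p := fun w => ∀ e, At e (i (F p)) → df i c e (F p) w = ξ e p) ⟨w, fun e₁ he₁ => ?_⟩ e he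
      rw [hξ.chg e e₁ p hp he he₁, ← hw, ← dfM_mulVec, ← dfM_mulVec, Matrix.mulVec_mulVec,
        ← dfM_chg' (hi.hol.at _) hc he he₁]
  refine ⟨ζ, ⟨fun c p hp hc => analyticAt_pi_iff.2 fun l => ?_, fun c p hp hc t ht => ?_,
    fun c c' p hp hc hc' => ?_⟩, sp⟩
  · have he := at_chart (n := n) (i (F p))
    set e := chartAt (Cm n) (i (F p))
    refine an_sol (M := fun q k a => dfM i c e (F q) a k) (A := ζ c)
      (fun k => analyticAt_pi_iff.2 fun a => an_dfM hi.hol (hF.hol p hp) hc he a k)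
      (hξ.an e p hp he) ?_ ?_ l
    · refine (Matrix.mulVec_injective_iff (M := dfM i c e (F p))).1 ?_
      rw [show (dfM i c e (F p)).mulVec = df i c e (F p) from funext fun v => dfM_mulVec v]
      exact hi.imm _ c e hc he
    · filter_upwards [eventually_ne_nhds hp, (hF.hol p hp).continuousAt.eventually (at_near hc),
        (hG.hol p hp).continuousAt.eventually (at_near he)] with q k1 k2 k3
      rw [← sp q k1 c e k2 k3, ← dfM_mulVec]
      funext a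
      simp [Matrix.mulVec, dotProduct, mul_comm]
  · have he := at_chart (n := n) (i (F p))
    have k := sp _ (smul_ne_zero ht hp) c
    rw [hF.hom t p ht hp] at k
    refine hi.imm _ c _ hc he ?_
    rw [k _ hc he, sp p hp c _ hc he, hξ.hom _ p hp he t ht]
  · have he := at_chart (n := n) (i (F p))
    refine hi.imm _ c' _ hc' he ?_
    rw [sp p hp c' _ hc' he, ← sp p hp c _ hc he, ← dfM_mulVec, ← dfM_mulVec,
      Matrix.mulVec_mulVec, ← dfM_chg (hi.hol.at _) hc' hc he]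

/-- the pairing of a quotient with a field -/
theorem pair (hF : RC d F) {a : ℤ} {α ζ : Chart d Z.X → Cm 2 → Cm d} (hα : Quo d F a α)
    (hζ : VF d F ζ) {p : Cm 2} (hp : p ≠ 0) {c : Chart d Z.X} (hc : At c (F p))
    (h : α c p ⬝ᵥ ζ c p ≠ 0) : 0 ≤ a := by
  obtain ⟨f, f1, f2⟩ := RcH.glue (a := a) (L := Bd.can d Z.X) P277Z.Slc.isLB_can hF
    (u := fun c q => α c q ⬝ᵥ ζ c q)
    (fun c q hq hc => ⟨Finset.analyticAt_fun_sum _ fun k _ =>
      (analyticAt_pi_iff.1 (hα.hol c q hq hc) k).fun_mul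
        (analyticAt_pi_iff.1 (hζ.an c q hq hc) k), fun t ht => by
      rw [hα.hom c q hq hc t ht, hζ.hom c q hq hc t ht, smul_dotProduct, smul_eq_mul]⟩)
    fun c c' q hq hc hc' => by
      rw [hα.chg c c' q hq hc hc', hζ.chg c c' q hq hc hc', Matrix.dotProduct_mulVec]
  exact not_lt.1 fun k => h ((f2 c p hp hc).symm.trans (f1.neg k hp))

end fib

end NfH

open NfH RcH

/-- row NFIB -/
theorem nfib_of (eqs : EQS) : NFIB := by
  intro n m d V B π H Z i y hπ hV hH hP hi hN F hF a α hα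
  obtain ⟨k, N, r, δ, P, pt, s, -, hc, h1, h2, h3⟩ := eqs n V H inferInstance hH hP
  let D : Dat n := ⟨V, N, r, δ, P, pt, H.pow k, s, hV, hc, P281Z.lb_pow hH k, h1, h2, h3⟩
  have hG := rc_comp hi hF
  obtain ⟨b₀, hb⟩ := hH.cover (i (F ![0, 1]))
  obtain ⟨l, hl⟩ := Function.ne_iff.1 (h3 b₀ _ hb).1.1
  obtain ⟨a', ha'⟩ := dge D.lb hG (D.sec l) hb hl
  obtain ⟨t, -, ht, φ, hφ, eφ⟩ := prc_of pt_all n D _ a' hG ha'
  obtain ⟨b, v, hv⟩ := frm n D t φ hφ
  have hg := (dim_of coef n D t φ hφ ht b v hv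
    (nef_of pt_all coef (rcp_of pt_all) n D t φ hN hφ ht b v hv)).2
  have hp := ne1 0
  have hc := at_chart (n := d) (F ![1, 0])
  have he := at_chart (n := n) (i (F ![1, 0]))
  have he' := at_chart (n := m) y
  have h4 : ∀ x, At (chartAt (Cm m) y) (π (i x)) := fun x => (hi.fib x).symm ▸ he'
  obtain ⟨j, hj⟩ := Function.ne_iff.1 (hα.nz _ _ hp hc)
  obtain ⟨ξ, x1, x2⟩ := gen (pt_all n D) hφ hg eφ hp he (df i _ _ _ (Pi.single j 1))
  obtain ⟨ζ, z1, z2⟩ := lift hi hF x1 fun p hp' c e k1 k2 =>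
    (hi.fib_ker hπ.hol (hπ.sbm _) k1 k2 (h4 _) _).1 ((vert hπ hi hF x1 he' hp' hp k2 he).trans
      ((hi.fib_ker hπ.hol (hπ.sbm _) hc he (h4 _) _).2 ⟨_, x2.symm⟩))
  refine pair hF hα z1 hp hc ?_
  rw [hi.imm _ _ _ hc he ((z2 _ hp _ _ hc he).trans x2), dotProduct_single, mul_one]
  exact hj

end Vale.Agent.P280Z.Cv
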