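import Vale.Agent.P280Z.Cv.Sk3
import Vale.Agent.P281Z.Pb.Api
import Vale.Agent.P281Z.Sc.Pic

/-!
# P280Z, block Cv: nef tangent bundles are nef on rational curves (row NRC)
-/

open scoped Manifold ContDiff Topology Matrix ComplexOrder
open Set Filter
open Vale.Agent.P272.K Vale.Agent.P285.H281.FD Vale.Agent.P281Z
open Vale.Agent.P277Z (at_chart)

noncomputable section

namespace Vale.Agent.P280Z.Cv

/-- **row NRC** -/
theorem nrc_of (hP : Pb.PSEX) : NRC := by
  intro n V hN F hF a α hα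
  by_contra ha
  obtain ⟨S⟩ := hP 1
  choose β hβ using S.lb.cover
  have h1 : ∀ h z, z ∈ S.H.U h → F (S.x (β z) z) = F (S.x h z) := fun h z hz => by
    rw [S.x_chg (hβ z) hz, hF.hom _ _ (S.lb.ne_zero _ _ z (hβ z) hz) (S.xnz h z hz)]
  have h2 : ∀ h z, z ∈ S.H.U h → AnV 1 (S.x h) z := fun h z hz => AnV.pi (S.xhol hz)
  refine hN S.P (fun z => F (S.x (β z) z)) (zp S.H a) (fun e h z => α e (S.x h z)) S.conn
    (fun z => ?_) (lb_zp S.lb a) ⟨fun e h z he hz => ?_, fun e h z he hz => ?_,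
      fun e h h' z he hz hz' => ?_, fun e e' h z he he' hz => ?_⟩ ?_
  · have k : ContMDiffAt 𝓘(ℂ, Cm 1) 𝓘(ℂ, Cm 2) ω
        (fun y => S.x (β z) ((chartAt (Cm 1) z).symm (chartAt (Cm 1) z y))) z :=
      ContMDiffAt.comp z (g := fun w => S.x (β z) ((chartAt (Cm 1) z).symm w))
        (contMDiffAt_iff_contDiffAt.2 (h2 _ z (hβ z) _ (at_chart z)).contDiffAt)
        (chart_contMDiffAt (at_chart z))
    refine (ContMDiffAt.comp z (g := F) (by
      rw [(at_chart z).left_inv]; exact hF.hol _ (S.xnz _ z (hβ z))) k).congr_of_eventuallyEq ?_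
    filter_upwards [(S.lb.isOpen _).mem_nhds (hβ z), at_near (at_chart (n := 1) z)] with y k1 k2
    rw [h1 _ y k1, Function.comp_apply, k2.left_inv]
  · exact (h2 h z hz).cmp (hα.hol e _ (S.xnz h z hz) (h1 h z hz ▸ he))
  · exact hα.nz e _ (S.xnz h z hz) (h1 h z hz ▸ he)
  · rw [S.x_chg hz hz']
    exact hα.hom e _ (S.xnz h' z hz') (h1 h' z hz' ▸ he) _ (S.lb.ne_zero _ _ z hz hz')
  · rw [h1 h z hz] at he he' ⊢
    exact hα.chg e e' _ (S.xnz h z hz) he he'
  · obtain ⟨ψ, k1, k2⟩ := S.pos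
    have k3 : (0 : ℝ) < -a := by
      rw [← Int.cast_neg, Int.cast_pos]
      omega
    refine ⟨fun i x => -a * ψ i x, ⟨fun i e x he hx => contDiffAt_const.mul (k1.smooth i e x he hx),
      fun i j x hi hj => ?_⟩, fun i e x he hx => ?_⟩
    · change _ = _ + Real.log (‖(S.H.g i j x ^ a)⁻¹‖ ^ 2)
      rw [k1.change i j x hi hj, norm_inv, norm_zpow, Real.log_pow, Real.log_pow, Real.log_inv,
        Real.log_zpow]
      ring
    · rw [cHess_const_mul _ ((k1.smooth i e x he hx).of_le (by norm_cast))]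
      exact (k2 i e x he hx).smul (Complex.zero_lt_real.2 k3)

end Vale.Agent.P280Z.Cv
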