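import Vale.Agent.P280Z.Cv.End
import Vale.Agent.P280Z.Cv.Brg
import Vale.Agent.P280Z.Cv.Eqs
import Vale.Agent.P280Z.Cv.B2b
import Vale.Agent.P280Z.Mp.All
import Vale.Agent.P280Z.Ma.All
import Vale.Agent.P280Z.Co.All
import Vale.Agent.P280Z.Hr.All
import Vale.Agent.P280Z.Gm.All
import Vale.Agent.P280Z.En.Top
import Vale.Agent.P280Z.Gp.Top

/-!
# P280Z: stage one
-/

open Vale.Agent.P281Z

noncomputable section

namespace Vale.Agent.P280Z.Cv

theorem brg : BRG := brg_of eqs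

theorem one_of (al : ALN) : ONE' := fun X hF hN h2 hI =>
  have := hF.1
  Gp.of_pos X hF.2 (gen_of brg Mp.maps Ma.nsx Ma.rel Co.ct_ok b2b
    (end_of Hr.hrr al Gm.fund (En.dp5 Hr.hrr)) X hF hN h2 hI)

end Vale.Agent.P280Z.Cv
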