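import Vale.Agent.P280Z.Cv.One
import Vale.Agent.P280Z.Al.Top2
import Vale.Agent.P280Z.Al.Out2
import Vale.Agent.P280Z.Al.Hix
import Vale.Agent.P280Z.Al.Cert1b
import Vale.Agent.P280Z.Al.Cert4b

/-!
# P280Z: stage one, closed
-/

noncomputable section

namespace Vale.Agent.P280Z.Cv

theorem al : ALN :=
  Al.al_of2 (fun _ hT _ _ => Al.hix hT) (fun _ => Al.out_of2 Al.cert1b Al.cert4b) Gm.rt Gm.cov

theorem one : ONE' := one_of al

end Vale.Agent.P280Z.Cv
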