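import Vale.Agent.P280Z.Mp.Bf
import Mathlib.NumberTheory.FrobeniusNumber
import Mathlib.RingTheory.RootsOfUnity.Complex

/-!
# P280Z, block Cv, row POS: covariants of a binary form at a point
-/

open scoped ContDiff Topology Matrix Matrix.Norms.Elementwise
open Set Filter
open Vale.Agent.P272.K Vale.Agent.P280Z.Mp

noncomputable section

namespace Vale.Agent.P280Z.Cv.Ps

variable {d N : ℕ} {E : Type} [NormedAddCommGroup E] [NormedSpace ℂ E]

/-- a derivative of a component -/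
def pd (φ : BF d N) (q : Cm 2) (l : Fin N) (c : Fin 2) : ℂ := fderiv ℂ (ev φ) q (Pi.single c 1) l

/-- the point and the covariant vector -/
def GG (l : Fin N) (φ : BF d N) (q : Cm 2) : M2 := !![q 0, -pd φ q l 1; q 1, pd φ q l 0]

/-- the covariants -/
def BB (l : Fin N) (φ : BF d N) (q : Cm 2) : BF d N := act φ (GG l φ q)

theorem fd_split (φ : BF d N) (q ξ : Cm 2) (l : Fin N) :
    fderiv ℂ (ev φ) q ξ l = ξ 0 * pd φ q l 0 + ξ 1 * pd φ q l 1 := by
  have h : ξ = ξ 0 • (Pi.single 0 1 : Cm 2) + ξ 1 • (Pi.single 1 1 : Cm 2) := by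
    funext i
    fin_cases i <;> simp
  conv_lhs => rw [h]
  simp [pd]

theorem det_GG (l : Fin N) (φ : BF d N) (q : Cm 2) : (GG l φ q).det = d * ev φ q l := by
  have h := congrFun (euler φ q) l
  rw [fd_split] at h
  simp only [GG, Matrix.det_fin_two_of]
  simp only [Pi.smul_apply, smul_eq_mul] at h
  linear_combination h

theorem fd_mv (g : M2) (z : Cm 2) : HasFDerivAt (fun z : Cm 2 => g *ᵥ z)
    (LinearMap.toContinuousLinearMap (Matrix.mulVecLin g)) z :=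
  (LinearMap.toContinuousLinearMap (Matrix.mulVecLin g)).hasFDerivAt

theorem fd_ev_act (φ : BF d N) (g : M2) (q ξ : Cm 2) :
    fderiv ℂ (ev (act φ g)) q ξ = fderiv ℂ (ev φ) (g *ᵥ q) (g *ᵥ ξ) := by
  rw [show ev (act φ g) = fun z => ev φ (g *ᵥ z) from funext (ev_act φ g)]
  exact congrArg (· ξ) (((an_ev2 φ).differentiable (by simp) _).hasFDerivAt.comp q
    (fd_mv g q)).fderiv

theorem fd_arg (φ : BF d N) (q ξ : Cm 2) (τ : ℂ) :
    τ • fderiv ℂ (ev φ) (τ • q) ξ = τ ^ d • fderiv ℂ (ev φ) q ξ := by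
  have h := fd_ev_act φ (τ • (1 : M2)) q ξ
  rw [act_smul, act_one, show ev (τ ^ d • φ) = τ ^ d • ev φ from funext (ev_smul _ φ),
    fderiv_const_smul ((an_ev2 φ).differentiable (by simp) _), Matrix.smul_mulVec,
    Matrix.smul_mulVec, Matrix.one_mulVec, Matrix.one_mulVec, map_smul] at h
  exact h.symm

theorem act_diag (φ : BF d N) (a b : ℂ) :
    act φ (Matrix.diagonal ![a, b]) = fun j => (a ^ (d - j.val) * b ^ j.val) • φ j :=
  ev_inj fun z => by
    rw [ev_act]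
    simp only [ev, Matrix.mulVec_diagonal, smul_smul]
    refine Finset.sum_congr rfl fun j _ => congrArg (· • φ j) ?_
    simp only [Matrix.cons_val_zero, Matrix.cons_val_one, mul_pow]
    ring

theorem GG_chg (l : Fin N) (φ : BF d N) {g : M2} {q q' : Cm 2} {τ : ℂ} (hτ : τ ≠ 0)
    (h : g *ᵥ q' = τ • q) : g * GG l (act φ g) q' =
      τ • (GG l φ q * Matrix.diagonal ![1, g.det / τ ^ 2 * τ ^ d]) := by
  have h1 : ∀ c, pd φ (τ • q) l c = τ ^ d / τ * pd φ q l c := fun c => by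
    have := congrFun (fd_arg φ q (Pi.single c 1) τ) l
    simp only [Pi.smul_apply, smul_eq_mul] at this
    unfold pd
    field_simp
    linear_combination this
  have h2 : ∀ c, pd (act φ g) q' l c =
      τ ^ d / τ * (g 0 c * pd φ q l 0 + g 1 c * pd φ q l 1) := fun c => by
    rw [pd, fd_ev_act, h, fd_split, h1, h1]
    simp only [Matrix.mulVec_single_one, Matrix.col_apply]
    ring
  have h3 := congrFun h 0
  have h4 := congrFun h 1
  simp only [Matrix.mulVec, dotProduct, Fin.sum_univ_two, Pi.smul_apply, smul_eq_mul] at h3 h4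
  ext i j
  rw [Matrix.smul_apply, Matrix.mul_diagonal, Matrix.mul_apply, Fin.sum_univ_two, smul_eq_mul,
    Matrix.det_fin_two]
  fin_cases i <;> fin_cases j <;> simp [GG, h2, h3, h4] <;> field_simp <;> ring

theorem BB_chg (l : Fin N) (φ : BF d N) {g : M2} {q q' : Cm 2} {τ : ℂ} (hτ : τ ≠ 0)
    (h : g *ᵥ q' = τ • q) (j : Fin (d + 1)) (m : Fin N) : BB l (act φ g) q' j m =
      (g.det / τ ^ 2) ^ j.val * (τ ^ d) ^ (j.val + 1) * BB l φ q j m := by
  rw [BB, act_act, GG_chg l φ hτ h, act_smul, ← act_act, act_diag]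
  simp only [BB, Pi.smul_apply, smul_eq_mul, one_pow, mul_pow]
  ring

theorem BB_zero (l : Fin N) (φ : BF d N) (q : Cm 2) : BB l φ q 0 = ev φ q := by
  rw [← ev_fst (BB l φ q), BB, ev_act]
  refine congrArg (ev φ) (funext fun i => ?_)
  fin_cases i <;> simp [GG, Matrix.mulVec, dotProduct]

theorem an_GG (l : Fin N) {a : E → BF d N} {z : E → Cm 2} {x : E} (ha : ContDiffAt ℂ ω a x)
    (hz : ContDiffAt ℂ ω z x) : ContDiffAt ℂ ω (fun y => GG l (a y) (z y)) x := by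
  have h1 : ∀ c, ContDiffAt ℂ ω (fun y => pd (a y) (z y) l c) x := fun c =>
    contDiffAt_pi.1 ((ContDiffAt.fderiv (f := fun y => ev (a y)) (m := ω) (n := ω)
      (an_ev' (ha.comp _ contDiffAt_fst) contDiffAt_snd) hz le_rfl).clm_apply contDiffAt_const) l
  refine an_mat fun i j => ?_
  fin_cases i <;> fin_cases j
  exacts [contDiffAt_pi.1 hz 0, (h1 1).neg, contDiffAt_pi.1 hz 1, h1 0]

theorem an_BB (l : Fin N) {a : E → BF d N} {z : E → Cm 2} {x : E} (ha : ContDiffAt ℂ ω a x)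
    (hz : ContDiffAt ℂ ω z x) : ContDiffAt ℂ ω (fun y => BB l (a y) (z y)) x :=
  an_act' ha (an_GG l ha hz)

theorem fd_diag (φ : BF d N) (a b : ℂ) (z : Cm 2) :
    fderiv ℂ (ev φ) z (Matrix.diagonal ![a, b] *ᵥ z) =
      ev (fun j => (((d - j.val : ℕ) : ℂ) * a + j.val * b) • φ j) z := by
  have h0 : HasDerivAt (fun t : ℂ => Matrix.diagonal ![Complex.exp (a * t), Complex.exp (b * t)] *ᵥ z)
      (Matrix.diagonal ![a, b] *ᵥ z) 0 := hasDerivAt_pi.2 fun i => by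
    fin_cases i
    · simpa [Matrix.mulVec_diagonal] using
        (((hasDerivAt_id (0 : ℂ)).const_mul a).cexp).mul_const (z 0)
    · simpa [Matrix.mulVec_diagonal] using
        (((hasDerivAt_id (0 : ℂ)).const_mul b).cexp).mul_const (z 1)
  have h1 := ((an_ev2 φ).differentiable (by simp) _).hasFDerivAt.comp_hasDerivAt 0 h0
  have h2 : Matrix.diagonal ![Complex.exp (a * 0), Complex.exp (b * 0)] *ᵥ z = z := by
    funext i
    fin_cases i <;> simp [Matrix.mulVec_diagonal]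
  rw [h2] at h1
  refine h1.unique ?_
  have h3 : (ev φ ∘ fun t : ℂ => Matrix.diagonal ![Complex.exp (a * t), Complex.exp (b * t)] *ᵥ z) =
      fun t => ∑ j : Fin (d + 1), Complex.exp ((((d - j.val : ℕ) : ℂ) * a + j.val * b) * t) •
        (z 0 ^ (d - j.val) * z 1 ^ j.val) • φ j := funext fun t => by
    rw [Function.comp_apply, ← ev_act, act_diag, ev]
    refine Finset.sum_congr rfl fun j _ => ?_
    rw [smul_comm, ← Complex.exp_nat_mul, ← Complex.exp_nat_mul, ← Complex.exp_add]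
    refine congrArg (fun s => Complex.exp s • _) ?_
    ring
  rw [h3, ev]
  refine HasDerivAt.fun_sum fun j _ => ?_
  rw [smul_comm]
  simpa using (((hasDerivAt_id (0 : ℂ)).const_mul
    (((d - j.val : ℕ) : ℂ) * a + j.val * b)).cexp).smul_const
      ((z 0 ^ (d - j.val) * z 1 ^ j.val) • φ j)

theorem gcd_one {φ : BF d N} (h : ∀ g : M2, act φ g = φ → ∃ c : ℂ, g = c • (1 : M2)) :
    Nat.setGcd {j | ∃ i : Fin (d + 1), i.val = j ∧ φ i ≠ 0} = 1 := by
  by_contra hne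
  set γ := Nat.setGcd {j | ∃ i : Fin (d + 1), i.val = j ∧ φ i ≠ 0}
  obtain ⟨ζ, z1, z2⟩ : ∃ ζ : ℂ, ζ ≠ 1 ∧ ζ ^ γ = 1 := by
    rcases eq_or_ne γ 0 with k | k
    · exact ⟨2, by norm_num, by rw [k, pow_zero]⟩
    · exact ⟨_, (Complex.isPrimitiveRoot_exp γ k).ne_one (by omega),
        (Complex.isPrimitiveRoot_exp γ k).pow_eq_one⟩
  obtain ⟨c, hc⟩ := h (Matrix.diagonal ![1, ζ]) (by
    rw [act_diag]
    funext j
    by_cases k : φ j = 0
    · rw [k, smul_zero]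
    · obtain ⟨s, hs⟩ : γ ∣ j.val := Nat.setGcd_dvd_of_mem ⟨j, rfl, k⟩
      rw [one_pow, one_mul, hs, pow_mul, z2, one_pow, one_smul])
  have h1 := congrFun (congrFun hc 0) 0
  have h2 := congrFun (congrFun hc 1) 1
  simp at h1 h2
  exact z1 (h2.trans h1.symm)

theorem exists_B (d : ℕ) : ∃ B, 0 < B ∧ (∀ j, 0 < j → j ≤ d → j ∣ B) ∧ ∀ J : Set ℕ, J ⊆ Iic d →
    Nat.setGcd J = 1 → ∀ j ≤ d, j ≤ B ∧ B - j ∈ AddSubmonoid.closure J := by
  choose n hn using fun J : Set ℕ => Nat.exists_mem_closure_of_ge J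
  obtain ⟨M, hM⟩ := (((finite_Iic d).finite_subsets).image n).bddAbove
  have h1 : M + d + 1 ≤ d.factorial * (M + d + 1) := Nat.le_mul_of_pos_left _ d.factorial_pos
  refine ⟨d.factorial * (M + d + 1), by positivity, fun j a b =>
    (Nat.dvd_factorial a b).mul_right _, fun J a b j c => ⟨by omega, hn J _ ?_ (by rw [b]; exact one_dvd _)⟩⟩
  have := hM ⟨J, a, rfl⟩
  omega

/-- if the covariants vary by a diagonal substitution, the variation is a substitution -/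
theorem rigid (l : Fin N) {Y : E → BF d N} {Q : E → Cm 2} {x : E} (hY : ContDiffAt ℂ ω Y x)
    (hQ : ContDiffAt ℂ ω Q x) (hd : 0 < d) (h0 : ev (Y x) (Q x) l ≠ 0) (v : E) {α γ : ℂ}
    (h : ∀ j m, fderiv ℂ (fun y => BB l (Y y) (Q y) j m) x v =
      ((j.val + 1) * α + j.val * γ) * BB l (Y x) (Q x) j m) :
    ∃ (ξ : M2) (a : ℂ), inf (Y x) ξ + fderiv ℂ Y x v = 0 ∧ (ξ = 0 → fderiv ℂ Q x v = a • Q x) := by
  have hd' : (d : ℂ) ≠ 0 := Nat.cast_ne_zero.2 hd.ne'
  have hG := (an_GG l hY hQ).differentiableAt (by simp)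
  have hB := (an_BB l hY hQ).differentiableAt (by simp)
  have hu : IsUnit (GG l (Y x) (Q x)).det := by
    rw [det_GG]
    exact (mul_ne_zero hd' h0).isUnit
  set G₀ := GG l (Y x) (Q x) with hG₀
  set G₁ : M2 := fderiv ℂ (fun y => GG l (Y y) (Q y)) x v with hG₁
  set Δ : M2 := Matrix.diagonal ![α / d, α / d + α + γ]
  have h1 : fderiv ℂ (fun y => BB l (Y y) (Q y)) x v =
      fun j => (((d - j.val : ℕ) : ℂ) * (α / d) + j.val * (α / d + α + γ)) • BB l (Y x) (Q x) j := by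
    funext j m
    have k := h j m
    rw [(hasFDerivAt_pi'.1 (hasFDerivAt_pi'.1 hB.hasFDerivAt j) m).fderiv] at k
    refine k.trans ?_
    rw [Pi.smul_apply, smul_eq_mul, Nat.cast_sub (Nat.le_of_lt_succ j.2)]
    field_simp
    ring
  have h2 : ∀ z, ev (fderiv ℂ Y x v) (G₀ *ᵥ z) + fderiv ℂ (ev (Y x)) (G₀ *ᵥ z) (G₁ *ᵥ z) =
      fderiv ℂ (ev (Y x)) (G₀ *ᵥ z) ((G₀ * Δ) *ᵥ z) := fun z => by
    rw [← Matrix.mulVec_mulVec, ← fd_ev_act, fd_diag, ← BB.eq_1, ← h1, ← fd_ev hB]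
    let L : M2 →L[ℂ] Cm 2 := LinearMap.toContinuousLinearMap
      ⟨⟨fun g => g *ᵥ z, fun g g' => Matrix.add_mulVec g g' z⟩, fun c g => Matrix.smul_mulVec c g z⟩
    have k1 := (hY.differentiableAt (by simp)).hasFDerivAt.prodMk (L.hasFDerivAt.comp x hG.hasFDerivAt)
    have k2 := (an_ev (d := d) (N := N)).differentiable (by simp) (Y x, G₀ *ᵥ z)
    have k3 := congrArg (· v) (HasFDerivAt.comp (f := fun y => (Y y, GG l (Y y) (Q y) *ᵥ z)) x
      k2.hasFDerivAt k1).fderiv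
    have k4 := congrArg (· (fderiv ℂ Y x v)) (HasFDerivAt.comp (f := fun e => (e, G₀ *ᵥ z)) (Y x)
      k2.hasFDerivAt (hasFDerivAt_prodMk_left _ _)).fderiv
    have k5 := congrArg (· (G₁ *ᵥ z)) (HasFDerivAt.comp (f := fun e => (Y x, e)) (G₀ *ᵥ z)
      k2.hasFDerivAt (hasFDerivAt_prodMk_right _ _)).fderiv
    have k6 := congrArg (· (fderiv ℂ Y x v)) ((evL d N (G₀ *ᵥ z)).fderiv (x := Y x))
    simp only [BB, ev_act]
    refine Eq.trans (congrArg₂ (· + ·) (k6.symm.trans k4) k5) (Eq.trans ?_ k3.symm)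
    show fderiv ℂ _ (Y x, G₀ *ᵥ z) (fderiv ℂ Y x v, 0) + fderiv ℂ _ (Y x, G₀ *ᵥ z) (0, G₁ *ᵥ z) =
      fderiv ℂ _ (Y x, G₀ *ᵥ z) (fderiv ℂ Y x v, G₁ *ᵥ z)
    rw [← map_add, Prod.mk_add_mk, add_zero, zero_add]
  refine ⟨(G₁ - G₀ * Δ) * G₀⁻¹, α / d, ev_inj fun z => ?_, fun k => ?_⟩
  · have k := h2 (G₀⁻¹ *ᵥ z)
    rw [Matrix.mulVec_mulVec, Matrix.mul_nonsing_inv _ hu, Matrix.one_mulVec] at k
    rw [ev_add, ev_inf, ev_zero, ← Matrix.mulVec_mulVec, Matrix.sub_mulVec, map_sub, ← k]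
    abel
  · have k1 : G₁ = G₀ * Δ := by
      rw [← sub_eq_zero, ← Matrix.nonsing_inv_mul_cancel_right _ (G₁ - G₀ * Δ) hu, k, zero_mul]
    funext i
    have k2 := congrArg (· v) (hasFDerivAt_pi'.1 (hasFDerivAt_pi'.1
      (show HasFDerivAt (fun y => (GG l (Y y) (Q y) : Fin 2 → Fin 2 → ℂ)) _ x from hG.hasFDerivAt)
        i) 0).fderiv
    have k3 := congrArg (· v) (hasFDerivAt_pi'.1 (hQ.differentiableAt (by simp)).hasFDerivAt i).fderiv
    have k4 : (fun y => GG l (Y y) (Q y) i 0) = fun y => Q y i := by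
      funext y
      fin_cases i <;> rfl
    have k5 : G₁ i 0 = α / d * Q x i := by
      rw [k1, Matrix.mul_diagonal, mul_comm]
      exact congrArg _ (congrFun k4 x)
    exact k3.symm.trans ((congrArg (fun f => fderiv ℂ f x v) k4).symm.trans (k2.trans k5))

end Vale.Agent.P280Z.Cv.Ps
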