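import Vale.Agent.P280Z.Cv.Sk
import Vale.Agent.P280Z.Cv.PosA
import Vale.Agent.P281Z.Mf.Loc
import Vale.Agent.P281Z.Sc.Bd

/-!
# P280Z, block Cv, row POS: a positive line bundle on the universal family
-/

open scoped Manifold ContDiff Topology Matrix Matrix.Norms.Elementwise
open Set Filter
open Vale.Agent.P272.K Vale.Agent.P285.H281.FD Vale.Agent.P281Z
open Vale.Agent.P277Z (Hol at_chart hol_const)
open Vale.Agent.P277Z.Slc (lin dd)
open Vale.Agent.P277.HD (pull)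
open Vale.Agent.P280Z.Mp

noncomputable section

namespace Vale.Agent.P280Z.Cv.Ps

section p1
variable {k : ℕ} {K : Mf k} {U : Mf (k + 1)} {P : P1 K U} {a b : P.ι} {i j : Fin 2} {u : U.X}

theorem q_spec (hu : u ∈ P.W a i) : P.q a i u i = 1 ∧ P.θ a (P.p u) (P.q a i u) = u :=
  Classical.epsilon_spec hu.2

theorem q_ne (hu : u ∈ P.W a i) : P.q a i u ≠ 0 := fun e =>
  one_ne_zero ((q_spec hu).1.symm.trans (congrFun e i))

theorem gg_spec (h : P.Ok) (hu : u ∈ P.W a i) (hu' : u ∈ P.W b j) :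
    P.R a b (P.p u) (P.gg a b (P.p u)) :=
  let ⟨g, _, k⟩ := h.coc.ex a b _ hu.1 hu'.1
  Classical.epsilon_spec ⟨g _, k.self_of_nhds⟩

theorem ta_spec (h : P.Ok) (hu : u ∈ P.W a i) (hu' : u ∈ P.W b j) : P.ta a i b j u ≠ 0 ∧
    P.gg a b (P.p u) *ᵥ P.q b j u = P.ta a i b j u • P.q a i u := by
  have h1 := gg_spec h hu hu'
  have h2 : P.gg a b (P.p u) *ᵥ P.q b j u ≠ 0 := fun e => h.coc.det a b _ _ hu.1 hu'.1 h1
    (Matrix.exists_mulVec_eq_zero_iff.1 ⟨_, q_ne hu', e⟩)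
  have h3 := (h.eq a _ _ _ hu.1 (q_ne hu) h2).1 ((q_spec hu).2.trans
    ((q_spec hu').2.symm.trans (h.rel a b _ _ _ hu.1 hu'.1 h1 (q_ne hu'))))
  have h4 := (q_spec hu).1
  have h5 : P.gg a b (P.p u) *ᵥ P.q b j u = P.ta a i b j u • P.q a i u := by
    unfold P1.ta
    unfold lf at h3
    generalize P.gg a b (P.p u) *ᵥ P.q b j u = w at h3 ⊢
    generalize P.q a i u = q at h3 h4 ⊢
    have key : ∀ l i : Fin 2, q i = 1 → w l = w i * q l := by
      simp only [Fin.forall_fin_two]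
      refine ⟨⟨fun c => ?_, fun c => ?_⟩, fun c => ?_, fun c => ?_⟩
      · rw [c, mul_one]
      · linear_combination -h3 - w 0 * c
      · linear_combination h3 - w 1 * c
      · rw [c, mul_one]
    exact funext fun l => key l i h4
  exact ⟨fun e => h2 (by rw [h5, e, zero_smul]), h5⟩

end p1

theorem comp_eq' {E F G : Type} [NormedAddCommGroup E] [NormedSpace ℂ E] [NormedAddCommGroup F]
    [NormedSpace ℂ F] [NormedAddCommGroup G] [NormedSpace ℂ G] {g : F → G} {f : E → F} {x : E}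
    {y : F} {A : F →L[ℂ] G} {L : E →L[ℂ] F} (hg : HasFDerivAt g A y) (hf : HasFDerivAt f L x)
    (e : f x = y) : HasFDerivAt (fun z => g (f z)) (A.comp L) x :=
  HasFDerivAt.comp x (e ▸ hg) hf

section ld
variable {n : ℕ} {X : Type} [TopologicalSpace X] [ChartedSpace (Cm n) X] {e : Chart n X} {x : X}
  {s t : X → ℂ} {v : Cm n} {κ κ' : ℂ}

theorem dd_mul' (he : At e x) (hs : Hol n s x) (ht : Hol n t x) :
    dd (fun y => s y * t y) e x v = s x * dd t e x v + t x * dd s e x v := by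
  unfold dd
  rw [fderiv_fun_mul (hs e he).differentiableAt (ht e he).differentiableAt, e.left_inv he.2]
  rfl

theorem ld_mul (he : At e x) (hs : Hol n s x) (ht : Hol n t x) (h : dd s e x v = κ * s x)
    (h' : dd t e x v = κ' * t x) : dd (fun y => s y * t y) e x v = (κ + κ') * (s x * t x) := by
  rw [dd_mul' he hs ht, h, h']
  ring

theorem ld_pow (he : At e x) (hs : Hol n s x) (h : dd s e x v = κ * s x) (m : ℕ) :
    dd (fun y => s y ^ m) e x v = (m * κ) * s x ^ m := by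
  induction m with
  | zero => simp [dd]
  | succ m ih =>
    simp only [pow_succ, Nat.cast_succ, add_mul, one_mul]
    rw [ld_mul he (hs.pow m) hs ih h, add_mul]

end ld

variable {n d k : ℕ} {D : Dat n} {M : Set (BF d D.N)} (F : Fam D d k M)

/-- the form over a point -/
def YY (h : F.P.T.ι) (u : F.U.X) : BF d D.N := F.σ h.1 (F.p u)

/-- the homogeneous coordinates of a point -/
def QQ (h : F.P.T.ι) (u : F.U.X) : Cm 2 := F.P.q h.1 h.2 u

/-- covariants of the weights `j` and `m` -/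
structure Cov (j m : ℕ) (t : F.P.T.ι → F.U.X → ℂ) : Prop where
  hol : ∀ h, ∀ u ∈ F.P.T.U h, Hol (k + 1) (t h) u
  chg : ∀ h h', ∀ u ∈ F.P.T.U h, u ∈ F.P.T.U h' →
    t h' u = F.P.T.g h h' u ^ j * (F.P.ta h.1 h.2 h'.1 h'.2 u ^ d) ^ m * t h u

/-- the basic covariants -/
def β (l : Fin D.N) (j : Fin (d + 1)) (m : Fin D.N) (h : F.P.T.ι) (u : F.U.X) : ℂ :=
  BB l (YY F h u) (QQ F h u) j m

/-- the factor between the value of the form and the lift of the point -/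
def cc (h : F.P.T.ι) (b : D.H.ι) (u : F.U.X) : ℂ :=
  Classical.epsilon fun c => c ≠ 0 ∧ ev (YY F h u) (QQ F h u) = c • D.s b (F.e u)

variable {F} {j m j' m' : ℕ} {s t : F.P.T.ι → F.U.X → ℂ} {h h' : F.P.T.ι} {u : F.U.X}
  {e : Chart (k + 1) F.U.X}

theorem Cov.mul (hs : Cov F j m s) (ht : Cov F j' m' t) :
    Cov F (j + j') (m + m') fun h u => s h u * t h u :=
  ⟨fun h u a => (hs.hol h u a).mul (ht.hol h u a), fun h h' u a b => by
    rw [hs.chg h h' u a b, ht.chg h h' u a b]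
    ring⟩

theorem Cov.pow (hs : Cov F j m s) (r : ℕ) : Cov F (j * r) (m * r) fun h u => s h u ^ r :=
  ⟨fun h u a => (hs.hol h u a).pow r, fun h h' u a b => by
    rw [hs.chg h h' u a b]
    ring⟩

theorem Cov.cast (hs : Cov F j m s) (a : j = j') (b : m = m') : Cov F j' m' s := a ▸ b ▸ hs

theorem hol_Y (hu : u ∈ F.P.T.U h) (i : Fin (d + 1)) (l : Fin D.N) :
    Hol (k + 1) (fun x => YY F h x i l) u :=
  F.ok.hol.hol (a := fun y => F.σ h.1 y i l) (F.hol _ _ hu.1 i l)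

theorem an_Y (hu : u ∈ F.P.T.U h) (he : At e u) :
    ContDiffAt ℂ ω (fun z => YY F h (e.symm z)) (e u) :=
  contDiffAt_pi.2 fun i => contDiffAt_pi.2 fun l => (hol_Y hu i l e he).contDiffAt

theorem an_Q (hu : u ∈ F.P.T.U h) (he : At e u) :
    ContDiffAt ℂ ω (fun z => QQ F h (e.symm z)) (e u) :=
  contDiffAt_pi.2 fun i => (F.ok.qhol _ _ u hu i e he).contDiffAt

theorem Y_chg (hu : u ∈ F.P.T.U h) (hu' : u ∈ F.P.T.U h') :
    YY F h' u = act (YY F h u) (F.P.gg h.1 h'.1 (F.p u)) := (gg_spec (P := F.P) F.ok hu hu').2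

theorem cov_β (l : Fin D.N) (j : Fin (d + 1)) (m : Fin D.N) : Cov F j (j + 1) (β F l j m) :=
  ⟨fun _ _ a _ he => (contDiffAt_pi.1 (contDiffAt_pi.1 (an_BB l (an_Y a he) (an_Q a he)) j)
    m).analyticAt, fun _ _ _ a b => by
      rw [β, Y_chg a b]
      exact BB_chg l _ (ta_spec (P := F.P) F.ok a b).1 (ta_spec (P := F.P) F.ok a b).2 j m⟩

theorem ev_in (hM : D.Adm d k M) (hu : u ∈ F.P.T.U h) : In D.P (ev (YY F h u) (QQ F h u)) :=
  (hM.cd _ (F.mem _ _ hu.1)).1 _ (q_ne hu)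

theorem cc_spec (hP : Pt D) (hM : D.Adm d k M) (hu : u ∈ F.P.T.U h) {b : D.H.ι}
    (hb : F.e u ∈ D.H.U b) :
    cc F h b u ≠ 0 ∧ ev (YY F h u) (QQ F h u) = cc F h b u • D.s b (F.e u) := by
  have h1 : D.pt (ev (YY F h u) (QQ F h u)) = F.e u :=
    (F.e_θ _ _ _ hu.1 (q_ne hu)).symm.trans (congrArg F.e (q_spec hu).2)
  have h2 := hP.spec _ (ev_in hM hu) b (h1.symm ▸ hb)
  rw [h1] at h2
  exact Classical.epsilon_spec h2

theorem cc_near (hP : Pt D) (hM : D.Adm d k M) (hu : u ∈ F.P.T.U h) {b : D.H.ι}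
    (hb : F.e u ∈ D.H.U b) : ∀ᶠ x in 𝓝 u,
      cc F h b x ≠ 0 ∧ ev (YY F h x) (QQ F h x) = cc F h b x • D.s b (F.e x) := by
  filter_upwards [(F.ok.opn _ _).mem_nhds hu,
    F.se.hol.cont.continuousAt.eventually ((D.lb.isOpen b).mem_nhds hb)] with x a1 a2
    using cc_spec hP hM a1 a2

theorem cc_hol (hP : Pt D) (hM : D.Adm d k M) (hu : u ∈ F.P.T.U h) {b : D.H.ι}
    (hb : F.e u ∈ D.H.U b) : Hol (k + 1) (cc F h b) u := by
  obtain ⟨l, hl⟩ := Function.ne_iff.1 (D.ins b _ hb).1.1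
  have h1 : Hol (k + 1) (fun x => D.s b (F.e x) l) u :=
    F.se.hol.hol (a := fun x => D.s b x l) (sec_hol (D.sec l) hb)
  have h2 : Hol (k + 1) (fun x => ev (YY F h x) (QQ F h x) l) u := fun _ he =>
    (contDiffAt_pi.1 (an_ev' (an_Y hu he) (an_Q hu he)) l).analyticAt
  refine (h2.div h1 hl).congr ?_
  filter_upwards [cc_near hP hM hu hb, h1.cont.eventually_ne hl] with x a1 a2
  rw [a1.2, Pi.smul_apply, smul_eq_mul, mul_div_cancel_right₀ _ a2]

theorem cc_chg (hP : Pt D) (hM : D.Adm d k M) (hu : u ∈ F.P.T.U h) (hu' : u ∈ F.P.T.U h')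
    {b b' : D.H.ι} (hb : F.e u ∈ D.H.U b) (hb' : F.e u ∈ D.H.U b') :
    cc F h' b' u = F.P.ta h.1 h.2 h'.1 h'.2 u ^ d * cc F h b u * D.H.g b b' (F.e u) := by
  have h1 : D.s b (F.e u) = D.H.g b b' (F.e u) • D.s b' (F.e u) :=
    funext fun l => (D.sec l).change b b' _ hb hb'
  refine smul_left_injective ℂ (D.ins b' _ hb').1.1 ?_
  have h2 := (cc_spec hP hM hu' hb').2
  rw [Y_chg hu hu', ev_act, show F.P.gg h.1 h'.1 (F.p u) *ᵥ QQ F h' u = _ from
    (ta_spec (P := F.P) F.ok hu hu').2, ev_arg,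
    show ev (YY F h u) (F.P.q h.1 h.2 u) = _ from (cc_spec hP hM hu hb).2, h1, smul_smul,
    smul_smul] at h2
  exact h2.symm

theorem Cov.sec (hP : Pt D) (hM : D.Adm d k M) (hT : IsLB (k + 1) F.P.T) (ht : Cov F j m t) :
    IsSec (k + 1) (lin ![pull F.e D.H, F.P.T] ![m, -j])
      fun i u => t (i 1) u / cc F (i 1) (i 0) u ^ m := by
  refine ⟨fun i e u he a => (((ht.hol _ u (a 1)).div ((cc_hol hP hM (a 1) (a 0)).pow m)
    (pow_ne_zero _ (cc_spec hP hM (a 1) (a 0)).1)) e he).contDiffAt, fun i i' u a b => ?_⟩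
  have h1 := hT.ne_zero _ _ u (a 1) (b 1)
  have h2 := D.lb.ne_zero _ _ _ (a 0) (b 0)
  have h3 := (cc_spec hP hM (a 1) (a 0)).1
  have h4 := (ta_spec (P := F.P) F.ok (a 1) (b 1)).1
  simp only [lin, Fin.prod_univ_two]
  rw [ht.chg _ _ u (a 1) (b 1), cc_chg hP hM (a 1) (b 1) (a 0) (b 0)]
  change _ = D.H.g (i 0) (i' 0) (F.e u) ^ (m : ℤ) * F.P.T.g (i 1) (i' 1) u ^ (-(j : ℤ)) * _
  rw [zpow_neg, zpow_natCast, zpow_natCast, mul_pow, mul_pow]
  field_simp

/-- monomials which do not vanish at `u` -/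
theorem mon {l : Fin D.N} (hu : u ∈ F.P.T.U h) (he : At e u) (h0 : β F l 0 l h u ≠ 0) {B A : ℕ}
    (hB : B ∈ AddSubmonoid.closure
      {j | ∃ i : Fin (d + 1), i.val = j ∧ BB l (YY F h u) (QQ F h u) i ≠ 0}) (hA : 2 * B ≤ A) :
    ∃ t, Cov F B A t ∧ t h u ≠ 0 ∧ ∀ (v : Cm (k + 1)) (α γ : ℂ),
      dd (β F l 0 l h) e u v = α * β F l 0 l h u →
      (∀ (j : Fin (d + 1)) m, 0 < j.val → β F l j m h u ≠ 0 →
        dd (β F l j m h) e u v = ((j.val + 1) * α + j.val * γ) * β F l j m h u) →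
      dd (t h) e u v = (A * α + B * γ) * t h u := by
  have h1 : ∃ r ≤ B, ∃ t, Cov F B (B + r) t ∧ t h u ≠ 0 ∧ ∀ (v : Cm (k + 1)) (α γ : ℂ),
      (∀ (j : Fin (d + 1)) m, 0 < j.val → β F l j m h u ≠ 0 →
        dd (β F l j m h) e u v = ((j.val + 1) * α + j.val * γ) * β F l j m h u) →
      dd (t h) e u v = ((B + r) * α + B * γ) * t h u := by
    have k0 : ∃ r ≤ 0, ∃ t, Cov F 0 (0 + r) t ∧ t h u ≠ 0 ∧ ∀ (v : Cm (k + 1)) (α γ : ℂ),
        (∀ (j : Fin (d + 1)) m, 0 < j.val → β F l j m h u ≠ 0 →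
          dd (β F l j m h) e u v = ((j.val + 1) * α + j.val * γ) * β F l j m h u) →
        dd (t h) e u v = (((0 : ℕ) + r) * α + (0 : ℕ) * γ) * t h u :=
      ⟨0, le_rfl, fun _ _ => 1, ⟨fun _ _ _ => hol_const _ _, fun _ _ _ _ _ => by simp⟩,
        one_ne_zero, fun v α γ _ => by simp [dd]⟩
    clear hA
    induction hB using AddSubmonoid.closure_induction with
    | zero => exact k0
    | mem j hj =>
      obtain ⟨i, rfl, hi⟩ := hj
      obtain ⟨m, hm⟩ := Function.ne_iff.1 hi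
      rcases Nat.eq_zero_or_pos i.val with c | c
      · rw [c]
        exact k0
      · exact ⟨1, c, _, cov_β l i m, hm, fun v α γ a => by simpa using a i m c hm⟩
    | add a b _ _ ha hb =>
      obtain ⟨r, r1, s, s1, s2, s3⟩ := ha
      obtain ⟨r', r2, t, t1, t2, t3⟩ := hb
      refine ⟨r + r', by omega, _, (s1.mul t1).cast rfl (by omega), mul_ne_zero s2 t2,
        fun v α γ c => ?_⟩
      rw [ld_mul he (s1.hol h u hu) (t1.hol h u hu) (s3 v α γ c) (t3 v α γ c)]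
      push_cast
      ring
  obtain ⟨r, r1, t, t1, t2, t3⟩ := h1
  obtain ⟨p, rfl⟩ : ∃ p, A = B + r + p := ⟨A - (B + r), by omega⟩
  refine ⟨_, (t1.mul ((cov_β l 0 l).pow p)).cast (by simp) (by simp),
    mul_ne_zero t2 (pow_ne_zero _ h0), fun v α γ a b => ?_⟩
  rw [ld_mul he (t1.hol h u hu) (((cov_β l 0 l).pow p).hol h u hu) (t3 v α γ b)
    (ld_pow he ((cov_β l 0 l).hol h u hu) a p)]
  push_cast
  ring

/-- a vector which kills the base point and the coordinates is zero -/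
theorem vec_zero (hu : u ∈ F.P.T.U h) (he : At e u) {c : Chart k F.K.X} (hc : At c (F.p u))
    {v : Cm (k + 1)} (h1 : df F.p e c u v = 0)
    (h2 : fderiv ℂ (fun z => QQ F h (e.symm z)) (e u) v = 0) : v = 0 := by
  let Λ : (Cm k × Cm 2) ≃L[ℂ] Cm (k + 2) := ContinuousLinearEquiv.ofFinrankEq (by simp)
  have hol : ∀ {φ : Cm (k + 2) → ℂ} {w}, AnalyticAt ℂ φ w → Hol (k + 2) φ w := fun a e he => by
    rw [show e = OpenPartialHomeomorph.refl _ by simpa using he.1]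
    exact a
  have k1 : Λ.symm (Λ (c (F.p u), QQ F h u)) = (c (F.p u), QQ F h u) := Λ.symm_apply_apply _
  have k2 := F.ok.θhol h.1 (k + 2) (Cm (k + 2)) (fun z => c.symm (Λ.symm z).1)
    (fun z => (Λ.symm z).2) (Λ (c (F.p u), QQ F h u))
    (holA_symm (fun a => hol (analyticAt_pi_iff.1 (analyticAt_fst.comp (Λ.symm.analyticAt _)) a))
      hc.1 (by rw [k1]; exact c.map_source hc.2))
    (fun a => hol (analyticAt_pi_iff.1 (analyticAt_snd.comp (Λ.symm.analyticAt _)) a))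
    (by rw [k1, c.left_inv hc.2]; exact hu.1) (by rw [k1]; exact q_ne hu)
  have k3 : ∀ᶠ x in 𝓝 u, F.θ h.1 (c.symm (Λ.symm (Λ (c (F.p x), QQ F h x))).1)
      (Λ.symm (Λ (c (F.p x), QQ F h x))).2 = x := by
    filter_upwards [(F.ok.opn _ _).mem_nhds hu,
      F.ok.hol.cont.continuousAt.eventually (at_near hc)] with x a1 a2
    rw [Λ.symm_apply_apply, c.left_inv a2.2]
    exact (q_spec a1).2
  have k4 := (k2.an (at_chart _) (k3.self_of_nhds.symm ▸ he)).differentiableAt.hasFDerivAt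
  have k5 := Λ.hasFDerivAt.comp _ (((F.ok.hol.at u).an he hc).differentiableAt.hasFDerivAt.prodMk
    ((an_Q hu he).differentiableAt (by simp)).hasFDerivAt)
  have k6 := (comp_eq' k4 k5 (by simp only [Function.comp_apply, he.left_inv]; rfl)).unique
    ((hasFDerivAt_id (e u)).congr_of_eventuallyEq ?_)
  · have k7 := congrArg (· v) k6
    refine k7.symm.trans ?_
    change fderiv ℂ _ _ (Λ (df F.p e c u v, fderiv ℂ (fun z => QQ F h (e.symm z)) (e u) v)) = 0
    rw [h1, h2, Prod.mk_zero_zero, map_zero, map_zero]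
  · filter_upwards [at_ev he k3, e.open_target.mem_nhds (e.map_source he.2)] with z a1 a2
    exact (congrArg e a1).trans (e.right_inv a2)

end Ps

open Ps in
theorem pos_of (hL : LPOS) (hPT : PT) (hT : P1T) : POS := by
  intro n D d k M F hM
  have hP := hPT n D
  have hT' := (hT k F.K F.U F.P F.ok).1
  obtain ⟨B, b1, b2, b3⟩ := exists_B d
  have hlb : IsLB (k + 1) (lin ![pull F.e D.H, F.P.T] ![((2 * B + 1 : ℕ) : ℤ), -B]) :=
    lb_lin (Fin.forall_fin_two.2 ⟨F.se.hol.lb D.lb, hT'⟩) _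
  refine ⟨2 * B + 1, B, b1, hL _ _ _ hlb fun u => ?_⟩
  obtain ⟨i, hi⟩ := hlb.cover u
  have he := at_chart (n := k + 1) u
  set e := chartAt (Cm (k + 1)) u
  have hu : u ∈ F.P.T.U (i 1) := hi 1
  obtain ⟨l, hl⟩ := Function.ne_iff.1 (ev_in hM hu).1
  have h0 : β F l 0 l (i 1) u ≠ 0 := by
    unfold β
    rwa [BB_zero]
  have h1 := b3 _ (by rintro _ ⟨j, rfl, -⟩; exact Nat.le_of_lt_succ j.2) (gcd_one fun g hg =>
    (hM.free (BB l (YY F (i 1) u) (QQ F (i 1) u)) (hM.inv _ (F.mem _ _ hu.1) _ (by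
      rw [det_GG]
      exact mul_ne_zero (Nat.cast_ne_zero.2 hM.pos.ne') hl)) g hg).imp fun _ a => a.2)
  obtain ⟨t₀, t1, t2, -⟩ := mon hu he h0 (h1 0 d.zero_le).2 (A := 2 * B + 1) (by omega)
  refine ⟨i, e, _, hi, he, (t1.cast B.sub_zero rfl).sec hP hM hT',
    div_ne_zero t2 (pow_ne_zero _ (cc_spec hP hM hu (hi 0)).1), fun v hv => ?_⟩
  set lam := dd (t₀ (i 1)) e u v / t₀ (i 1) u
  have h2 : ∀ t, Cov F B (2 * B + 1) t → dd (t (i 1)) e u v = lam * t (i 1) u := fun t ht => by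
    have a1 := hv _ (ht.sec hP hM hT')
    rw [P277Z.Slc.dd_congr (b := fun y => t (i 1) y / t₀ (i 1) y) ((cc_near hP hM hu (hi 0)).mono
      fun y a => div_div_div_cancel_right₀ (pow_ne_zero _ a.1) _ _) he] at a1
    have a2 := dd_mul' (v := v) he ((ht.hol _ u hu).div (t1.hol _ u hu) t2) (t1.hol _ u hu)
    rw [a1, P277Z.Slc.dd_congr (b := t (i 1)) (((t1.hol _ u hu).cont.eventually_ne t2).mono
      fun y a => div_mul_cancel₀ _ a) he] at a2
    rw [a2]
    simp only [lam]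
    ring
  set α := dd (β F l 0 l (i 1)) e u v / β F l 0 l (i 1) u
  have h3 : dd (β F l 0 l (i 1)) e u v = α * β F l 0 l (i 1) u := (div_mul_cancel₀ _ h0).symm
  have hB : (B : ℂ) ≠ 0 := Nat.cast_ne_zero.2 b1.ne'
  set γ := (lam - (2 * B + 1) * α) / B
  have h4 : lam = (2 * B + 1) * α + B * γ := by
    simp only [γ]
    field_simp
    ring
  have h5 : ∀ (j : Fin (d + 1)) m, 0 < j.val → β F l j m (i 1) u ≠ 0 → dd (β F l j m (i 1)) e u v =
      ((j.val + 1) * α + j.val * γ) * β F l j m (i 1) u := fun j m a1 a2 => by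
    obtain ⟨s, hs⟩ := b2 j a1 (Nat.le_of_lt_succ j.2)
    have a3 : s ≤ B := hs ▸ Nat.le_mul_of_pos_left s a1
    obtain ⟨p, hp⟩ : ∃ p, B + 1 = s + p := ⟨B + 1 - s, by omega⟩
    have a4 := h2 _ ((((cov_β l j m).pow s).mul ((cov_β l 0 l).pow p)).cast (by simp [hs]) (by
      simp only [Fin.val_zero]
      nlinarith))
    rw [ld_mul he (((cov_β l j m).pow s).hol _ u hu) (((cov_β l 0 l).pow p).hol _ u hu)
      (ld_pow he ((cov_β l j m).hol _ u hu) (div_mul_cancel₀ _ a2).symm s)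
      (ld_pow he ((cov_β l 0 l).hol _ u hu) h3 p)] at a4
    have a5 := mul_right_cancel₀ (mul_ne_zero (pow_ne_zero _ a2) (pow_ne_zero _ h0)) a4
    have a6 : (B : ℂ) = j.val * s := by exact_mod_cast hs
    have a7 : (B : ℂ) + 1 = s + p := by exact_mod_cast hp
    have a8 : (s : ℂ) ≠ 0 := fun c => hB (by rw [a6, c, mul_zero])
    rw [← div_eq_iff a2]
    refine mul_left_cancel₀ a8 ?_
    linear_combination a5 + h4 + α * a7 + (α + γ) * a6
  have h6 : ∀ (j : Fin (d + 1)) m, dd (β F l j m (i 1)) e u v =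
      ((j.val + 1) * α + j.val * γ) * β F l j m (i 1) u := fun j m => by
    obtain ⟨a1, a2⟩ := h1 j (Nat.le_of_lt_succ j.2)
    obtain ⟨p, hp⟩ := Nat.exists_eq_add_of_le a1
    obtain ⟨t, c1, c2, c3⟩ := mon hu he h0 a2 (A := B + p) (by omega)
    have a3 := h2 _ (((cov_β l j m).mul c1).cast (by omega) (by omega))
    rw [dd_mul' he ((cov_β l j m).hol _ u hu) (c1.hol _ u hu), c3 v α γ h3 h5,
      show B - j.val = p by omega] at a3
    have a4 : (B : ℂ) = j.val + p := by exact_mod_cast hp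
    refine mul_left_cancel₀ c2 ?_
    push_cast at a3
    linear_combination a3 + (β F l j m (i 1) u * t (i 1) u) * (h4 + (α + γ) * a4)
  obtain ⟨ξ, a, r1, r2⟩ := rigid l (an_Y hu he) (an_Q hu he) hM.pos (by rwa [he.left_inv]) v
    (α := α) (γ := γ) fun j m => by rw [he.left_inv]; exact h6 j m
  have hc := at_chart (n := k) (F.p u)
  rw [he.left_inv] at r1 r2
  obtain ⟨r3, r4⟩ := F.ind (i 1).1 _ hu.1 _ hc (df F.p e _ u v) ξ (Eq.trans (congrArg (inf _ ξ + ·) (by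
    funext j m
    have c1 := congrArg (· v) (hasFDerivAt_pi'.1 (hasFDerivAt_pi'.1
      ((an_Y hu he).differentiableAt (by simp)).hasFDerivAt j) m).fderiv
    exact (congrArg (· v) (dd_comp (F.hol _ _ hu.1 j m) (F.ok.hol.at u) he hc)).symm.trans c1)) r1)
  have r5 : a = 0 := by
    have c1 := congrArg (· v) (hasFDerivAt_pi'.1
      ((an_Q hu he).differentiableAt (by simp)).hasFDerivAt (i 1).2).fderiv
    have c2 : dd (fun x => QQ F (i 1) x (i 1).2) e u = dd (fun _ => 1) e u :=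
      P277Z.Slc.dd_congr (mem_of_superset ((F.ok.opn _ _).mem_nhds hu) fun x a => (q_spec a).1) he
    have c3 := congrFun (r2 r3) (i 1).2
    rw [Pi.smul_apply, show QQ F (i 1) u (i 1).2 = 1 from (q_spec hu).1, smul_eq_mul, mul_one] at c3
    refine c3.symm.trans (c1.symm.trans ((congrArg (· v) c2).trans ?_))
    simp [dd]
  exact vec_zero hu he hc r4 (by rw [r2 r3, r5, zero_smul])

end Vale.Agent.P280Z.Cv
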