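import Vale.Agent.P280Z.Cv.Cmp

/-!
# P280Z, block Cv: from the statement to the situation
-/

open scoped Manifold ContDiff Topology Matrix
open Set Filter
open Vale.Agent.P272.K Vale.Agent.P285.H281.FD Vale.Agent.P281Z Vale.Agent.P280Z.Mp

noncomputable section

namespace Vale.Agent.P280Z.Cv

theorem ok_of {A B : Type} [CommRing A] [Algebra ℝ A] [CommRing B] [Algebra ℝ B] {S : NS A B}
    {n r : ℕ} (h : S.OK0 n r) (hn : 0 < n)
    (h2 : ∀ a b, S.GX.Dg 1 a → S.GX.Dg 1 b → ∃ c c' : ℝ, (c ≠ 0 ∨ c' ≠ 0) ∧ c • a + c' • b = 0)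
    (h1 : S.T (S.es (S.pX 1)) = algebraMap ℝ _ ((r : ℝ) + 2)) : S.OK n r := by
  have b2 : ∀ a, S.GX.Dg 1 a → ∃ c : ℝ, a = c • S.η := fun a ha => by
    obtain ⟨c, c', h3, h4⟩ := h2 a _ ha h.dη
    have hc : c ≠ 0 := by
      rintro rfl
      have h5 : S.η = 0 := by
        rw [zero_smul, zero_add] at h4
        rw [← one_smul ℝ S.η, ← inv_mul_cancel₀ (h3.resolve_left fun q => q rfl), mul_smul, h4,
          smul_zero]
      have := h.vol
      rw [h5, zero_pow hn.ne', map_zero] at this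
      exact lt_irrefl _ this
    refine ⟨-(c⁻¹ * c'), ?_⟩
    rw [neg_smul, mul_smul, ← smul_neg, neg_eq_of_add_eq_zero_left h4, smul_smul,
      inv_mul_cancel₀ hc, one_smul]
  refine ⟨h, b2, ?_⟩
  obtain ⟨c, hc⟩ := b2 _ (h.dX 1)
  obtain ⟨D, hD, h5⟩ := h.D
  rw [hc, map_smul, map_smul, h.Tη, Algebra.algebraMap_eq_smul_one] at h1
  have h6 := congrArg (fun b => S.GX.int (S.el (b * (-S.τ) ^ r) * S.η ^ n)) h1
  simp only [smul_mul_assoc, one_mul, map_smul, h5, Algebra.algebraMap_eq_smul_one,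
    smul_eq_mul] at h6
  rw [hc, mul_right_cancel₀ (mul_pos hD h.vol).ne' h6]

theorem sit_of (brg : BRG) (maps : MAPS) (nsx : NSX) (rel : REL) (T : CT) (hT : T.OK)
    {n i m D k : ℕ} (V : Mf n) (hn : 0 < n) (hD : D = n + 1 + i) (hk : k + 4 = D)
    (hm : k + 1 = n + m) (hF : Fano n V.X) (hN : NefRC n V.X) (hI : Iota n V.X i)
    (h2 : B2T T V) : ∃ (N r d δ : ℕ) (P : Eqs r N) (pt : Cm N → V.X) (F : Mp.Fam V P pt d D k)
      (E : VB F.U.X), Sit T δ F m E := by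
  obtain ⟨c, N, r, δ, P, pt, -, H, h1, a, ha⟩ := brg n V i hF hN hI
  obtain ⟨F₀, e₀⟩ := maps V P δ pt _ D k (Crv P) H.cone H.pos H.low H.gen hk
    (fun b hb => hD ▸ h1 b hb) (fun b g hb hg => hb.act hg)
    (fun b hb => Eventually.of_forall fun c hc => iff_of_true hc hb) ⟨a, ha⟩
  obtain ⟨F, -, -, hU⟩ := cmp_of maps F₀ H hk a (e₀ ▸ ha)
  obtain ⟨E, hE⟩ := rel.ex F.e m ⟨F.e_hol, F.e_sbm⟩ hm
  obtain ⟨k1, k2, k3, k4, k5⟩ := nsx T hT F H hF.1 inferInstance m hm E hE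
  exact ⟨N, r, _, δ, P, pt, F, E, hT, hF, H, hU, hm, hk, hE, ok_of k1 hn h2 k4, k2, k3, k5⟩

end Vale.Agent.P280Z.Cv
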