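import Vale.Agent.P280Z.Cv.Cs
import Vale.Agent.P280Z.Cv.Sit
import Vale.Agent.P280Z.Cv.Brg
import Vale.Agent.P280Z.Mp.Free

/-!
# P280Z, block Cv: second Betti number one, from the cases
-/

open scoped Manifold ContDiff Topology Matrix
open Set Filter
open Vale.Agent.P272.K Vale.Agent.P285.H281.FD Vale.Agent.P281Z Vale.Agent.P280Z.Mp
open Vale.Agent.P277 (Bd.inv)

noncomputable section

namespace Vale.Agent.P280Z.Cv

theorem deg_pos (eqs : EQS) {n : ℕ} {V : Mf n} (hF : Fano n V.X) {F : Cm 2 → V.X} {a : ℤ}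
    (h1 : RC n F) (h2 : DegL (Bd.inv (Bd.can n V.X)) F a) : 0 < a := by
  have := hF.1
  obtain ⟨m, N, r, δ, P, pt, s, hm, hc, k1, k2, k3⟩ := eqs n V _ inferInstance (lb_acan n V) hF.2
  obtain ⟨d, e, hd, -⟩ := prc_of pt_all n ⟨V, N, r, δ, P, pt, (Bd.inv (Bd.can n V.X)).pow m, s,
    hF.1, hc, P281Z.lb_pow (lb_acan n V) m, k1, k2, k3⟩ F _ h1 (DegL.pow h2 m)
  exact (mul_pos_iff_of_pos_left (Int.natCast_pos.2 hm)).1 (by rw [e]; exact_mod_cast hd)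

theorem two_le (brg : BRG) (maps : MAPS) {n i : ℕ} {V : Mf n} (hF : Fano n V.X)
    (hN : NefRC n V.X) (hI : Iota n V.X i) : 2 ≤ i ∧ 4 ≤ n + 1 + i := by
  obtain ⟨c, N, r, δ, P, pt, -, H, h1, a, ha⟩ := brg n V i hF hN hI
  have h4 : 4 ≤ n + 1 + i := by
    rw [← (h1 a ha).2]
    have := LinearMap.finrank_le_finrank_of_injective
      (f := (infL a).codRestrict (Tg P a) fun ξ => inf_mem (ha.pv H.cone.hom) ξ)
      ((injective_iff_map_eq_zero _).2 fun ξ h =>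
        (free P a H.pos ha).1 ξ (congrArg Subtype.val h))
    simpa [Module.finrank_matrix] using this
  obtain ⟨k, hk⟩ := Nat.exists_eq_add_of_le' h4
  obtain ⟨F, e⟩ := maps V P δ pt _ _ k (Crv P) H.cone H.pos H.low H.gen hk.symm h1
    (fun b g hb hg => hb.act hg)
    (fun b hb => Eventually.of_forall fun c hc => iff_of_true hc hb) ⟨a, ha⟩
  have := LinearMap.finrank_le_finrank_of_surjective (f := Df (k + 1) n F.e (F.pu a 0))
    (F.e_sbm _ _ _ (CmpH.at_ch _ _) (CmpH.at_ch _ _))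
  simp only [Module.finrank_fin_fun] at this
  omega

theorem r1_of (eqs : EQS) (maps : MAPS) (nsx : NSX) (rel : REL)
    (iot : ∀ (n : ℕ) (V : Mf n), 0 < n → Fano n V.X → ∃ (F : Cm 2 → V.X) (a : ℤ),
      RC n F ∧ DegL (Bd.inv (Bd.can n V.X)) F a ∧ 0 < a ∧ a ≤ n + 1)
    (pn : ∀ (n : ℕ) (V : Mf n), Fano n V.X → (∀ (F : Cm 2 → V.X) (a : ℤ), RC n F →
      DegL (Bd.inv (Bd.can n V.X)) F a → (n : ℤ) + 1 ≤ a) → Gp.Gen n V.X) (cs : Css) : Rh.R1 := by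
  intro T hT n V h6 hF hN h2
  rcases Nat.eq_zero_or_pos n with rfl | hn
  · exact fun e x _ v => ⟨fun _ _ => 0, ⟨fun _ _ _ => analyticAt_const,
      fun _ _ _ _ _ => Subsingleton.elim _ _⟩, Subsingleton.elim _ _⟩
  obtain ⟨F₀, a₀, f1, f2, -, f3⟩ := iot n V hn hF
  obtain ⟨j, ⟨F, g1, g2⟩, g3⟩ := Int.exists_least_of_bdd
    (P := fun a => ∃ F : Cm 2 → V.X, RC n F ∧ DegL (Bd.inv (Bd.can n V.X)) F a)
    ⟨0, fun a ⟨F, k1, k2⟩ => (deg_pos eqs hF k1 k2).le⟩ ⟨a₀, F₀, f1, f2⟩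
  obtain ⟨i, rfl⟩ := Int.eq_ofNat_of_zero_le (deg_pos eqs hF g1 g2).le
  have hI : Iota n V.X i := ⟨⟨F, g1, g2⟩, fun G a k1 k2 => g3 a ⟨G, k1, k2⟩⟩
  have hi : i ≤ n + 1 := by exact_mod_cast (g3 a₀ ⟨F₀, f1, f2⟩).trans f3
  rcases hi.eq_or_lt with rfl | hi
  · exact pn n V hF (by exact_mod_cast hI.2)
  obtain ⟨h3, h4⟩ := two_le (brg_of eqs) maps hF hN hI
  obtain ⟨m, rfl⟩ := Nat.exists_eq_add_of_le' h3
  obtain ⟨k, hk⟩ := Nat.exists_eq_add_of_le' h4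
  obtain ⟨N, r, d, δ, P, pt, G, E, h⟩ := sit_of (brg_of eqs) maps nsx rel T hT.ok (m := m) V hn rfl
    hk.symm (by omega) hF hN hI h2
  have key : CS n m → Gp.Gen n V.X := fun c => c T hT G E h hN (by exact_mod_cast hI)
  rcases Nat.eq_zero_or_pos m with rfl | hm
  · exact key (cs.c0 n (by omega))
  refine key ?_
  clear key h hI g2 g3 hk
  have : m ≤ 4 := by omega
  interval_cases n <;> interval_cases m <;> first
    | omega | exact cs.c31 | exact cs.c41 | exact cs.c51 | exact cs.c61 | exact cs.c42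
    | exact cs.c52 | exact cs.c62 | exact cs.c53 | exact cs.c63 | exact cs.c64

theorem c63_of (h : END) : CS 6 3 := by
  intro T _ N r d D k δ V P pt F E s _ _
  obtain rfl : k = 8 := by have := s.dim; omega
  obtain rfl := s.dimD
  exact h T F E s

end Vale.Agent.P280Z.Cv
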