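import Vale.Agent.P280Z.Nf
import Vale.Agent.P280Z.Cv.Sk2

/-!
# P280Z, block Cv: nef tangent bundles of bases and fibres
-/

open scoped Manifold ContDiff Topology Matrix
open Set Filter
open Vale.Agent.P272.K Vale.Agent.P285.H281.FD Vale.Agent.P281Z

noncomputable section

namespace Vale.Agent.P280Z.Cv

/-- row NRC -/
def NRC : Prop := ∀ (n : ℕ) (V : Mf n), NefT n V.X → NefRC n V.X

/-- row NBASE: the base of a smooth fibration -/
def NBASE : Prop := ∀ {n m : ℕ} (V : Mf n) (B : Mf m) (π : V.X → B.X) (H : Bd V.X), Sub n m π →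
  (∀ y, IsConnected (π ⁻¹' {y})) → IsLB n H → Pos n H → NefT n V.X → NefT m B.X

/-- row NFIB: the fibres of a smooth fibration -/
def NFIB : Prop := ∀ {n m d : ℕ} (V : Mf n) (B : Mf m) (π : V.X → B.X) (H : Bd V.X) (Z : Mf d)
  (i : Z.X → V.X) (y : B.X), Sub n m π → ConnectedSpace V.X → IsLB n H → Pos n H →
  Emb d n i (π ⁻¹' {y}) → NefRC n V.X → NefRC d Z.X

/-- **stage two** -/
def TWO' : Prop := ∀ (n : ℕ) (X : Mf n), n ≤ 6 → Fano n X.X → NefT n X.X → Gp.Gen n X.X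

end Vale.Agent.P280Z.Cv
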