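import Vale.Agent.P280Z.Cv.One
import Vale.Agent.P280Z.Cv.R1
import Vale.Agent.P280Z.Cv.Fa
import Vale.Agent.P280Z.Cv.Nrc
import Vale.Agent.P280Z.Cv.Nbase
import Vale.Agent.P280Z.Ma.Ex
import Vale.Agent.P280Z.Br.Fl
import Vale.Agent.P280Z.En.Cq
import Vale.Agent.P280Z.Rh.Bas
import Vale.Agent.P280Z.Rh.Kcp

/-!
# P280Z: stage two, the assembly
-/

open Vale.Agent.P281Z

noncomputable section

namespace Vale.Agent.P280Z.Cv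

theorem th_ct : Rh.Th Co.ct := ⟨Co.ct_ok, Hr.hrr _ Co.ct_ok, Rh.kcp_ct⟩

theorem nrc : NRC := nrc_of Pb.psex

theorem nbase : NBASE := nbase_of' Co.coh fp Ld.ld

theorem c0 : ∀ n, 2 ≤ n → CS n 0 :=
  c0_of Gm.cov Gm.eta fun _ _ _ _ _ _ _ _ _ _ _ _ F E s => Ma.ex_of s.ok F s.hyp E s.cU s.ns.toOK0

theorem r1_of' (al : ALN) (c31 : CS 3 1) (c41 : CS 4 1) (c51 : CS 5 1) (c61 : CS 6 1)
    (c52 : CS 5 2) (c62 : CS 6 2) (c64 : CS 6 4) : Rh.R1 :=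
  r1_of eqs Mp.maps Ma.nsx Ma.rel Br.iot Br.pn ⟨c0, c31, c41, c51, c61, En.c42, c52, c62, En.c53,
    c63_of (end_of Hr.hrr al Gm.fund (En.dp5 Hr.hrr)), c64⟩

theorem two_of (sys : Sq.SYS) (nsa : Sq.NSA) (r1 : Rh.R1) (p1 : Rh.PONE) (p2 : Rh.PTWO) : TWO' :=
  Rh.two_of th_ct sys nsa Ma.rel nrc nbase r1 p1 p2

theorem rh_of (h : TWO') (n : ℕ) (X : Mf n) (hn : n ≤ 6) (hF : Fano n X.X) (hN : NefT n X.X) :
    Gp.RatHom n X.X :=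
  have := hF.1
  Gp.of_pos X hF.2 (h n X hn hF hN)

end Vale.Agent.P280Z.Cv
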